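import Vale.Agent.P165.H794.Main

/-!
# Exponential decay of the two-point function from `L²` boundedness
-/

set_option autoImplicit false

open Finset MeasureTheory ProbabilityTheory
open scoped ENNReal

namespace Vale.Agent.P165.H161

open Vale.Agent.P151 (Ex Cn cl csz edgesIn EV con tau)
open Vale.Agent.P165.LF Vale.Agent.P165.BS Vale.Agent.P165.BS2

variable {V : Type} [DecidableEq V] {G : SimpleGraph V}

/-- A connection from `x` to `y` passes at every distance from `x` up to `d(x, y)`. -/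
theorem exists_at_dist (hG : G.Connected) {F : Finset V} {P : Finset (Sym2 V)}
    (hP : P ⊆ edgesIn G F) {x y : V} (h : Cn P x y) {m : ℕ} (hm : m ≤ G.dist x y) :
    ∃ z, Cn P x z ∧ G.dist x z = m := by
  by_contra hcon
  push Not at hcon
  rcases Nat.eq_zero_or_pos m with rfl | hm0
  · exact hcon x (SimpleGraph.Reachable.refl _) (SimpleGraph.dist_self)
  · have h1 := Vale.Agent.P151.Cn_closed (S := P) (A := {v | Cn P x v ∧ G.dist x v < m}) ?_
      (x := x) (y := y) ⟨SimpleGraph.Reachable.refl _, by rwa [SimpleGraph.dist_self]⟩ h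
    · exact absurd h1.2 (not_lt.2 hm)
    · rintro u ⟨hu1, hu2⟩ v huv
      have hv1 : Cn P x v := hu1.trans (Vale.Agent.P151.Cn_of_mem huv)
      refine ⟨hv1, ?_⟩
      have hadj : G.Adj u v := (Vale.Agent.P151.mem_edgesIn.1 (hP huv)).1
      have h2 : G.dist x v ≤ G.dist x u + 1 := by
        have h3 := hG.dist_triangle (u := x) (v := u) (w := v)
        rwa [SimpleGraph.dist_eq_one_iff_adj.2 hadj] at h3
      have h3 := hcon v hv1
      omega

theorem Cn_mem {F : Finset V} {S : Finset (Sym2 V)} (hS : S ⊆ edgesIn G F) {x z : V}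
    (hx : x ∈ F) (h : Cn S x z) : z ∈ F :=
  Vale.Agent.P151.Cn_closed (S := S) (A := {v | v ∈ F})
    (fun _ _ v huv => (Vale.Agent.P151.mem_edgesIn.1 (hS huv)).2 v (Sym2.mem_mk_right _ _)) hx h

/-- Splitting a connection at the sphere of radius `m` (BK inequality). -/
theorem split (hG : G.Connected) {p : ℝ} (h0 : 0 ≤ p) (h1 : p ≤ 1) (F : Finset V) {x y : V}
    (hx : x ∈ F) {m : ℕ} (hm : m ≤ G.dist x y) :
    Ex p (edgesIn G F) (con x y) ≤ ∑ z ∈ F, (if G.dist x z = m then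
      Ex p (edgesIn G F) (con x z) else 0) * Ex p (edgesIn G F) (con z y) := by
  have hb : ∀ z, Ex p (edgesIn G F) (fun S => ind (∃ S1 S2, S1 ⊆ S ∧ S2 ⊆ S ∧ Disjoint S1 S2 ∧
      Cn S1 x z ∧ Cn S2 z y)) ≤
      Ex p (edgesIn G F) (con x z) * Ex p (edgesIn G F) (con z y) := by
    intro z
    have h2 := bk h0 h1 (edgesIn G F) (fun S => Cn S x z) (fun S => Cn S z y)
      (fun S S' h h' => h'.mono h) (fun S S' h h' => h'.mono h)
    have e1 : (fun S => ind (Cn S x z)) = con x z := by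
      funext S; exact (con_eq_ind x z S).symm
    have e2 : (fun S => ind (Cn S z y)) = con z y := by
      funext S; exact (con_eq_ind z y S).symm
    rwa [e1, e2] at h2
  calc Ex p (edgesIn G F) (con x y)
      ≤ Ex p (edgesIn G F) (fun S => ∑ z ∈ F.filter (fun z => G.dist x z = m),
          ind (∃ S1 S2, S1 ⊆ S ∧ S2 ⊆ S ∧ Disjoint S1 S2 ∧ Cn S1 x z ∧ Cn S2 z y)) := by
        refine Vale.Agent.P151.Ex_mono h0 h1 fun S hS => ?_
        rw [con_eq_ind]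
        by_cases h : Cn S x y
        · obtain ⟨P, hPS, hP, -, hsp⟩ := path_split' S x y h
          obtain ⟨z, hz, hzm⟩ := exists_at_dist hG (hPS.trans hS) hP hm
          obtain ⟨S1, S2, hS1, hS2, hd, hc1, hc2⟩ := hsp z hz
          have hzF : z ∈ F := Cn_mem (hPS.trans hS) hx hz
          have h3 : ind (∃ S1 S2, S1 ⊆ S ∧ S2 ⊆ S ∧ Disjoint S1 S2 ∧ Cn S1 x z ∧ Cn S2 z y) = 1 :=
            ind_true ⟨S1, S2, hS1.trans hPS, hS2.trans hPS, hd, hc1, hc2⟩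
          rw [ind_true h, ← h3]
          exact Finset.single_le_sum (f := fun z => ind (∃ S1 S2, S1 ⊆ S ∧ S2 ⊆ S ∧
            Disjoint S1 S2 ∧ Cn S1 x z ∧ Cn S2 z y)) (fun z _ => ind_nonneg _)
            (Finset.mem_filter.2 ⟨hzF, hzm⟩)
        · rw [ind_false h]
          exact Finset.sum_nonneg fun z _ => ind_nonneg _
    _ = ∑ z ∈ F.filter (fun z => G.dist x z = m), Ex p (edgesIn G F) (fun S =>
          ind (∃ S1 S2, S1 ⊆ S ∧ S2 ⊆ S ∧ Disjoint S1 S2 ∧ Cn S1 x z ∧ Cn S2 z y)) :=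
        Vale.Agent.P151.Ex_sum p _ _ _
    _ ≤ ∑ z ∈ F.filter (fun z => G.dist x z = m),
          Ex p (edgesIn G F) (con x z) * Ex p (edgesIn G F) (con z y) :=
        Finset.sum_le_sum fun z _ => hb z
    _ = _ := by
        rw [Finset.sum_filter]
        refine Finset.sum_congr rfl fun z _ => ?_
        split_ifs <;> ring

/-! ### Norms of nonnegative kernels on a finite set -/

/-- The bilinear form of `W` on `F` is bounded by `c`. -/
def Nm (F : Finset V) (W : V → V → ℝ) (c : ℝ) : Prop :=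
  0 ≤ c ∧ ∀ φ ψ : V → ℝ, (∀ x, 0 ≤ φ x) → (∀ x, 0 ≤ ψ x) →
    (∑ x ∈ F, ∑ y ∈ F, φ x * ψ y * W x y) ^ 2 ≤
      c ^ 2 * ((∑ x ∈ F, φ x ^ 2) * ∑ y ∈ F, ψ y ^ 2)

theorem sq_le_of {L c A : ℝ} (hL : 0 ≤ L) (hA : 0 ≤ A) (h : L ^ 2 ≤ c * (L * A)) (hc : 0 ≤ c) :
    L ≤ c * A := by
  rcases hL.eq_or_lt with rfl | h0
  · positivity
  · have : L * L ≤ L * (c * A) := by nlinarith only [h]
    exact le_of_mul_le_mul_left this h0

theorem Nm.right {F : Finset V} {W : V → V → ℝ} {c : ℝ} (h : Nm F W c) (hW : ∀ x y, 0 ≤ W x y)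
    {ψ : V → ℝ} (hψ : ∀ x, 0 ≤ ψ x) :
    ∑ x ∈ F, (∑ y ∈ F, W x y * ψ y) ^ 2 ≤ c ^ 2 * ∑ y ∈ F, ψ y ^ 2 := by
  have h1 := h.2 (fun x => ∑ y ∈ F, W x y * ψ y) ψ
    (fun x => Finset.sum_nonneg fun y _ => mul_nonneg (hW x y) (hψ y)) hψ
  have e : ∑ x ∈ F, ∑ y ∈ F, (∑ y ∈ F, W x y * ψ y) * ψ y * W x y =
      ∑ x ∈ F, (∑ y ∈ F, W x y * ψ y) ^ 2 := by
    refine Finset.sum_congr rfl fun x _ => ?_
    rw [sq, Finset.mul_sum]
    exact Finset.sum_congr rfl fun y _ => by ring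
  rw [e] at h1
  exact sq_le_of (Finset.sum_nonneg fun _ _ => sq_nonneg _)
    (Finset.sum_nonneg fun _ _ => sq_nonneg _) h1 (sq_nonneg _)

theorem Nm.left {F : Finset V} {W : V → V → ℝ} {c : ℝ} (h : Nm F W c) (hW : ∀ x y, 0 ≤ W x y)
    {φ : V → ℝ} (hφ : ∀ x, 0 ≤ φ x) :
    ∑ y ∈ F, (∑ x ∈ F, φ x * W x y) ^ 2 ≤ c ^ 2 * ∑ x ∈ F, φ x ^ 2 := by
  have h1 := h.2 φ (fun y => ∑ x ∈ F, φ x * W x y) hφ
    (fun y => Finset.sum_nonneg fun x _ => mul_nonneg (hφ x) (hW x y))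
  have e : ∑ x ∈ F, ∑ y ∈ F, φ x * (∑ x ∈ F, φ x * W x y) * W x y =
      ∑ y ∈ F, (∑ x ∈ F, φ x * W x y) ^ 2 := by
    rw [Finset.sum_comm]
    refine Finset.sum_congr rfl fun y _ => ?_
    rw [sq, Finset.mul_sum]
    exact Finset.sum_congr rfl fun x _ => by ring
  rw [e] at h1
  refine sq_le_of (Finset.sum_nonneg fun _ _ => sq_nonneg _)
    (Finset.sum_nonneg fun _ _ => sq_nonneg _) (h1.trans (le_of_eq (by ring))) (sq_nonneg _)

/-- The composition of two kernels. -/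
theorem comp_le {F : Finset V} {W A B : V → V → ℝ}
    (hWAB : ∀ x ∈ F, ∀ y ∈ F, W x y ≤ ∑ z ∈ F, A x z * B z y) {φ ψ : V → ℝ}
    (hφ : ∀ x, 0 ≤ φ x) (hψ : ∀ x, 0 ≤ ψ x) (hW : ∀ x y, 0 ≤ W x y) :
    (∑ x ∈ F, ∑ y ∈ F, φ x * ψ y * W x y) ^ 2 ≤
      (∑ z ∈ F, (∑ x ∈ F, φ x * A x z) ^ 2) * ∑ z ∈ F, (∑ y ∈ F, B z y * ψ y) ^ 2 := by
  have h1 : ∑ x ∈ F, ∑ y ∈ F, φ x * ψ y * W x y ≤
      ∑ z ∈ F, (∑ x ∈ F, φ x * A x z) * (∑ y ∈ F, B z y * ψ y) := by
    calc ∑ x ∈ F, ∑ y ∈ F, φ x * ψ y * W x y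
        ≤ ∑ x ∈ F, ∑ y ∈ F, φ x * ψ y * ∑ z ∈ F, A x z * B z y :=
          Finset.sum_le_sum fun x hx => Finset.sum_le_sum fun y hy =>
            mul_le_mul_of_nonneg_left (hWAB x hx y hy) (mul_nonneg (hφ x) (hψ y))
      _ = ∑ x ∈ F, ∑ y ∈ F, ∑ z ∈ F, φ x * A x z * (B z y * ψ y) := by
          refine Finset.sum_congr rfl fun x _ => Finset.sum_congr rfl fun y _ => ?_
          rw [Finset.mul_sum]
          exact Finset.sum_congr rfl fun z _ => by ring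
      _ = ∑ x ∈ F, ∑ z ∈ F, ∑ y ∈ F, φ x * A x z * (B z y * ψ y) :=
          Finset.sum_congr rfl fun x _ => Finset.sum_comm
      _ = ∑ z ∈ F, ∑ x ∈ F, ∑ y ∈ F, φ x * A x z * (B z y * ψ y) := Finset.sum_comm
      _ = _ := by
          refine Finset.sum_congr rfl fun z _ => ?_
          rw [Finset.sum_mul_sum]
  have h2 : 0 ≤ ∑ x ∈ F, ∑ y ∈ F, φ x * ψ y * W x y :=
    Finset.sum_nonneg fun x _ => Finset.sum_nonneg fun y _ =>
      mul_nonneg (mul_nonneg (hφ x) (hψ y)) (hW x y)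
  exact (pow_le_pow_left₀ h2 h1 2).trans (Finset.sum_mul_sq_le_sq_mul_sq _ _ _)

/-! ### The kernels -/

section ker

variable (G) (p : ℝ) (F : Finset V)

/-- the connection probabilities in `F` -/
noncomputable def Kf (x y : V) : ℝ := Ex p (edgesIn G F) (con x y)

/-- far connections -/
noncomputable def Uf (n : ℕ) (x y : V) : ℝ := if n ≤ G.dist x y then Kf G p F x y else 0

/-- connections at a given distance -/
noncomputable def Sf (m : ℕ) (x y : V) : ℝ := if G.dist x y = m then Kf G p F x y else 0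

end ker

variable {p : ℝ} {F : Finset V}

theorem Kf_nn (h0 : 0 ≤ p) (h1 : p ≤ 1) (x y : V) : 0 ≤ Kf G p F x y :=
  Vale.Agent.P151.Ex_nonneg h0 h1 fun S _ => Vale.Agent.P151.con_nonneg x y S

theorem Uf_nn (h0 : 0 ≤ p) (h1 : p ≤ 1) (n : ℕ) (x y : V) : 0 ≤ Uf G p F n x y := by
  unfold Uf
  split_ifs
  exacts [Kf_nn h0 h1 x y, le_rfl]

theorem Sf_nn (h0 : 0 ≤ p) (h1 : p ≤ 1) (n : ℕ) (x y : V) : 0 ≤ Sf G p F n x y := by
  unfold Sf
  split_ifs
  exacts [Kf_nn h0 h1 x y, le_rfl]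

theorem Uf_le (h0 : 0 ≤ p) (h1 : p ≤ 1) (n : ℕ) (x y : V) : Uf G p F n x y ≤ Kf G p F x y := by
  unfold Uf
  split_ifs
  exacts [le_rfl, Kf_nn h0 h1 x y]

theorem Sf_le_Uf (h0 : 0 ≤ p) (h1 : p ≤ 1) (n : ℕ) (x y : V) :
    Sf G p F n x y ≤ Uf G p F n x y := by
  unfold Sf Uf
  by_cases h : G.dist x y = n
  · rw [if_pos h, if_pos h.ge]
  · rw [if_neg h]
    split_ifs
    exacts [Kf_nn h0 h1 x y, le_rfl]

/-- splitting at the sphere of radius `m` -/
theorem Uf_split (hG : G.Connected) (h0 : 0 ≤ p) (h1 : p ≤ 1) (m n : ℕ) {x : V} (hx : x ∈ F)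
    (y : V) : Uf G p F (m + n) x y ≤ ∑ z ∈ F, Sf G p F m x z * Uf G p F n z y := by
  by_cases h : m + n ≤ G.dist x y
  · have h2 := split hG h0 h1 F hx (m := m) (y := y) (by omega)
    unfold Uf
    rw [if_pos h]
    refine h2.trans (Finset.sum_le_sum fun z _ => ?_)
    unfold Sf Kf
    by_cases hz : G.dist x z = m
    · rw [if_pos hz, if_pos]
      have h3 := hG.dist_triangle (u := x) (v := z) (w := y)
      omega
    · rw [if_neg hz, zero_mul, zero_mul]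
  · unfold Uf
    rw [if_neg h]
    exact Finset.sum_nonneg fun z _ => mul_nonneg (Sf_nn h0 h1 m x z) (Uf_nn h0 h1 n z y)

/-- **The norm of the far part of the two-point operator tends to zero.** -/
theorem Nm_Uf (hG : G.Connected) (h0 : 0 ≤ p) (h1 : p ≤ 1) {N : ℝ}
    (hN : Nm F (Kf G p F) N) (n : ℕ) : Nm F (Uf G p F n) (N ^ 2 / √(n + 1)) := by
  refine ⟨by positivity, fun φ ψ hφ hψ => ?_⟩
  set a := ∑ x ∈ F, ∑ y ∈ F, φ x * ψ y * Uf G p F n x y with ha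
  set Φ := ∑ x ∈ F, φ x ^ 2 with hΦ
  set Ψ := ∑ y ∈ F, ψ y ^ 2 with hΨ
  have hΦ0 : 0 ≤ Φ := Finset.sum_nonneg fun _ _ => sq_nonneg _
  have hΨ0 : 0 ≤ Ψ := Finset.sum_nonneg fun _ _ => sq_nonneg _
  have hK : ∀ x y, 0 ≤ Kf G p F x y := fun x y => Kf_nn h0 h1 x y
  have hm : ∀ m ∈ Finset.range (n + 1), a ^ 2 ≤
      (∑ z ∈ F, (∑ x ∈ F, φ x * Sf G p F m x z) ^ 2) * (N ^ 2 * Ψ) := by
    intro m hm
    have hmn : m ≤ n := Nat.lt_succ_iff.1 (Finset.mem_range.1 hm)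
    have h2 := comp_le (F := F) (W := Uf G p F n) (A := Sf G p F m) (B := Kf G p F)
      (fun x hx y _ => by
        have h3 := Uf_split hG h0 h1 m (n - m) hx y
        rw [Nat.add_sub_cancel' hmn] at h3
        exact h3.trans (Finset.sum_le_sum fun z _ =>
          mul_le_mul_of_nonneg_left (Uf_le h0 h1 _ z y) (Sf_nn h0 h1 m x z)))
      hφ hψ (Uf_nn h0 h1 n)
    exact h2.trans (mul_le_mul_of_nonneg_left (hN.right hK hψ)
      (Finset.sum_nonneg fun _ _ => sq_nonneg _))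
  have hsum := Finset.sum_le_sum hm
  rw [Finset.sum_const, Finset.card_range, nsmul_eq_mul, ← Finset.sum_mul] at hsum
  have hS : ∑ m ∈ Finset.range (n + 1), ∑ z ∈ F, (∑ x ∈ F, φ x * Sf G p F m x z) ^ 2 ≤
      N ^ 2 * Φ := by
    refine le_trans ?_ (hN.left hK hφ)
    rw [Finset.sum_comm]
    refine Finset.sum_le_sum fun z _ => ?_
    have hnn : ∀ m, 0 ≤ ∑ x ∈ F, φ x * Sf G p F m x z := fun m =>
      Finset.sum_nonneg fun x _ => mul_nonneg (hφ x) (Sf_nn h0 h1 m x z)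
    refine (Finset.sum_sq_le_sq_sum_of_nonneg fun m _ => hnn m).trans ?_
    refine pow_le_pow_left₀ (Finset.sum_nonneg fun m _ => hnn m) ?_ 2
    rw [Finset.sum_comm]
    refine Finset.sum_le_sum fun x _ => ?_
    rw [← Finset.mul_sum]
    refine mul_le_mul_of_nonneg_left ?_ (hφ x)
    unfold Sf
    rw [Finset.sum_ite_eq]
    split_ifs
    exacts [le_rfl, hK x z]
  have hfin : ((n + 1 : ℕ) : ℝ) * a ^ 2 ≤ (N ^ 2 * Φ) * (N ^ 2 * Ψ) :=
    hsum.trans (mul_le_mul_of_nonneg_right hS (by positivity))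
  have hn : (0 : ℝ) < n + 1 := by positivity
  rw [div_pow, Real.sq_sqrt hn.le, div_mul_eq_mul_div, le_div_iff₀ hn]
  push_cast at hfin
  nlinarith only [hfin]

theorem Nm_Uf_pow (hG : G.Connected) (h0 : 0 ≤ p) (h1 : p ≤ 1) {N : ℝ}
    (hN : Nm F (Kf G p F) N) {n : ℕ} {r : ℝ} (hn : Nm F (Uf G p F n) r) (k : ℕ) :
    Nm F (Uf G p F (k * n)) (N * r ^ k) := by
  induction k with
  | zero =>
    rw [Nat.zero_mul, pow_zero, mul_one]
    refine ⟨hN.1, fun φ ψ hφ hψ => ?_⟩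
    have e : Uf G p F 0 = Kf G p F := by
      funext x y
      unfold Uf
      rw [if_pos (Nat.zero_le _)]
    rw [e]
    exact hN.2 φ ψ hφ hψ
  | succ k ih =>
    refine ⟨mul_nonneg hN.1 (pow_nonneg hn.1 _), fun φ ψ hφ hψ => ?_⟩
    have h2 := comp_le (F := F) (W := Uf G p F ((k + 1) * n)) (A := Uf G p F n)
      (B := Uf G p F (k * n))
      (fun x hx y _ => by
        have h3 := Uf_split hG h0 h1 n (k * n) hx y
        rw [show n + k * n = (k + 1) * n by ring] at h3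
        exact h3.trans (Finset.sum_le_sum fun z _ =>
          mul_le_mul_of_nonneg_right (Sf_le_Uf h0 h1 n x z) (Uf_nn h0 h1 _ z y)))
      hφ hψ (Uf_nn h0 h1 _)
    refine h2.trans ?_
    have h3 := hn.left (Uf_nn h0 h1 n) hφ
    have h4 := ih.right (Uf_nn h0 h1 _) hψ
    refine (mul_le_mul h3 h4 (Finset.sum_nonneg fun _ _ => sq_nonneg _) (by positivity)).trans
      (le_of_eq ?_)
    ring

/-- pointwise decay in a finite volume -/
theorem Kf_decay (hG : G.Connected) (h0 : 0 ≤ p) (h1 : p ≤ 1) {N : ℝ}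
    (hN : Nm F (Kf G p F) N) {n : ℕ} (hn0 : 0 < n) (hn : 2 * N ^ 2 ≤ √(n + 1)) {x y : V}
    (hx : x ∈ F) (hy : y ∈ F) : Kf G p F x y ≤ N * (1 / 2) ^ (G.dist x y / n) := by
  have hr : Nm F (Uf G p F n) (1 / 2) := by
    have h2 := Nm_Uf hG h0 h1 hN n
    have hs : 0 < √((n : ℝ) + 1) := Real.sqrt_pos.2 (by positivity)
    have h3 : N ^ 2 / √(n + 1) ≤ 1 / 2 := by
      rw [div_le_iff₀ hs]
      linarith only [hn]
    refine ⟨by norm_num, fun φ ψ hφ hψ => (h2.2 φ ψ hφ hψ).trans ?_⟩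
    refine mul_le_mul_of_nonneg_right (pow_le_pow_left₀ h2.1 h3 2) ?_
    exact mul_nonneg (Finset.sum_nonneg fun _ _ => sq_nonneg _)
      (Finset.sum_nonneg fun _ _ => sq_nonneg _)
  set k := G.dist x y / n with hk
  have h2 := Nm_Uf_pow hG h0 h1 hN hr k
  have h3 := h2.2 (fun v => if v = x then 1 else 0) (fun v => if v = y then 1 else 0)
    (fun v => by split_ifs <;> norm_num) (fun v => by split_ifs <;> norm_num)
  have e1 : ∑ a ∈ F, ∑ b ∈ F, (if a = x then (1 : ℝ) else 0) * (if b = y then 1 else 0) *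
      Uf G p F (k * n) a b = Uf G p F (k * n) x y := by
    rw [Finset.sum_eq_single_of_mem x hx, Finset.sum_eq_single_of_mem y hy]
    · rw [if_pos rfl, if_pos rfl, one_mul, one_mul]
    · intro b _ hb
      rw [if_neg hb]
      ring
    · intro a _ ha
      refine Finset.sum_eq_zero fun b _ => ?_
      rw [if_neg ha]
      ring
  have e2 : ∀ u ∈ F, ∑ a ∈ F, (if a = u then (1 : ℝ) else 0) ^ 2 = 1 := by
    intro u hu
    rw [Finset.sum_eq_single_of_mem u hu]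
    · rw [if_pos rfl]; norm_num
    · intro b _ hb
      rw [if_neg hb]; norm_num
  rw [e1, e2 x hx, e2 y hy, mul_one, mul_one] at h3
  have h4 : Uf G p F (k * n) x y = Kf G p F x y := by
    unfold Uf
    rw [if_pos (Nat.div_mul_le_self _ _)]
  rw [h4] at h3
  exact abs_le_of_sq_le_sq' h3 h2.1 |>.2

/-- **Exponential decay from the `L²` bound.** -/
theorem tau_decay (hG : G.Connected) {N : ℝ} {n : ℕ} (hn0 : 0 < n)
    (hn : 2 * N ^ 2 ≤ √(n + 1)) (h0 : 0 ≤ p) (h1 : p ≤ 1) (hL : L2B G p N) (x y : V) :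
    tau G p x y ≤ N * (1 / 2) ^ (G.dist x y / n) := by
  refine Vale.Agent.P151.EV_le fun F => ?_
  have h2 : Ex p (edgesIn G F) (con x y) ≤ Ex p (edgesIn G (insert x (insert y F))) (con x y) :=
    Vale.Agent.P151.Ex_edgesIn_mono h0 h1 (Vale.Agent.P151.con_mono x y)
      ((Finset.subset_insert _ _).trans (Finset.subset_insert _ _))
  refine h2.trans ?_
  exact Kf_decay hG h0 h1 (F := insert x (insert y F))
    ⟨hL.1, fun φ ψ hφ hψ => hL.2 _ φ ψ hφ hψ⟩ hn0 hn (Finset.mem_insert_self _ _)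
    (Finset.mem_insert_of_mem (Finset.mem_insert_self _ _))

/-- `(1 / 2) ^ ⌊D / n⌋ ≤ 2 exp (- (log 2 / n) D)` -/
theorem half_pow_le {n : ℕ} (hn : 0 < n) (D : ℕ) :
    ((1 : ℝ) / 2) ^ (D / n) ≤ 2 * Real.exp (-(Real.log 2 / n * D)) := by
  have hn' : (0 : ℝ) < n := by exact_mod_cast hn
  have h2 : (D : ℝ) / n < ((D / n : ℕ) : ℝ) + 1 := by
    rw [div_lt_iff₀ hn']
    have := Nat.lt_div_mul_add hn (a := D)
    have h3 : D < (D / n + 1) * n := by rw [Nat.add_mul, Nat.one_mul]; exact this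
    exact_mod_cast h3
  have hl : 0 < Real.log 2 := Real.log_pos (by norm_num)
  have e : ((1 : ℝ) / 2) ^ (D / n) = Real.exp (-(Real.log 2 * ((D / n : ℕ) : ℝ))) := by
    rw [← Real.rpow_natCast, Real.rpow_def_of_pos (by norm_num), one_div, Real.log_inv]
    congr 1
    ring
  rw [e]
  nth_rewrite 2 [← Real.exp_log (show (0 : ℝ) < 2 by norm_num)]
  rw [← Real.exp_add]
  refine Real.exp_le_exp.2 ?_
  have h4 : Real.log 2 / n * D = Real.log 2 * (D / n) := by ring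
  rw [h4]
  nlinarith only [hl, h2]

theorem main_type [G.LocallyFinite] [Infinite V] (hG : G.Connected) (hqt : IsQuasiTransitive G)
    (hna : 0 < vertexCheeger G) : ∃ p₁ c C : ℝ, pc G < p₁ ∧ 0 < c ∧ ∀ p : unitInterval,
      (p : ℝ) ≤ p₁ → ∀ x y : V,
        (twoPoint G p x y).toReal ≤ C * Real.exp (-(c * G.dist x y)) := by
  have hne : Nonempty V := hG.nonempty
  have hlt : pc G < pTwoTwo G := H794.pc_lt_of_nonamenable hG hqt hna
    fun p N h0 h1 hL => H794.le_pTwoTwo hG h0 h1 hL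
  obtain ⟨p₁, N, hp₁, h10, h11, hL⟩ := H794.exists_L2B_of_lt hG hlt
  have hN1 : 1 ≤ N :=
    H794.one_le_of_normTwoLe (H794.normTwoLe_of_L2B hG ⟨p₁, h10, h11⟩ hL)
  obtain ⟨n, hn⟩ := exists_nat_ge ((2 * N ^ 2) ^ 2)
  have hn2 : 2 * N ^ 2 ≤ √((n : ℝ) + 1) := Real.le_sqrt_of_sq_le (by linarith)
  have hn0 : 0 < n := by
    rcases Nat.eq_zero_or_pos n with rfl | h
    · exfalso
      have : (0 : ℝ) < (2 * N ^ 2) ^ 2 := by positivity
      rw [Nat.cast_zero] at hn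
      linarith
    · exact h
  refine ⟨p₁, Real.log 2 / n, N * 2, hp₁,
    div_pos (Real.log_pos (by norm_num)) (by exact_mod_cast hn0), fun p hp x y => ?_⟩
  rw [H794.twoPoint_eq G hG]
  refine (tau_decay hG hn0 hn2 p.2.1 p.2.2 (hL.mg_mono p.2.1 hp h11) x y).trans ?_
  rw [mul_assoc]
  exact mul_le_mul_of_nonneg_left (half_pow_le hn0 _) (by linarith)

end Vale.Agent.P165.H161
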