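import Vale.Agent.P165.H161.Lq

/-!
# Extension of the `ℓ^q` bound beyond `p_c`
-/

set_option autoImplicit false

open Finset MeasureTheory ProbabilityTheory Filter Topology
open scoped ENNReal

namespace Vale.Agent.P165.H161

open Vale.Agent.P151 (Ex Cn cl csz edgesIn EV con tau)
open Vale.Agent.P165.LF Vale.Agent.P165.BS Vale.Agent.P165.BS2

variable {V : Type} [DecidableEq V] {G : SimpleGraph V} {F : Finset V} {q q' : ℝ}

/-- Hölder's inequality over the darts of `F`. -/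
theorem dart_holder [G.LocallyFinite] {d : ℕ} (hd : ∀ x, G.degree x ≤ d)
    (hpq : q.HolderConjugate q') (F : Finset V) {u v : V → ℝ} (hu : ∀ x, 0 ≤ u x)
    (hv : ∀ x, 0 ≤ v x) :
    ∑ a ∈ F, ∑ b ∈ F ∩ G.neighborFinset a, u a * v b ≤
      d * ((∑ a ∈ F, u a ^ q) ^ (1 / q) * (∑ b ∈ F, v b ^ q') ^ (1 / q')) := by
  have hq0 := hpq.pos
  have hq0' := hpq.symm.pos
  have hcard : ∀ a, ((F ∩ G.neighborFinset a).card : ℝ) ≤ d := fun a => by
    have h1 : (F ∩ G.neighborFinset a).card ≤ G.degree a := by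
      rw [← SimpleGraph.card_neighborFinset_eq_degree]
      exact Finset.card_le_card Finset.inter_subset_right
    exact_mod_cast h1.trans (hd a)
  have h := Real.inner_le_Lp_mul_Lq_of_nonneg (darts G F) hpq (f := fun z => u z.1)
    (g := fun z => v z.2) (fun z _ => hu _) (fun z _ => hv _)
  have e1 : ∑ a ∈ F, ∑ b ∈ F ∩ G.neighborFinset a, u a * v b =
      ∑ z ∈ darts G F, u z.1 * v z.2 := (sum_darts F fun a b => u a * v b).symm
  have hA : ∑ z ∈ darts G F, u z.1 ^ q ≤ d * ∑ a ∈ F, u a ^ q := by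
    rw [sum_darts F fun a _ => u a ^ q, Finset.mul_sum]
    refine Finset.sum_le_sum fun a _ => ?_
    rw [Finset.sum_const, nsmul_eq_mul]
    exact mul_le_mul_of_nonneg_right (hcard a) (Real.rpow_nonneg (hu a) _)
  have hB : ∑ z ∈ darts G F, v z.2 ^ q' ≤ d * ∑ b ∈ F, v b ^ q' := by
    have e2 : ∑ z ∈ darts G F, v z.2 ^ q' = ∑ z ∈ darts G F, v z.1 ^ q' := by
      refine Finset.sum_nbij' (fun z => (z.2, z.1)) (fun z => (z.2, z.1)) ?_ ?_ ?_ ?_ ?_
      · intro z hz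
        rw [mem_darts] at hz ⊢
        exact ⟨hz.2.1, hz.1, hz.2.2.symm⟩
      · intro z hz
        rw [mem_darts] at hz ⊢
        exact ⟨hz.2.1, hz.1, hz.2.2.symm⟩
      · intro z _; rfl
      · intro z _; rfl
      · intro z _; rfl
    rw [e2, sum_darts F fun a _ => v a ^ q', Finset.mul_sum]
    refine Finset.sum_le_sum fun a _ => ?_
    rw [Finset.sum_const, nsmul_eq_mul]
    exact mul_le_mul_of_nonneg_right (hcard a) (Real.rpow_nonneg (hv a) _)
  have hU : 0 ≤ ∑ a ∈ F, u a ^ q := Finset.sum_nonneg fun a _ => Real.rpow_nonneg (hu a) _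
  have hV : 0 ≤ ∑ b ∈ F, v b ^ q' := Finset.sum_nonneg fun a _ => Real.rpow_nonneg (hv a) _
  have hd0 : (0 : ℝ) ≤ d := Nat.cast_nonneg d
  rw [e1]
  refine h.trans ?_
  refine (mul_le_mul (Real.rpow_le_rpow (Finset.sum_nonneg fun z _ => Real.rpow_nonneg (hu _) _)
    hA (by positivity)) (Real.rpow_le_rpow (Finset.sum_nonneg fun z _ =>
      Real.rpow_nonneg (hv _) _) hB (by positivity)) (Real.rpow_nonneg (Finset.sum_nonneg
        fun z _ => Real.rpow_nonneg (hv _) _) _) (Real.rpow_nonneg (by positivity) _)).trans ?_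
  rw [Real.mul_rpow hd0 hU, Real.mul_rpow hd0 hV]
  have e3 : (d : ℝ) ^ (1 / q) * (d : ℝ) ^ (1 / q') = d := by
    rw [← Real.rpow_add_of_nonneg hd0 (by positivity) (by positivity)]
    have : 1 / q + 1 / q' = 1 := by
      rw [one_div, one_div]; exact hpq.inv_add_inv_eq_one
    rw [this, Real.rpow_one]
  refine le_of_eq ?_
  calc (d : ℝ) ^ (1 / q) * (∑ a ∈ F, u a ^ q) ^ (1 / q) *
        ((d : ℝ) ^ (1 / q') * (∑ b ∈ F, v b ^ q') ^ (1 / q')) =
        ((d : ℝ) ^ (1 / q) * (d : ℝ) ^ (1 / q')) *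
          ((∑ a ∈ F, u a ^ q) ^ (1 / q) * (∑ b ∈ F, v b ^ q') ^ (1 / q')) := by ring
    _ = _ := by rw [e3]

/-- One step of sprinkling. -/
theorem Nq_step [G.LocallyFinite] {d : ℕ} (hd : ∀ x, G.degree x ≤ d) {p p' : ℝ}
    (hpq : q.HolderConjugate q') (h0 : 0 ≤ p) (hpp : p ≤ p') (hp1 : p < 1) (h1 : p' ≤ 1)
    {A B : ℝ} (hA : Nq F q q' (Kf G p F) A) (hB : Nq F q q' (Kf G p' F) B) :
    Nq F q q' (Kf G p' F) (A + (p' - p) / (1 - p) * d * A * B) := by
  have hA0 := hA.1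
  have hB0 := hB.1
  have h0' : 0 ≤ p' := h0.trans hpp
  have h1p : 0 < 1 - p := by linarith only [hp1]
  set s := (p' - p) / (1 - p) with hsdef
  have hs0 : 0 ≤ s := div_nonneg (by linarith only [hpp]) h1p.le
  refine ⟨by positivity, fun φ ψ hφ hψ => ?_⟩
  set Φ := (∑ x ∈ F, φ x ^ q) ^ (1 / q) with hΦ
  set Ψ := (∑ y ∈ F, ψ y ^ q') ^ (1 / q') with hΨ
  have hΦ0 : 0 ≤ Φ := Real.rpow_nonneg (Finset.sum_nonneg fun x _ => Real.rpow_nonneg (hφ x) _) _
  have hΨ0 : 0 ≤ Ψ := Real.rpow_nonneg (Finset.sum_nonneg fun x _ => Real.rpow_nonneg (hψ x) _) _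
  have hK : ∀ x y, 0 ≤ Kf G p F x y := fun x y => Kf_nn h0 hp1.le x y
  have hK' : ∀ x y, 0 ≤ Kf G p' F x y := fun x y => Kf_nn h0' h1 x y
  set u : V → ℝ := fun a => ∑ x ∈ F, φ x * Kf G p F x a with hu
  set v : V → ℝ := fun b => ∑ y ∈ F, Kf G p' F b y * ψ y with hv
  have hu0 : ∀ a, 0 ≤ u a := fun a => Finset.sum_nonneg fun x _ => mul_nonneg (hφ x) (hK x a)
  have hv0 : ∀ b, 0 ≤ v b := fun b => Finset.sum_nonneg fun y _ => mul_nonneg (hK' b y) (hψ y)
  have hstep : ∑ x ∈ F, ∑ y ∈ F, φ x * ψ y * Kf G p' F x y ≤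
      ∑ x ∈ F, ∑ y ∈ F, φ x * ψ y * Kf G p F x y +
        s * ∑ a ∈ F, ∑ b ∈ F ∩ G.neighborFinset a, u a * v b := by
    calc ∑ x ∈ F, ∑ y ∈ F, φ x * ψ y * Kf G p' F x y
        ≤ ∑ x ∈ F, ∑ y ∈ F, φ x * ψ y * (Kf G p F x y +
            s * ∑ a ∈ F, ∑ b ∈ F ∩ G.neighborFinset a, Kf G p F x a * Kf G p' F b y) :=
          Finset.sum_le_sum fun x hx => Finset.sum_le_sum fun y hy =>
            mul_le_mul_of_nonneg_left (Vale.Agent.P165.LF.tau_step h0 hpp hp1 h1 F x y hx hy)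
              (mul_nonneg (hφ x) (hψ y))
      _ = ∑ x ∈ F, ∑ y ∈ F, φ x * ψ y * Kf G p F x y + s * ∑ x ∈ F, ∑ y ∈ F,
            ∑ a ∈ F, ∑ b ∈ F ∩ G.neighborFinset a, φ x * Kf G p F x a * (Kf G p' F b y * ψ y) := by
          rw [Finset.mul_sum, ← Finset.sum_add_distrib]
          refine Finset.sum_congr rfl fun x _ => ?_
          rw [Finset.mul_sum, ← Finset.sum_add_distrib]
          refine Finset.sum_congr rfl fun y _ => ?_
          rw [mul_add]
          congr 1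
          rw [Finset.mul_sum, Finset.mul_sum, Finset.mul_sum]
          refine Finset.sum_congr rfl fun a _ => ?_
          rw [Finset.mul_sum, Finset.mul_sum, Finset.mul_sum]
          exact Finset.sum_congr rfl fun b _ => by ring
      _ = _ := by
          congr 2
          calc ∑ x ∈ F, ∑ y ∈ F, ∑ a ∈ F, ∑ b ∈ F ∩ G.neighborFinset a,
                φ x * Kf G p F x a * (Kf G p' F b y * ψ y)
              = ∑ x ∈ F, ∑ a ∈ F, ∑ y ∈ F, ∑ b ∈ F ∩ G.neighborFinset a,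
                φ x * Kf G p F x a * (Kf G p' F b y * ψ y) :=
                Finset.sum_congr rfl fun x _ => Finset.sum_comm
            _ = ∑ a ∈ F, ∑ x ∈ F, ∑ y ∈ F, ∑ b ∈ F ∩ G.neighborFinset a,
                φ x * Kf G p F x a * (Kf G p' F b y * ψ y) := Finset.sum_comm
            _ = _ := by
                refine Finset.sum_congr rfl fun a _ => ?_
                calc ∑ x ∈ F, ∑ y ∈ F, ∑ b ∈ F ∩ G.neighborFinset a,
                      φ x * Kf G p F x a * (Kf G p' F b y * ψ y)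
                    = ∑ x ∈ F, ∑ b ∈ F ∩ G.neighborFinset a, ∑ y ∈ F,
                      φ x * Kf G p F x a * (Kf G p' F b y * ψ y) :=
                      Finset.sum_congr rfl fun x _ => Finset.sum_comm
                  _ = ∑ b ∈ F ∩ G.neighborFinset a, ∑ x ∈ F, ∑ y ∈ F,
                      φ x * Kf G p F x a * (Kf G p' F b y * ψ y) := Finset.sum_comm
                  _ = _ := by
                      refine Finset.sum_congr rfl fun b _ => ?_
                      rw [hu, hv, Finset.sum_mul_sum]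
  have hH := dart_holder hd hpq F hu0 hv0
  have hul : (∑ a ∈ F, u a ^ q) ^ (1 / q) ≤ A * Φ := hA.left hpq hK hφ
  have hvl : (∑ b ∈ F, v b ^ q') ^ (1 / q') ≤ B * Ψ := hB.right hpq hK' hψ
  have hvn : 0 ≤ (∑ b ∈ F, v b ^ q') ^ (1 / q') :=
    Real.rpow_nonneg (Finset.sum_nonneg fun x _ => Real.rpow_nonneg (hv0 x) _) _
  have h5 : ∑ a ∈ F, ∑ b ∈ F ∩ G.neighborFinset a, u a * v b ≤ d * ((A * Φ) * (B * Ψ)) :=
    hH.trans (mul_le_mul_of_nonneg_left (mul_le_mul hul hvl hvn (by positivity))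
      (Nat.cast_nonneg d))
  have h6 := mul_le_mul_of_nonneg_left h5 hs0
  have h7 := hA.2 φ ψ hφ hψ
  refine hstep.trans ((add_le_add h7 h6).trans (le_of_eq ?_))
  ring

/-- A trivial bound. -/
theorem Nq_triv (hpq : q.HolderConjugate q') {W : V → V → ℝ} (hW : ∀ x y, 0 ≤ W x y)
    (hW1 : ∀ x y, W x y ≤ 1) : Nq F q q' W ((F.card : ℝ) * F.card) := by
  have hq0 := hpq.pos
  have hq0' := hpq.symm.pos
  refine ⟨by positivity, fun φ ψ hφ hψ => ?_⟩
  have hb : ∀ {r : ℝ}, 0 < r → ∀ f : V → ℝ, (∀ x, 0 ≤ f x) →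
      ∑ x ∈ F, f x ≤ F.card * (∑ x ∈ F, f x ^ r) ^ (1 / r) := by
    intro r hr f hf
    rw [← nsmul_eq_mul]
    refine Finset.sum_le_card_nsmul _ _ _ fun x hx => ?_
    have h1 : f x ^ r ≤ ∑ x ∈ F, f x ^ r :=
      Finset.single_le_sum (f := fun x => f x ^ r) (fun x _ => Real.rpow_nonneg (hf x) _) hx
    have h2 := Real.rpow_le_rpow (Real.rpow_nonneg (hf x) _) h1 (by positivity : 0 ≤ 1 / r)
    rwa [← Real.rpow_mul (hf x), mul_one_div_cancel hr.ne', Real.rpow_one] at h2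
  calc ∑ x ∈ F, ∑ y ∈ F, φ x * ψ y * W x y ≤ ∑ x ∈ F, ∑ y ∈ F, φ x * ψ y :=
        Finset.sum_le_sum fun x _ => Finset.sum_le_sum fun y _ =>
          mul_le_of_le_one_right (mul_nonneg (hφ x) (hψ y)) (hW1 x y)
    _ = (∑ x ∈ F, φ x) * ∑ y ∈ F, ψ y := by rw [Finset.sum_mul_sum]
    _ ≤ (F.card * (∑ x ∈ F, φ x ^ q) ^ (1 / q)) * (F.card * (∑ y ∈ F, ψ y ^ q') ^ (1 / q')) :=
        mul_le_mul (hb hq0 φ hφ) (hb hq0' ψ hψ) (Finset.sum_nonneg fun x _ => hψ x)
          (mul_nonneg (Nat.cast_nonneg _) (Real.rpow_nonneg (Finset.sum_nonneg fun x _ =>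
            Real.rpow_nonneg (hφ x) _) _))
    _ = _ := by ring

theorem Kf_le_one {p : ℝ} (h0 : 0 ≤ p) (h1 : p ≤ 1) (x y : V) : Kf G p F x y ≤ 1 :=
  Vale.Agent.P151.Ex_le_const h0 h1 fun S _ => Vale.Agent.P151.con_le_one x y S

/-- **Extension of the `ℓ^q` bound.** -/
theorem Nq_extend [G.LocallyFinite] {d : ℕ} (hd : ∀ x, G.degree x ≤ d) {p p' : ℝ}
    (hpq : q.HolderConjugate q') (h0 : 0 ≤ p) (hpp : p ≤ p') (hp1 : p < 1) (h1 : p' ≤ 1)
    {A : ℝ} (hA : Nq F q q' (Kf G p F) A) (hs : (p' - p) / (1 - p) * d * A ≤ 1 / 2) :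
    Nq F q q' (Kf G p' F) (2 * A) := by
  have hA0 := hA.1
  have h0' : 0 ≤ p' := h0.trans hpp
  set c0 : ℝ := (F.card : ℝ) * F.card with hc0
  have hc00 : 0 ≤ c0 := by positivity
  have hind : ∀ j : ℕ, Nq F q q' (Kf G p' F) (2 * A + c0 * (1 / 2) ^ j) := by
    intro j
    induction j with
    | zero =>
      refine (Nq_triv hpq (fun x y => Kf_nn h0' h1 x y) (Kf_le_one h0' h1)).mono ?_
      rw [pow_zero, mul_one]
      linarith
    | succ j ih =>
      refine (Nq_step hd hpq h0 hpp hp1 h1 hA ih).mono ?_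
      have hj : (0 : ℝ) < (1 / 2) ^ j := by positivity
      have h2 : 0 ≤ 2 * A + c0 * (1 / 2) ^ j := by positivity
      have h3 := mul_le_mul_of_nonneg_right hs h2
      rw [pow_succ]
      linarith
  refine ⟨by positivity, fun φ ψ hφ hψ => ?_⟩
  set R := (∑ x ∈ F, φ x ^ q) ^ (1 / q) * (∑ y ∈ F, ψ y ^ q') ^ (1 / q') with hR
  have hlim : Tendsto (fun j : ℕ => (2 * A + c0 * (1 / 2 : ℝ) ^ j) * R) atTop
      (𝓝 ((2 * A + c0 * 0) * R)) :=
    (((tendsto_pow_atTop_nhds_zero_of_lt_one (by norm_num) (by norm_num)).const_mul c0).const_add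
      (2 * A)).mul_const R
  rw [mul_zero, add_zero] at hlim
  exact ge_of_tendsto' hlim fun j => (hind j).2 φ ψ hφ hψ

/-- The `ℓ^q` norm of the rows. -/
theorem row_le (hpq : q.HolderConjugate q') {p : ℝ} (h0 : 0 ≤ p) (h1 : p ≤ 1) {A : ℝ}
    (hA : Nq F q q' (Kf G p F) A) {x : V} (hx : x ∈ F) :
    ∑ y ∈ F, Kf G p F x y ^ q ≤ A ^ q := by
  have hq0 := hpq.pos
  have h := hA.left hpq (fun x y => Kf_nn h0 h1 x y) (φ := fun z => if z = x then 1 else 0)
    (fun z => by split_ifs <;> norm_num)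
  have e1 : ∀ y, ∑ z ∈ F, (if z = x then (1 : ℝ) else 0) * Kf G p F z y = Kf G p F x y := by
    intro y
    rw [Finset.sum_eq_single_of_mem x hx]
    · rw [if_pos rfl, one_mul]
    · intro b _ hb
      rw [if_neg hb, zero_mul]
  have e2 : ∑ z ∈ F, (if z = x then (1 : ℝ) else 0) ^ q = 1 := by
    rw [Finset.sum_eq_single_of_mem x hx]
    · rw [if_pos rfl, Real.one_rpow]
    · intro b _ hb
      rw [if_neg hb, Real.zero_rpow hq0.ne']
  simp only [e1] at h
  rw [e2, Real.one_rpow, mul_one] at h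
  have hL : 0 ≤ ∑ y ∈ F, Kf G p F x y ^ q :=
    Finset.sum_nonneg fun y _ => Real.rpow_nonneg (Kf_nn h0 h1 x y) _
  have h2 := Real.rpow_le_rpow (Real.rpow_nonneg hL _) h hq0.le
  rwa [← Real.rpow_mul hL, one_div_mul_cancel hq0.ne', Real.rpow_one] at h2

/-- Infinite volume. -/
theorem row_tau (hpq : q.HolderConjugate q') {p : ℝ} (h0 : 0 ≤ p) (h1 : p ≤ 1) {A : ℝ}
    (hA : ∀ F : Finset V, Nq F q q' (Kf G p F) A) (x : V) (B : Finset V) :
    ∑ y ∈ B, tau G p x y ^ q ≤ A ^ q := by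
  have hq0 := hpq.pos
  have htau0 : ∀ y, 0 ≤ tau G p x y := fun y => Vale.Agent.P151.EV_nonneg h0 h1
    (fun S => Vale.Agent.P151.con_nonneg x y S) (fun S => Vale.Agent.P151.con_le_one x y S)
  -- approximation
  have happ : ∀ ε : ℝ, 0 < ε → ∑ y ∈ B, (max (tau G p x y - ε) 0) ^ q ≤ A ^ q := by
    intro ε hε
    have hex : ∀ y, ∃ F' : Finset V, tau G p x y - ε < Ex p (edgesIn G F') (con x y) :=
      fun y => Vale.Agent.P151.exists_lt_Ex (by
        change tau G p x y - ε < tau G p x y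
        linarith)
    choose Fk hFk using hex
    set F' : Finset V := insert x (B ∪ B.biUnion Fk) with hF'
    have hBF : B ⊆ F' := Finset.subset_union_left.trans (Finset.subset_insert _ _)
    refine le_trans ?_ (row_le hpq h0 h1 (hA F') (Finset.mem_insert_self _ _))
    refine le_trans (Finset.sum_le_sum fun y hy => ?_)
      (Finset.sum_le_sum_of_subset_of_nonneg hBF fun y _ _ =>
        Real.rpow_nonneg (Kf_nn h0 h1 x y) _)
    refine Real.rpow_le_rpow (le_max_right _ _) (max_le ?_ (Kf_nn h0 h1 x y)) hq0.le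
    refine (hFk y).le.trans (Vale.Agent.P151.Ex_edgesIn_mono h0 h1
      (Vale.Agent.P151.con_mono x y) ?_)
    exact (Finset.subset_biUnion_of_mem Fk hy).trans
      (Finset.subset_union_right.trans (Finset.subset_insert _ _))
  have hcont : Tendsto (fun ε : ℝ => ∑ y ∈ B, (max (tau G p x y - ε) 0) ^ q) (𝓝[>] 0)
      (𝓝 (∑ y ∈ B, (max (tau G p x y - 0) 0) ^ q)) := by
    refine tendsto_finsetSum _ fun y _ => ?_
    have hc : Continuous fun ε : ℝ => (max (tau G p x y - ε) 0) ^ q :=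
      ((continuous_const.sub continuous_id).max continuous_const).rpow_const
        fun _ => Or.inr hq0.le
    exact (hc.tendsto 0).mono_left nhdsWithin_le_nhds
  have e : ∑ y ∈ B, (max (tau G p x y - 0) 0) ^ q = ∑ y ∈ B, tau G p x y ^ q :=
    Finset.sum_congr rfl fun y _ => by rw [sub_zero, max_eq_left (htau0 y)]
  rw [e] at hcont
  refine le_of_tendsto hcont ?_
  filter_upwards [self_mem_nhdsWithin] with ε hε using happ ε hε

end Vale.Agent.P165.H161
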