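import Vale.Agent.P165.H161.Ext

/-!
# Decay of connections and boundedness on every `ℓ^q`, beyond `p_c`
-/

set_option autoImplicit false

open Finset MeasureTheory ProbabilityTheory Filter Topology
open scoped ENNReal

namespace Vale.Agent.P165.H161

open Vale.Agent.P151 (Ex Cn cl csz edgesIn EV con tau)
open Vale.Agent.P165.LF Vale.Agent.P165.BS Vale.Agent.P165.BS2

section type0

variable {V : Type} [DecidableEq V] {G : SimpleGraph V} {q q' : ℝ}

theorem Kf_mono_p {F : Finset V} {p p' : ℝ} (h0 : 0 ≤ p) (hpp : p ≤ p') (h1 : p' ≤ 1) (x y : V) :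
    Kf G p F x y ≤ Kf G p' F x y :=
  Vale.Agent.P151.Ex_mono_p h0 hpp h1 _ (Vale.Agent.P151.con_mono x y)

omit [DecidableEq V] in
theorem Nq.mono_W {F : Finset V} {W W' : V → V → ℝ} {c : ℝ} (h : Nq F q q' W c)
    (hW : ∀ x y, W' x y ≤ W x y) : Nq F q q' W' c := by
  refine ⟨h.1, fun φ ψ hφ hψ => le_trans ?_ (h.2 φ ψ hφ hψ)⟩
  exact Finset.sum_le_sum fun x _ => Finset.sum_le_sum fun y _ =>
    mul_le_mul_of_nonneg_left (hW x y) (mul_nonneg (hφ x) (hψ y))

theorem Kf_comm (p : ℝ) (F : Finset V) (x y : V) : Kf G p F x y = Kf G p F y x := by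
  unfold Kf
  congr 1
  funext S
  rw [con_eq_ind, con_eq_ind]
  by_cases h : Cn S x y
  · rw [ind_true h, ind_true h.symm]
  · rw [ind_false h, ind_false fun h' => h h'.symm]

theorem Nq_two {F : Finset V} {W : V → V → ℝ} {N : ℝ} (hN : Nm F W N) : Nq F 2 2 W N := by
  refine ⟨hN.1, fun φ ψ hφ hψ => ?_⟩
  have hN0 := hN.1
  have h := hN.2 φ ψ hφ hψ
  have e : ∀ f : V → ℝ, ∑ x ∈ F, f x ^ (2 : ℝ) = ∑ x ∈ F, f x ^ 2 := fun f =>
    Finset.sum_congr rfl fun x _ => Real.rpow_two _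
  have hΦ : 0 ≤ ∑ x ∈ F, φ x ^ 2 := Finset.sum_nonneg fun _ _ => sq_nonneg _
  have hΨ : 0 ≤ ∑ x ∈ F, ψ x ^ 2 := Finset.sum_nonneg fun _ _ => sq_nonneg _
  rw [e, e]
  refine abs_le_of_sq_le_sq' (h.trans (le_of_eq ?_)) (by positivity) |>.2
  rw [mul_pow, mul_pow, ← Real.sqrt_eq_rpow, ← Real.sqrt_eq_rpow, Real.sq_sqrt hΦ,
    Real.sq_sqrt hΨ]

/-- The bound for `1 < q < 2`. -/
theorem exists_Nq_lt_two [G.LocallyFinite] [Infinite V] (hG : G.Connected)
    (hqt : IsQuasiTransitive G) (hlt : pc G < pTwoTwo G) (hpq : q.HolderConjugate q')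
    (hq2 : q < 2) :
    ∃ p₁ A : ℝ, pc G < p₁ ∧ p₁ ≤ 1 ∧ ∀ p, 0 ≤ p → p ≤ p₁ → ∀ F : Finset V,
      Nq F q q' (Kf G p F) A := by
  have hne : Nonempty V := hG.nonempty
  have hpc0 := H794.pc_pos (G := G) hG hqt
  obtain ⟨p₁, N, hp₁, h10, h11, hL⟩ := H794.exists_L2B_of_lt hG hlt
  have hpc1 : pc G < 1 := hp₁.trans_le h11
  obtain ⟨d, hd1, hd⟩ := LF.exists_degree_bound (G := G) hqt
  have hN0 : 0 < N := by
    have h2 := H794.one_le_of_normTwoLe (H794.normTwoLe_of_L2B hG ⟨p₁, h10, h11⟩ hL)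
    linarith only [h2]
  obtain ⟨C, hC0, hC⟩ := H794.chi_le_of_L2B hG hqt hpc0 hpc1.le hN0 fun q h0 hq =>
    hL.mg_mono h0 (hq.le.trans hp₁.le) h11
  have hq0 := hpq.pos
  have hq0' := hpq.symm.pos
  set s : ℝ := 2 / q - 1 with hs
  set t : ℝ := 2 / q' with ht
  have hst : s + t = 1 := by
    have hinv : 1 / q + 1 / q' = 1 := by
      rw [one_div, one_div]; exact hpq.inv_add_inv_eq_one
    have e : 2 / q + 2 / q' = 2 * (1 / q + 1 / q') := by ring
    rw [hinv, mul_one] at e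
    rw [hs, ht]; linarith
  have ht0 : 0 < t := by rw [ht]; positivity
  have hs0 : 0 < s := by
    have : 1 < 2 / q := by rw [lt_div_iff₀ hq0]; linarith
    rw [hs]; linarith
  have h1pc : 0 < 1 - pc G := by linarith only [hpc1]
  have hd0 : (0 : ℝ) ≤ d := Nat.cast_nonneg d
  set D : ℝ := 2 / (1 - pc G) * d * (C ^ s * N ^ t) with hD
  have hlim : Tendsto (fun ε : ℝ => D * ε ^ t) (𝓝[>] 0) (𝓝 (D * 0 ^ t)) :=
    ((continuous_const.mul (Real.continuous_rpow_const ht0.le)).tendsto 0).mono_left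
      nhdsWithin_le_nhds
  rw [Real.zero_rpow ht0.ne', mul_zero] at hlim
  have hev : ∀ᶠ ε in 𝓝[>] (0 : ℝ), D * ε ^ t < 1 / 2 ∧ 0 < ε ∧ ε < pc G ∧ ε < 1 - pc G := by
    filter_upwards [hlim.eventually (gt_mem_nhds (by norm_num : (0 : ℝ) < 1 / 2)),
      Ioo_mem_nhdsGT (lt_min hpc0 h1pc)] with ε h1 h2
    exact ⟨h1, h2.1, h2.2.trans_le (min_le_left _ _), h2.2.trans_le (min_le_right _ _)⟩
  obtain ⟨ε, hε1, hε0, hεc, hε2⟩ := hev.exists
  set A : ℝ := (C / ε) ^ s * N ^ t with hA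
  have hA0 : 0 < A := by positivity
  have hp0 : 0 ≤ pc G - ε := by linarith only [hεc]
  have hp1 : pc G - ε < 1 := by linarith only [hε0, hpc1]
  have hpc' : pc G - ε < pc G := by linarith only [hε0]
  have hsub : Sub G (pc G - ε) := sub_of_lt_pc hG hqt hp0 hpc' hp1.le
  have hchi : chi G (pc G - ε) ≤ C / ε := by
    have h := hC (pc G - ε) hp0 hpc'
    rwa [show pc G - (pc G - ε) = ε by ring] at h
  have hNq : ∀ F : Finset V, Nq F q q' (Kf G (pc G - ε) F) A := fun F =>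
    Nq_interp hpq hq2 (fun x y => Kf_nn hp0 hp1.le x y) (by positivity)
      (fun x _ => sum_con_le G hp0 hp1.le (fun z => (le_ciSup hsub z).trans hchi) F F x)
      ⟨hL.1, fun φ ψ hφ hψ => (hL.mg_mono hp0 (by linarith only [hp₁, hε0]) h11).2 F φ ψ hφ hψ⟩
  refine ⟨pc G + ε, 2 * A, by linarith only [hε0], by linarith only [hε2], fun p h0 hp F => ?_⟩
  refine Nq.mono_W (Nq_extend hd hpq (p := pc G - ε) (p' := pc G + ε) hp0
    (by linarith only [hε0]) hp1 (by linarith only [hε2]) (hNq F) ?_)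
    (fun x y => Kf_mono_p h0 hp (by linarith only [hε2]) x y)
  have e1 : (pc G + ε - (pc G - ε)) / (1 - (pc G - ε)) ≤ 2 / (1 - pc G) * ε := by
    rw [show pc G + ε - (pc G - ε) = 2 * ε by ring, div_mul_eq_mul_div]
    exact div_le_div_of_nonneg_left (by positivity) h1pc (by linarith only [hε0])
  have e2 : ε * A = C ^ s * N ^ t * ε ^ t := by
    have h3 : ε = ε ^ s * ε ^ t := by
      rw [← Real.rpow_add hε0, hst, Real.rpow_one]
    have h4 : 0 < ε ^ s := Real.rpow_pos_of_pos hε0 s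
    rw [hA, Real.div_rpow hC0.le hε0.le]
    nth_rewrite 1 [h3]
    field_simp
  calc (pc G + ε - (pc G - ε)) / (1 - (pc G - ε)) * d * A
      ≤ 2 / (1 - pc G) * ε * d * A :=
        mul_le_mul_of_nonneg_right (mul_le_mul_of_nonneg_right e1 hd0) hA0.le
    _ = 2 / (1 - pc G) * d * (ε * A) := by ring
    _ = D * ε ^ t := by rw [e2, hD]; ring
    _ ≤ 1 / 2 := hε1.le

/-- The bound for all `q > 1`. -/
theorem exists_Nq [G.LocallyFinite] [Infinite V] (hG : G.Connected)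
    (hqt : IsQuasiTransitive G) (hlt : pc G < pTwoTwo G) (hpq : q.HolderConjugate q') :
    ∃ p₁ A : ℝ, pc G < p₁ ∧ p₁ ≤ 1 ∧ ∀ p, 0 ≤ p → p ≤ p₁ → ∀ F : Finset V,
      Nq F q q' (Kf G p F) A := by
  rcases lt_trichotomy q 2 with h | h | h
  · exact exists_Nq_lt_two hG hqt hlt hpq h
  · subst h
    have h2 : q' = 2 := by
      have h3 := hpq.inv_add_inv_eq_one
      have h4 : q'⁻¹ = 2⁻¹ := by linarith
      exact inv_injective h4
    subst h2
    obtain ⟨p₁, N, hp₁, h10, h11, hL⟩ := H794.exists_L2B_of_lt hG hlt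
    exact ⟨p₁, N, hp₁, h11, fun p h0 hp F => Nq_two
      ⟨hL.1, fun φ ψ hφ hψ => (hL.mg_mono h0 hp h11).2 F φ ψ hφ hψ⟩⟩
  · have h' : q' < 2 := by
      by_contra hc
      have h3 := hpq.sub_one_mul_conj
      have h4 : 0 < q - 1 := by linarith
      nlinarith [not_lt.1 hc]
    obtain ⟨p₁, A, hp₁, h11, hA⟩ := exists_Nq_lt_two hG hqt hlt hpq.symm h'
    refine ⟨p₁, A, hp₁, h11, fun p h0 hp F => ?_⟩
    exact (hA p h0 hp F).swap.mono_W fun x y => (Kf_comm p F x y).le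

theorem Kf_tendsto {p : ℝ} (h0 : 0 ≤ p) (h1 : p ≤ 1) (x y : V) :
    Tendsto (fun F : Finset V => Kf G p F x y) atTop (𝓝 (tau G p x y)) :=
  tendsto_atTop_ciSup (fun _ _ h => Vale.Agent.P151.Ex_edgesIn_mono h0 h1
    (Vale.Agent.P151.con_mono x y) h)
    (Vale.Agent.P151.EV_bdd h0 h1 fun S => Vale.Agent.P151.con_le_one x y S)

/-- The operator bound, finitely supported functions. -/
theorem op_fin (hpq : q.HolderConjugate q') {p : ℝ} (h0 : 0 ≤ p) (h1 : p ≤ 1) {A : ℝ}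
    (hA : ∀ F : Finset V, Nq F q q' (Kf G p F) A) (B F : Finset V) {φ : V → ℝ}
    (hφ : ∀ x, 0 ≤ φ x) :
    ∑ x ∈ B, (∑ y ∈ F, tau G p x y * φ y) ^ q ≤ A ^ q * ∑ y ∈ F, φ y ^ q := by
  have hq0 := hpq.pos
  have hfin : ∀ F' : Finset V, B ∪ F ⊆ F' →
      ∑ x ∈ B, (∑ y ∈ F, Kf G p F' x y * φ y) ^ q ≤ A ^ q * ∑ y ∈ F, φ y ^ q := by
    intro F' hF'
    have hBF : B ⊆ F' := Finset.subset_union_left.trans hF'
    have hFF : F ⊆ F' := Finset.subset_union_right.trans hF'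
    have hA0 := (hA F').1
    set ψ : V → ℝ := fun y => if y ∈ F then φ y else 0 with hψ
    have hψ0 : ∀ y, 0 ≤ ψ y := fun y => by
      simp only [hψ]
      split_ifs
      exacts [hφ y, le_rfl]
    have h := (hA F').left hpq (fun x y => Kf_nn h0 h1 x y) hψ0
    have e1 : ∀ x, ∑ y ∈ F', ψ y * Kf G p F' y x = ∑ y ∈ F, Kf G p F' x y * φ y := by
      intro x
      rw [← Finset.sum_subset hFF]
      · refine Finset.sum_congr rfl fun y hy => ?_
        simp only [hψ, if_pos hy]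
        rw [mul_comm, Kf_comm]
      · intro y _ hy
        simp only [hψ, if_neg hy, zero_mul]
    have e2 : ∑ y ∈ F', ψ y ^ q = ∑ y ∈ F, φ y ^ q := by
      rw [← Finset.sum_subset hFF]
      · refine Finset.sum_congr rfl fun y hy => ?_
        simp only [hψ, if_pos hy]
      · intro y _ hy
        simp only [hψ, if_neg hy, Real.zero_rpow hq0.ne']
    simp only [e1] at h
    rw [e2] at h
    set L := ∑ x ∈ F', (∑ y ∈ F, Kf G p F' x y * φ y) ^ q with hL
    have hK : ∀ x, 0 ≤ ∑ y ∈ F, Kf G p F' x y * φ y := fun x =>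
      Finset.sum_nonneg fun y _ => mul_nonneg (Kf_nn h0 h1 x y) (hφ y)
    have hL0 : 0 ≤ L := Finset.sum_nonneg fun x _ => Real.rpow_nonneg (hK x) _
    have hR0 : 0 ≤ ∑ y ∈ F, φ y ^ q := Finset.sum_nonneg fun y _ => Real.rpow_nonneg (hφ y) _
    have h2 := Real.rpow_le_rpow (Real.rpow_nonneg hL0 _) h hq0.le
    rw [← Real.rpow_mul hL0, one_div_mul_cancel hq0.ne', Real.rpow_one,
      Real.mul_rpow hA0 (Real.rpow_nonneg hR0 _), ← Real.rpow_mul hR0,
      one_div_mul_cancel hq0.ne', Real.rpow_one] at h2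
    exact (Finset.sum_le_sum_of_subset_of_nonneg hBF fun x _ _ =>
      Real.rpow_nonneg (hK x) _).trans h2
  have hlim : Tendsto (fun F' : Finset V => ∑ x ∈ B, (∑ y ∈ F, Kf G p F' x y * φ y) ^ q) atTop
      (𝓝 (∑ x ∈ B, (∑ y ∈ F, tau G p x y * φ y) ^ q)) := by
    refine tendsto_finsetSum _ fun x _ => ?_
    refine Tendsto.rpow_const ?_ (Or.inr hq0.le)
    exact tendsto_finsetSum _ fun y _ => (Kf_tendsto h0 h1 x y).mul_const _
  refine le_of_tendsto hlim ?_
  filter_upwards [eventually_ge_atTop (B ∪ F)] with F' hF' using hfin F' hF'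

/-- The operator bound on `ℓ^q`. -/
theorem op_tsum [G.LocallyFinite] (hG : G.Connected) (hpq : q.HolderConjugate q')
    (p : unitInterval) {A : ℝ} (hA : ∀ F : Finset V, Nq F q q' (Kf G p F) A)
    (f : V → ℝ≥0∞) : ∑' x, (∑' y, twoPoint G p x y * f y) ^ q ≤
      ENNReal.ofReal (A ^ q + 1) * ∑' y, f y ^ q := by
  have hq0 := hpq.pos
  have hA0 : 0 ≤ A := (hA ∅).1
  have hAq : 0 ≤ A ^ q := Real.rpow_nonneg hA0 q
  by_cases htop : ∑' y, f y ^ q = ⊤
  · rw [htop, ENNReal.mul_top (by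
      rw [Ne, ENNReal.ofReal_eq_zero, not_le]
      linarith only [hAq])]
    exact le_top
  have hf : ∀ y, f y ≠ ⊤ := fun y hy => by
    refine ENNReal.ne_top_of_tsum_ne_top htop y ?_
    rw [hy, ENNReal.top_rpow_of_pos hq0]
  set φ : V → ℝ := fun y => (f y).toReal with hφ
  have hφ0 : ∀ y, 0 ≤ φ y := fun y => ENNReal.toReal_nonneg
  have hfφ : ∀ y, f y = ENNReal.ofReal (φ y) := fun y => (ENNReal.ofReal_toReal (hf y)).symm
  have htau0 : ∀ x y, 0 ≤ tau G p x y := fun x y => Vale.Agent.P151.EV_nonneg p.2.1 p.2.2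
    (fun S => Vale.Agent.P151.con_nonneg x y S) (fun S => Vale.Agent.P151.con_le_one x y S)
  have hT : ∀ x y, twoPoint G p x y = ENNReal.ofReal (tau G p x y) := fun x y => by
    rw [← H794.twoPoint_eq G hG, ENNReal.ofReal_toReal (H794.twoPoint_ne_top G p x y)]
  have hfin : ∀ B F : Finset V, ∑ x ∈ B, (∑ y ∈ F, twoPoint G p x y * f y) ^ q ≤
      ENNReal.ofReal (A ^ q + 1) * ∑' y, f y ^ q := by
    intro B F
    have h := ENNReal.ofReal_le_ofReal (op_fin hpq p.2.1 p.2.2 hA B F hφ0)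
    have hs : ∀ x, 0 ≤ ∑ y ∈ F, tau G p x y * φ y := fun x =>
      Finset.sum_nonneg fun y _ => mul_nonneg (htau0 x y) (hφ0 y)
    have e1 : ENNReal.ofReal (∑ x ∈ B, (∑ y ∈ F, tau G p x y * φ y) ^ q) =
        ∑ x ∈ B, (∑ y ∈ F, twoPoint G p x y * f y) ^ q := by
      rw [ENNReal.ofReal_sum_of_nonneg fun x _ => Real.rpow_nonneg (hs x) _]
      refine Finset.sum_congr rfl fun x _ => ?_
      rw [← ENNReal.ofReal_rpow_of_nonneg (hs x) hq0.le,
        ENNReal.ofReal_sum_of_nonneg fun y _ => mul_nonneg (htau0 x y) (hφ0 y)]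
      congr 1
      refine Finset.sum_congr rfl fun y _ => ?_
      rw [ENNReal.ofReal_mul (htau0 x y), hT, hfφ]
    have e2 : ENNReal.ofReal (A ^ q * ∑ y ∈ F, φ y ^ q) =
        ENNReal.ofReal (A ^ q) * ∑ y ∈ F, f y ^ q := by
      rw [ENNReal.ofReal_mul hAq,
        ENNReal.ofReal_sum_of_nonneg fun y _ => Real.rpow_nonneg (hφ0 y) _]
      congr 1
      refine Finset.sum_congr rfl fun y _ => ?_
      rw [hfφ y, ENNReal.ofReal_rpow_of_nonneg (hφ0 y) hq0.le]
    rw [e1, e2] at h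
    exact h.trans (mul_le_mul' (ENNReal.ofReal_le_ofReal (by linarith only [hAq]))
      (ENNReal.sum_le_tsum F))
  rw [ENNReal.tsum_eq_iSup_sum]
  refine iSup_le fun B => ?_
  have hlim : Tendsto (fun F : Finset V => ∑ x ∈ B, (∑ y ∈ F, twoPoint G p x y * f y) ^ q) atTop
      (𝓝 (∑ x ∈ B, (∑' y, twoPoint G p x y * f y) ^ q)) := by
    refine tendsto_finsetSum _ fun x _ => ?_
    exact (ENNReal.continuous_rpow_const.tendsto _).comp ENNReal.summable.hasSum
  exact le_of_tendsto' hlim fun F => hfin B F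

end type0

/-- The conclusion of the main theorem. -/
def DecayConclusion.{u} {V : Type u} (G : SimpleGraph V) : Prop :=
  (∃ p₁ c C : ℝ, pc G < p₁ ∧ 0 < c ∧ ∀ p : unitInterval, (p : ℝ) ≤ p₁ → ∀ x y : V,
    twoPoint G p x y ≤ ENNReal.ofReal (C * Real.exp (-(c * G.dist x y)))) ∧
  ∀ q : ℝ, 1 < q → ∃ p₁ M : ℝ, pc G < p₁ ∧ ∀ p : unitInterval, (p : ℝ) ≤ p₁ →
    ∀ f : V → ℝ≥0∞, ∑' x, (∑' y, twoPoint G p x y * f y) ^ q ≤
      ENNReal.ofReal M * ∑' y, f y ^ q

theorem main0 {V : Type} [DecidableEq V] {G : SimpleGraph V} [G.LocallyFinite] [Infinite V]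
    (hG : G.Connected) (hqt : IsQuasiTransitive G) (hna : 0 < vertexCheeger G) :
    DecayConclusion G := by
  have hlt : pc G < pTwoTwo G := H794.pc_lt_of_nonamenable hG hqt hna
    fun p N h0 h1 hL => H794.le_pTwoTwo hG h0 h1 hL
  constructor
  · obtain ⟨p₁, c, C, hp₁, hc, h⟩ := main_type (G := G) hG hqt hna
    refine ⟨p₁, c, C, hp₁, hc, fun p hp x y => ?_⟩
    rw [← ENNReal.ofReal_toReal (H794.twoPoint_ne_top G p x y)]
    exact ENNReal.ofReal_le_ofReal (h p hp x y)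
  · intro q hq
    obtain ⟨p₁, A, hp₁, h11, hA⟩ := exists_Nq hG hqt hlt (Real.HolderConjugate.conjExponent hq)
    exact ⟨p₁, A ^ q + 1, hp₁, fun p hp f =>
      op_tsum hG (Real.HolderConjugate.conjExponent hq) p (hA p p.2.1 hp) f⟩

section iso

universe u v

variable {V : Type u} {W : Type v} {G : SimpleGraph V} {H : SimpleGraph W}

theorem dist_iso_le (φ : G ≃g H) (hG : G.Connected) (x y : V) :
    H.dist (φ x) (φ y) ≤ G.dist x y := by
  obtain ⟨w, hw⟩ := hG.exists_walk_length_eq_dist x y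
  rw [← hw, ← SimpleGraph.Walk.length_map φ.toHom w]
  exact SimpleGraph.dist_le _

theorem dist_iso (φ : G ≃g H) (hG : G.Connected) (x y : V) :
    H.dist (φ x) (φ y) = G.dist x y := by
  refine le_antisymm (dist_iso_le φ hG x y) ?_
  have h := dist_iso_le φ.symm (φ.connected_iff.1 hG) (φ x) (φ y)
  rwa [φ.symm_apply_apply, φ.symm_apply_apply] at h

theorem DecayConclusion_iso (φ : G ≃g H) (hG : G.Connected) (h : DecayConclusion H) :
    DecayConclusion G := by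
  obtain ⟨⟨p₁, c, C, hp₁, hc, h1⟩, h2⟩ := h
  rw [pc_iso φ] at hp₁
  refine ⟨⟨p₁, c, C, hp₁, hc, fun p hp x y => ?_⟩, fun q hq => ?_⟩
  · have h3 := h1 p hp (φ x) (φ y)
    rwa [H794.twoPoint_iso φ, dist_iso φ hG] at h3
  · obtain ⟨p₁, M, hp₁, h3⟩ := h2 q hq
    rw [pc_iso φ] at hp₁
    refine ⟨p₁, M, hp₁, fun p hp f => ?_⟩
    have h4 := h3 p hp fun w => f (φ.symm w)
    rw [← φ.toEquiv.tsum_eq (fun w => f (φ.symm w) ^ q),
      ← φ.toEquiv.tsum_eq (fun x => (∑' y, twoPoint H p x y * f (φ.symm y)) ^ q)] at h4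
    refine le_trans (le_of_eq ?_) (h4.trans (le_of_eq ?_))
    · refine tsum_congr fun x => ?_
      rw [← φ.toEquiv.tsum_eq (fun y => twoPoint H p (φ.toEquiv x) y * f (φ.symm y))]
      congr 1
      refine tsum_congr fun y => ?_
      have e1 : twoPoint H p (φ.toEquiv x) (φ.toEquiv y) = twoPoint G p x y :=
        H794.twoPoint_iso φ p x y
      have e2 : φ.symm (φ.toEquiv y) = y := φ.symm_apply_apply y
      rw [e1, e2]
    · congr 1
      refine tsum_congr fun x => ?_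
      have e2 : φ.symm (φ.toEquiv x) = x := φ.symm_apply_apply x
      rw [e2]

/-- The main theorem in every universe. -/
theorem main_universe [Infinite V] (G : SimpleGraph V) [G.LocallyFinite] (hG : G.Connected)
    (hqt : IsQuasiTransitive G) (hna : 0 < vertexCheeger G) : DecayConclusion G := by
  have hc : Countable V := countable_of_connected G hG
  obtain ⟨e⟩ : Nonempty (V ≃ ℕ) := by
    have := nonempty_denumerable V
    obtain ⟨d⟩ := this
    exact ⟨d.eqv⟩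
  let φ : G ≃g G.map e := SimpleGraph.Iso.map e G
  have hlf : (G.map e).LocallyFinite := fun x =>
    Fintype.ofEquiv _ ((φ.symm.mapNeighborSet x).symm)
  refine DecayConclusion_iso φ hG (main0 ?_ (isQuasiTransitive_iso φ hqt) ?_)
  · exact φ.connected_iff.1 hG
  · rw [vertexCheeger_iso φ]
    exact hna

end iso

end Vale.Agent.P165.H161
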