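import Vale.Agent.P165.H199.Defs

open MeasureTheory ProbabilityTheory
open scoped ENNReal

namespace Vale.Agent.P165

universe u

variable {V : Type u}

/-- `P_p(n ≤ |K_x| < ∞)`: the probability that the open cluster of `x` is finite and has at least
`n` vertices. -/
noncomputable def finTailProb (G : SimpleGraph V) (p : unitInterval) (x : V) (n : ℕ) : ℝ≥0∞ :=
  setBernoulli G.edgeSet p
    {ω | (n : ℕ∞) ≤ {y | (SimpleGraph.fromEdgeSet ω).Reachable x y}.encard ∧
      {y | (SimpleGraph.fromEdgeSet ω).Reachable x y}.Finite}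

/-- `E_p[|K_x|^k ; |K_x| < ∞]`: the truncated `k`-th moment of the number of vertices of the open
cluster of `x`. -/
noncomputable def finMoment (G : SimpleGraph V) (p : unitInterval) (x : V) (k : ℕ) : ℝ≥0∞ :=
  ∫⁻ ω in {ω | {y | (SimpleGraph.fromEdgeSet ω).Reachable x y}.Finite},
    (({y | (SimpleGraph.fromEdgeSet ω).Reachable x y}.encard : ℕ∞) : ℝ≥0∞) ^ k
    ∂(setBernoulli G.edgeSet p)

end Vale.Agent.P165
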