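import Vale.Agent.P165.H161.FinDefs

open MeasureTheory ProbabilityTheory
open scoped ENNReal

namespace Vale.Agent.P165

universe u

variable {V : Type u}

/-- The probability that the open cluster of `x` is finite and contains a vertex at graph distance
at least `n` from `x`. -/
noncomputable def finArmProb (G : SimpleGraph V) (p : unitInterval) (x : V) (n : ℕ) : ℝ≥0∞ :=
  setBernoulli G.edgeSet p
    {ω | (∃ y, (SimpleGraph.fromEdgeSet ω).Reachable x y ∧ n ≤ G.dist x y) ∧
      {y | (SimpleGraph.fromEdgeSet ω).Reachable x y}.Finite}

/-- The probability that the open cluster of `x` is finite and contains a vertex at open-path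
distance at least `n` from `x` (intrinsic radius of the cluster at least `n`). -/
noncomputable def finRadiusTail (G : SimpleGraph V) (p : unitInterval) (x : V) (n : ℕ) : ℝ≥0∞ :=
  setBernoulli G.edgeSet p
    {ω | (∃ y, (SimpleGraph.fromEdgeSet ω).Reachable x y ∧
        n ≤ (SimpleGraph.fromEdgeSet ω).dist x y) ∧
      {y | (SimpleGraph.fromEdgeSet ω).Reachable x y}.Finite}

end Vale.Agent.P165
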