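import Vale.Agent.P165.H161.Dec

/-!
# Boundedness of the two-point operator on `ℓ^q`, `1 < q < 2`, in finite volume
-/

set_option autoImplicit false

open Finset MeasureTheory ProbabilityTheory
open scoped ENNReal

namespace Vale.Agent.P165.H161

open Vale.Agent.P151 (Ex Cn cl csz edgesIn EV con tau)
open Vale.Agent.P165.LF Vale.Agent.P165.BS Vale.Agent.P165.BS2

/-- The bilinear form of `W` on `F` is bounded by `c` on `ℓ^q × ℓ^q'`. -/
def Nq {V : Type} (F : Finset V) (q q' : ℝ) (W : V → V → ℝ) (c : ℝ) : Prop :=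
  0 ≤ c ∧ ∀ φ ψ : V → ℝ, (∀ x, 0 ≤ φ x) → (∀ x, 0 ≤ ψ x) →
    ∑ x ∈ F, ∑ y ∈ F, φ x * ψ y * W x y ≤
      c * ((∑ x ∈ F, φ x ^ q) ^ (1 / q) * (∑ y ∈ F, ψ y ^ q') ^ (1 / q'))

section abs

variable {V : Type} {F : Finset V} {q q' : ℝ} {W : V → V → ℝ} {c : ℝ}

theorem Nq.mono {c' : ℝ} (h : Nq F q q' W c) (hc : c ≤ c') : Nq F q q' W c' := by
  refine ⟨h.1.trans hc, fun φ ψ hφ hψ => (h.2 φ ψ hφ hψ).trans ?_⟩
  refine mul_le_mul_of_nonneg_right hc (mul_nonneg (Real.rpow_nonneg ?_ _)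
    (Real.rpow_nonneg ?_ _))
  · exact Finset.sum_nonneg fun x _ => Real.rpow_nonneg (hφ x) _
  · exact Finset.sum_nonneg fun x _ => Real.rpow_nonneg (hψ x) _

theorem Nq.swap (h : Nq F q q' W c) : Nq F q' q (fun x y => W y x) c := by
  refine ⟨h.1, fun φ ψ hφ hψ => ?_⟩
  have h2 := h.2 ψ φ hψ hφ
  rw [Finset.sum_comm]
  refine le_trans (le_of_eq ?_) (h2.trans (le_of_eq (by ring)))
  exact Finset.sum_congr rfl fun x _ => Finset.sum_congr rfl fun y _ => by ring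

theorem Nq.left (hpq : q.HolderConjugate q') (h : Nq F q q' W c) (hW : ∀ x y, 0 ≤ W x y)
    {φ : V → ℝ} (hφ : ∀ x, 0 ≤ φ x) :
    (∑ y ∈ F, (∑ x ∈ F, φ x * W x y) ^ q) ^ (1 / q) ≤ c * (∑ x ∈ F, φ x ^ q) ^ (1 / q) := by
  have hc := h.1
  have hq0 := hpq.pos
  set u : V → ℝ := fun y => ∑ x ∈ F, φ x * W x y with hu
  have hu0 : ∀ y, 0 ≤ u y := fun y => Finset.sum_nonneg fun x _ => mul_nonneg (hφ x) (hW x y)
  have h1 := h.2 φ (fun y => u y ^ (q - 1)) hφ (fun y => Real.rpow_nonneg (hu0 y) _)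
  set L := ∑ y ∈ F, u y ^ q with hL
  have e1 : ∑ x ∈ F, ∑ y ∈ F, φ x * u y ^ (q - 1) * W x y = L := by
    rw [Finset.sum_comm]
    refine Finset.sum_congr rfl fun y _ => ?_
    have e3 : ∑ x ∈ F, φ x * u y ^ (q - 1) * W x y = u y * u y ^ (q - 1) := by
      have : u y = ∑ x ∈ F, φ x * W x y := rfl
      nth_rewrite 2 [this]
      rw [Finset.sum_mul]
      exact Finset.sum_congr rfl fun x _ => by ring
    rw [e3, ← Real.rpow_one_add' (hu0 y) (by linarith), add_sub_cancel]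
  have e2 : ∑ y ∈ F, (u y ^ (q - 1)) ^ q' = L := by
    refine Finset.sum_congr rfl fun y _ => ?_
    rw [← Real.rpow_mul (hu0 y), hpq.sub_one_mul_conj]
  rw [e1, e2] at h1
  have hL0 : 0 ≤ L := Finset.sum_nonneg fun y _ => Real.rpow_nonneg (hu0 y) _
  have hΦ : 0 ≤ (∑ x ∈ F, φ x ^ q) ^ (1 / q) :=
    Real.rpow_nonneg (Finset.sum_nonneg fun x _ => Real.rpow_nonneg (hφ x) _) _
  rcases hL0.eq_or_lt with h0 | h0
  · rw [← h0, Real.zero_rpow (by positivity)]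
    exact mul_nonneg hc hΦ
  · have h2 : 0 < L ^ (1 / q') := Real.rpow_pos_of_pos h0 _
    have h3 : L ^ (1 / q) * L ^ (1 / q') = L := by
      rw [← Real.rpow_add h0]
      have : 1 / q + 1 / q' = 1 := by
        rw [one_div, one_div]; exact hpq.inv_add_inv_eq_one
      rw [this, Real.rpow_one]
    refine le_of_mul_le_mul_right ?_ h2
    rw [h3]
    exact h1.trans (le_of_eq (by ring))

theorem Nq.right (hpq : q.HolderConjugate q') (h : Nq F q q' W c) (hW : ∀ x y, 0 ≤ W x y)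
    {ψ : V → ℝ} (hψ : ∀ x, 0 ≤ ψ x) :
    (∑ x ∈ F, (∑ y ∈ F, W x y * ψ y) ^ q') ^ (1 / q') ≤ c * (∑ y ∈ F, ψ y ^ q') ^ (1 / q') := by
  have h2 := h.swap.left hpq.symm (fun x y => hW y x) hψ
  refine le_trans (le_of_eq ?_) h2
  congr 1
  refine Finset.sum_congr rfl fun x _ => ?_
  congr 1
  exact Finset.sum_congr rfl fun y _ => by ring

/-- Hölder's inequality in the form `∑ f^s g^t ≤ (∑ f)^s (∑ g)^t`, `s + t = 1`. -/
theorem holder_st {ι : Type*} (S : Finset ι) {s t : ℝ} (hs : 0 < s) (ht : 0 < t) (hst : s + t = 1)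
    {f g : ι → ℝ} (hf : ∀ i, 0 ≤ f i) (hg : ∀ i, 0 ≤ g i) :
    ∑ i ∈ S, f i ^ s * g i ^ t ≤ (∑ i ∈ S, f i) ^ s * (∑ i ∈ S, g i) ^ t := by
  have hpq : (s⁻¹).HolderConjugate t⁻¹ := Real.HolderConjugate.inv_inv hs ht hst
  have h := Real.inner_le_Lp_mul_Lq_of_nonneg S hpq (f := fun i => f i ^ s) (g := fun i => g i ^ t)
    (fun i _ => Real.rpow_nonneg (hf i) _) (fun i _ => Real.rpow_nonneg (hg i) _)
  have e1 : ∑ i ∈ S, (f i ^ s) ^ s⁻¹ = ∑ i ∈ S, f i :=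
    Finset.sum_congr rfl fun i _ => by
      rw [← Real.rpow_mul (hf i), mul_inv_cancel₀ hs.ne', Real.rpow_one]
  have e2 : ∑ i ∈ S, (g i ^ t) ^ t⁻¹ = ∑ i ∈ S, g i :=
    Finset.sum_congr rfl fun i _ => by
      rw [← Real.rpow_mul (hg i), mul_inv_cancel₀ ht.ne', Real.rpow_one]
  rw [e1, e2, one_div, one_div, inv_inv, inv_inv] at h
  exact h

/-- **Interpolation** between row sums and the `ℓ²` norm. -/
theorem Nq_interp (hpq : q.HolderConjugate q') (hq2 : q < 2) (hW : ∀ x y, 0 ≤ W x y)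
    {A N : ℝ} (hA : 0 ≤ A) (hrow : ∀ x ∈ F, ∑ y ∈ F, W x y ≤ A) (hN : Nm F W N) :
    Nq F q q' W (A ^ (2 / q - 1) * N ^ (2 / q')) := by
  have hq0 := hpq.pos
  have hq0' := hpq.symm.pos
  have hq1 := hpq.lt
  have hN0 := hN.1
  set s : ℝ := 2 / q - 1 with hs
  set t : ℝ := 2 / q' with ht
  have hinv : 1 / q + 1 / q' = 1 := by
    rw [one_div, one_div]; exact hpq.inv_add_inv_eq_one
  have hst : s + t = 1 := by
    have : 2 / q + 2 / q' = 2 := by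
      have e : 2 / q + 2 / q' = 2 * (1 / q + 1 / q') := by ring
      rw [e, hinv, mul_one]
    rw [hs, ht]; linarith
  have hs0 : 0 < s := by
    have : 1 < 2 / q := by rw [lt_div_iff₀ hq0]; linarith
    rw [hs]; linarith
  have ht0 : 0 < t := by rw [ht]; positivity
  refine ⟨by positivity, fun φ ψ hφ hψ => ?_⟩
  set Φ := ∑ x ∈ F, φ x ^ q with hΦ
  set Ψ := ∑ y ∈ F, ψ y ^ q' with hΨ
  have hΦ0 : 0 ≤ Φ := Finset.sum_nonneg fun x _ => Real.rpow_nonneg (hφ x) _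
  have hΨ0 : 0 ≤ Ψ := Finset.sum_nonneg fun x _ => Real.rpow_nonneg (hψ x) _
  have eq1 : q * s + q / 2 * t = 1 := by
    have h1 : q * s = 2 - q := by rw [hs]; field_simp
    have h2 : q / 2 * t = q / q' := by rw [ht]; ring
    rw [h1, h2, hpq.div_conj_eq_sub_one]
    ring
  have eq2 : q' / 2 * t = 1 := by rw [ht]; field_simp
  have key : ∀ x y, φ x * ψ y * W x y =
      (φ x ^ q * W x y) ^ s * (φ x ^ (q / 2) * ψ y ^ (q' / 2) * W x y) ^ t := by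
    intro x y
    have hφq := Real.rpow_nonneg (hφ x) q
    have hφq2 := Real.rpow_nonneg (hφ x) (q / 2)
    have hψq2 := Real.rpow_nonneg (hψ y) (q' / 2)
    rw [Real.mul_rpow hφq (hW x y), Real.mul_rpow (mul_nonneg hφq2 hψq2) (hW x y),
      Real.mul_rpow hφq2 hψq2, ← Real.rpow_mul (hφ x), ← Real.rpow_mul (hφ x),
      ← Real.rpow_mul (hψ y), eq2, Real.rpow_one]
    have e1 : φ x ^ (q * s) * φ x ^ (q / 2 * t) = φ x := by
      rw [← Real.rpow_add_of_nonneg (hφ x) (by positivity) (by positivity), eq1, Real.rpow_one]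
    have e2 : W x y ^ s * W x y ^ t = W x y := by
      rw [← Real.rpow_add_of_nonneg (hW x y) hs0.le ht0.le, hst, Real.rpow_one]
    calc φ x * ψ y * W x y = (φ x ^ (q * s) * φ x ^ (q / 2 * t)) * ψ y *
          (W x y ^ s * W x y ^ t) := by rw [e1, e2]
      _ = _ := by ring
  have hH := holder_st (F ×ˢ F) hs0 ht0 hst (f := fun z => φ z.1 ^ q * W z.1 z.2)
    (g := fun z => φ z.1 ^ (q / 2) * ψ z.2 ^ (q' / 2) * W z.1 z.2)
    (fun z => mul_nonneg (Real.rpow_nonneg (hφ _) _) (hW _ _))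
    (fun z => mul_nonneg (mul_nonneg (Real.rpow_nonneg (hφ _) _) (Real.rpow_nonneg (hψ _) _))
      (hW _ _))
  simp only [Finset.sum_product] at hH
  have h1 : ∑ x ∈ F, ∑ y ∈ F, φ x ^ q * W x y ≤ A * Φ := by
    rw [hΦ, Finset.mul_sum]
    refine Finset.sum_le_sum fun x hx => ?_
    rw [← Finset.mul_sum, mul_comm]
    exact mul_le_mul_of_nonneg_right (hrow x hx) (Real.rpow_nonneg (hφ x) _)
  have h10 : 0 ≤ ∑ x ∈ F, ∑ y ∈ F, φ x ^ q * W x y :=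
    Finset.sum_nonneg fun x _ => Finset.sum_nonneg fun y _ =>
      mul_nonneg (Real.rpow_nonneg (hφ x) _) (hW x y)
  have h2 : ∑ x ∈ F, ∑ y ∈ F, φ x ^ (q / 2) * ψ y ^ (q' / 2) * W x y ≤
      N * (Φ ^ (1 / 2 : ℝ) * Ψ ^ (1 / 2 : ℝ)) := by
    have h3 := hN.2 (fun x => φ x ^ (q / 2)) (fun y => ψ y ^ (q' / 2))
      (fun x => Real.rpow_nonneg (hφ x) _) (fun y => Real.rpow_nonneg (hψ y) _)
    have e1 : ∑ x ∈ F, (φ x ^ (q / 2)) ^ 2 = Φ := Finset.sum_congr rfl fun x _ => by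
      rw [← Real.rpow_natCast, ← Real.rpow_mul (hφ x)]
      congr 1
      push_cast
      ring
    have e2 : ∑ y ∈ F, (ψ y ^ (q' / 2)) ^ 2 = Ψ := Finset.sum_congr rfl fun x _ => by
      rw [← Real.rpow_natCast, ← Real.rpow_mul (hψ x)]
      congr 1
      push_cast
      ring
    rw [e1, e2] at h3
    refine abs_le_of_sq_le_sq' (h3.trans (le_of_eq ?_)) (by positivity) |>.2
    rw [mul_pow, mul_pow, ← Real.sqrt_eq_rpow, ← Real.sqrt_eq_rpow, Real.sq_sqrt hΦ0,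
      Real.sq_sqrt hΨ0]
  have h20 : 0 ≤ ∑ x ∈ F, ∑ y ∈ F, φ x ^ (q / 2) * ψ y ^ (q' / 2) * W x y :=
    Finset.sum_nonneg fun x _ => Finset.sum_nonneg fun y _ =>
      mul_nonneg (mul_nonneg (Real.rpow_nonneg (hφ x) _) (Real.rpow_nonneg (hψ y) _)) (hW x y)
  calc ∑ x ∈ F, ∑ y ∈ F, φ x * ψ y * W x y
      = ∑ x ∈ F, ∑ y ∈ F, (φ x ^ q * W x y) ^ s *
          (φ x ^ (q / 2) * ψ y ^ (q' / 2) * W x y) ^ t :=
        Finset.sum_congr rfl fun x _ => Finset.sum_congr rfl fun y _ => key x y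
    _ ≤ _ := hH
    _ ≤ (A * Φ) ^ s * (N * (Φ ^ (1 / 2 : ℝ) * Ψ ^ (1 / 2 : ℝ))) ^ t :=
        mul_le_mul (Real.rpow_le_rpow h10 h1 hs0.le) (Real.rpow_le_rpow h20 h2 ht0.le)
          (Real.rpow_nonneg h20 _) (Real.rpow_nonneg (mul_nonneg hA hΦ0) _)
    _ = A ^ s * N ^ t * (Φ ^ (1 / q) * Ψ ^ (1 / q')) := by
        have hΦh := Real.rpow_nonneg hΦ0 (1 / 2)
        have hΨh := Real.rpow_nonneg hΨ0 (1 / 2)
        rw [Real.mul_rpow hA hΦ0, Real.mul_rpow hN0 (mul_nonneg hΦh hΨh),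
          Real.mul_rpow hΦh hΨh, ← Real.rpow_mul hΦ0, ← Real.rpow_mul hΨ0]
        have e3 : 1 / 2 * t = 1 / q' := by rw [ht]; ring
        have e4 : s + 1 / 2 * t = 1 / q := by
          rw [e3, hs]
          have : 2 / q = 2 * (1 / q) := by ring
          rw [this]; linarith
        have e5 : Φ ^ s * Φ ^ (1 / 2 * t) = Φ ^ (1 / q) := by
          rw [← Real.rpow_add_of_nonneg hΦ0 hs0.le (by positivity), e4]
        rw [e3] at e5 ⊢
        calc A ^ s * Φ ^ s * (N ^ t * (Φ ^ (1 / q') * Ψ ^ (1 / q'))) =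
              A ^ s * N ^ t * ((Φ ^ s * Φ ^ (1 / q')) * Ψ ^ (1 / q')) := by ring
          _ = _ := by rw [e5]

end abs

end Vale.Agent.P165.H161
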