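import Vale.Agent.P165.H199.Blocks

/-!
# Transfer between the infinite volume quantities and finite volume expectations
-/

set_option autoImplicit false

open Finset MeasureTheory ProbabilityTheory Filter Topology
open scoped ENNReal

namespace Vale.Agent.P165.H161.MF

open Vale.Agent.P151 (Ex Cn cl csz edgesIn EV con tau)
open Vale.Agent.P165.LF Vale.Agent.P165.BS Vale.Agent.P165.BS2 Vale.Agent.P165.H199

/-- The open cluster of `x`. -/
def Kset {V : Type} (ω : Set (Sym2 V)) (x : V) : Set V :=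
  {y | (SimpleGraph.fromEdgeSet ω).Reachable x y}

theorem Kset_mono {V : Type} {ω ω' : Set (Sym2 V)} (h : ω ⊆ ω') (x : V) :
    Kset ω x ⊆ Kset ω' x := fun _ hy =>
  SimpleGraph.Reachable.mono (SimpleGraph.fromEdgeSet_mono h) hy

variable {V : Type} [DecidableEq V] {G : SimpleGraph V}

theorem Kset_coe (S : Finset (Sym2 V)) (x : V) : Kset (S : Set (Sym2 V)) x = (cl S x : Set V) := by
  ext y
  rw [Finset.mem_coe, Vale.Agent.P151.mem_cl]
  exact Iff.rfl

theorem encard_coe (S : Finset (Sym2 V)) (x : V) :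
    (Kset (S : Set (Sym2 V)) x).encard = (csz S x : ℕ∞) := by
  rw [Kset_coe, Set.encard_coe_eq_coe_finsetCard]
  rfl

theorem ncard_coe (S : Finset (Sym2 V)) (x : V) :
    (Kset (S : Set (Sym2 V)) x).ncard = csz S x := by
  rw [Kset_coe, Set.ncard_coe_finset]
  rfl

omit [DecidableEq V] in
theorem measurable_encard [Countable V] (x : V) :
    Measurable fun ω : Set (Sym2 V) => (((Kset ω x).encard : ℕ∞) : ℝ≥0∞) := by
  classical
  have h : (fun ω : Set (Sym2 V) => (((Kset ω x).encard : ℕ∞) : ℝ≥0∞)) = fun ω =>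
      ∑' y, {ω : Set (Sym2 V) | (SimpleGraph.fromEdgeSet ω).Reachable x y}.indicator 1 ω := by
    funext ω
    exact H794.encard_eq_tsum x ω
  rw [h]
  exact Measurable.tsum fun y => measurable_one.indicator (measurableSet_reachable x y)

omit [DecidableEq V] in
theorem measurableSet_tail [Countable V] (x : V) (n : ℕ) :
    MeasurableSet {ω : Set (Sym2 V) | (n : ℕ∞) ≤ (Kset ω x).encard} := by
  have h := measurableSet_le (measurable_const (a := (n : ℝ≥0∞))) (measurable_encard (V := V) x)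
  convert h using 1
  ext ω
  change (n : ℕ∞) ≤ (Kset ω x).encard ↔ (n : ℝ≥0∞) ≤ (((Kset ω x).encard : ℕ∞) : ℝ≥0∞)
  rw [← ENat.toENNReal_coe, ENat.toENNReal_le]

/-- the finite-volume expectation as an integral -/
theorem Ex_tail_eq (G : SimpleGraph V) [Countable V] (p : unitInterval) (x : V) (n : ℕ)
    (F : Finset V) : Ex (p : ℝ) (edgesIn G F) (fun S => ind (n ≤ csz S x)) =
      (setBernoulli G.edgeSet p).real
        {ω | (n : ℕ∞) ≤ (Kset (ω ∩ (edgesIn G F : Set (Sym2 V))) x).encard} := by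
  classical
  have : Countable (Sym2 V) := by
    unfold Sym2; infer_instance
  have h4 := setBer_inter_pred G.edgeSet p (edgesIn G F)
    (fun e he => (Vale.Agent.P151.mem_edgesIn.1 (Finset.mem_coe.1 he)).1)
    (fun s => (n : ℕ∞) ≤ (Kset s x).encard)
  refine Eq.trans ?_ h4.symm
  unfold Ex
  rw [Finset.sum_filter]
  apply Finset.sum_congr rfl
  intro S _
  have e : ((n : ℕ∞) ≤ (Kset (S : Set (Sym2 V)) x).encard) ↔ n ≤ csz S x := by
    rw [encard_coe]
    exact Nat.cast_le
  simp only
  by_cases h : n ≤ csz S x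
  · rw [ind_true h, if_pos (e.2 h), mul_one]
  · rw [ind_false h, if_neg fun h' => h (e.1 h'), mul_zero]

/-- a finite part of the cluster is visible in a ball -/
theorem exists_ball_Kset (G : SimpleGraph V) [G.LocallyFinite] (hG : G.Connected)
    {ω : Set (Sym2 V)} (hω : ω ⊆ G.edgeSet) (x : V) {T : Set V} (hT : T.Finite)
    (hTK : T ⊆ Kset ω x) : ∃ m, ∀ k, m ≤ k →
      T ⊆ Kset (ω ∩ (edgesIn G (Vale.Agent.P165.ballF G x k) : Set (Sym2 V))) x := by
  have h1 : ∀ y : T, ∃ n, (SimpleGraph.fromEdgeSet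
      (ω ∩ (edgesIn G (Vale.Agent.P165.ballF G x n) : Set (Sym2 V)))).Reachable x y :=
    fun y => nu_reach G hG hω (hTK y.2)
  choose f hf using h1
  have : Finite T := hT
  obtain ⟨m, hm⟩ : ∃ m, ∀ y : T, f y ≤ m := by
    obtain ⟨m, hm⟩ := (Set.finite_range f).bddAbove
    exact ⟨m, fun y => hm ⟨y, rfl⟩⟩
  refine ⟨m, fun k hk y hy => ?_⟩
  refine Kset_mono (Set.inter_subset_inter_right _ ?_) x (hf ⟨y, hy⟩)
  exact_mod_cast Vale.Agent.P151.edgesIn_mono G
    (Vale.Agent.P165.ballF_mono G x ((hm ⟨y, hy⟩).trans hk))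

theorem ind_le_one' (P : Prop) : ind P ≤ 1 := by
  by_cases h : P
  · rw [ind_true h]
  · rw [ind_false h]; exact zero_le_one

theorem tail_le_one (x : V) (n : ℕ) (S : Finset (Sym2 V)) : ind (n ≤ csz S x) ≤ 1 := ind_le_one' _

theorem tail_mono (x : V) (n : ℕ) : Monotone fun S : Finset (Sym2 V) => ind (n ≤ csz S x) :=
  fun _ _ h => ind_mono fun h' => h'.trans (Vale.Agent.P151.csz_mono h x)

theorem EV_tail_nonneg {p : ℝ} (h0 : 0 ≤ p) (h1 : p ≤ 1) (x : V) (n : ℕ) :
    0 ≤ EV G p (fun S => ind (n ≤ csz S x)) :=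
  Vale.Agent.P151.EV_nonneg h0 h1 (fun _ => ind_nonneg _) (tail_le_one x n)

/-- **(T1)** `P_p(|K_x| ≥ n)` is the supremum of the finite-volume probabilities. -/
theorem clusterTail_eq (G : SimpleGraph V) [G.LocallyFinite] (hG : G.Connected)
    (p : unitInterval) (x : V) (n : ℕ) :
    clusterTail G p x n = ENNReal.ofReal (EV G (p : ℝ) (fun S => ind (n ≤ csz S x))) := by
  have : Countable V := countable_of_connected G hG
  set μ := setBernoulli G.edgeSet p with hμ
  have hE0 := EV_tail_nonneg (G := G) p.2.1 p.2.2 x n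
  have hfin : ∀ F : Finset V, ENNReal.ofReal (Ex (p : ℝ) (edgesIn G F)
      (fun S => ind (n ≤ csz S x))) = μ {ω | (n : ℕ∞) ≤
        (Kset (ω ∩ (edgesIn G F : Set (Sym2 V))) x).encard} := fun F => by
    rw [Ex_tail_eq, measureReal_def, ENNReal.ofReal_toReal (measure_ne_top _ _)]
  refine le_antisymm ?_ ?_
  · set A : ℕ → Set (Set (Sym2 V)) := fun m => {ω | (n : ℕ∞) ≤
      (Kset (ω ∩ (edgesIn G (Vale.Agent.P165.ballF G x m) : Set (Sym2 V))) x).encard} with hA
    have hmono : Monotone A := by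
      intro m k hmk ω hω
      refine le_trans (show (n : ℕ∞) ≤ (Kset (ω ∩ (edgesIn G (Vale.Agent.P165.ballF G x m) :
        Set (Sym2 V))) x).encard from hω) (Set.encard_le_encard (Kset_mono ?_ x))
      refine Set.inter_subset_inter_right _ ?_
      exact_mod_cast Vale.Agent.P151.edgesIn_mono G (Vale.Agent.P165.ballF_mono G x hmk)
    have h1 : clusterTail G p x n ≤ μ (⋃ m, A m) := by
      refine measure_mono_ae ?_
      filter_upwards [setBernoulli_ae_subset (u := G.edgeSet) (p := p)] with ω hω hmem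
      have hmem' : (n : ℕ∞) ≤ (Kset ω x).encard := hmem
      obtain ⟨T, hT, hTn⟩ := Set.exists_subset_encard_eq hmem'
      have hTf : T.Finite := by
        rw [← Set.encard_lt_top_iff, hTn]
        exact ENat.coe_lt_top n
      obtain ⟨m, hm⟩ := exists_ball_Kset G hG hω x hTf hT
      refine Set.mem_iUnion.2 ⟨m, ?_⟩
      change (n : ℕ∞) ≤ _
      rw [← hTn]
      exact Set.encard_le_encard (hm m le_rfl)
    refine h1.trans ?_
    rw [hmono.measure_iUnion]
    refine iSup_le fun m => ?_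
    rw [hA]
    simp only
    rw [← hfin]
    exact ENNReal.ofReal_le_ofReal (Vale.Agent.P151.le_EV p.2.1 p.2.2 (tail_le_one x n) _)
  · have h2 : clusterTail G p x n ≠ ⊤ := measure_ne_top _ _
    rw [ENNReal.ofReal_le_iff_le_toReal h2]
    refine Vale.Agent.P151.EV_le fun F => ?_
    rw [← ENNReal.ofReal_le_iff_le_toReal h2, hfin]
    refine measure_mono fun ω hω => ?_
    exact le_trans (show (n : ℕ∞) ≤ (Kset (ω ∩ (edgesIn G F : Set (Sym2 V))) x).encard from hω)
      (Set.encard_le_encard (Kset_mono Set.inter_subset_left x))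

omit [DecidableEq V] in
theorem percProb_le_tail (G : SimpleGraph V) (p : unitInterval) (x : V) (n : ℕ) :
    percProb G p x ≤ clusterTail G p x n := by
  refine measure_mono fun ω hω => ?_
  have h : {y | (SimpleGraph.fromEdgeSet ω).Reachable x y}.encard = ⊤ := Set.encard_eq_top_iff.2 hω
  change (n : ℕ∞) ≤ {y | (SimpleGraph.fromEdgeSet ω).Reachable x y}.encard
  rw [h]
  exact le_top

omit [DecidableEq V] in
/-- A lower bound for all the tails is a lower bound for the percolation probability. -/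
theorem le_percProb (G : SimpleGraph V) [Countable V] (p : unitInterval) (x : V) {c : ℝ≥0∞}
    (h : ∀ n : ℕ, c ≤ clusterTail G p x n) : c ≤ percProb G p x := by
  set μ := setBernoulli G.edgeSet p with hμ
  set A : ℕ → Set (Set (Sym2 V)) := fun n => {ω | (n : ℕ∞) ≤ (Kset ω x).encard} with hA
  have hanti : Antitone A := by
    intro m n hmn ω hω
    have hω' : (n : ℕ∞) ≤ (Kset ω x).encard := hω
    exact le_trans (by exact_mod_cast hmn) hω'
  have htend : Tendsto (fun n => μ (A n)) atTop (𝓝 (μ (⋂ n, A n))) :=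
    tendsto_measure_iInter_atTop (fun n => (measurableSet_tail x n).nullMeasurableSet) hanti
      ⟨0, measure_ne_top _ _⟩
  have h1 : c ≤ μ (⋂ n, A n) := ge_of_tendsto' htend h
  refine h1.trans (measure_mono fun ω hω => ?_)
  rw [Set.mem_iInter] at hω
  change (Kset ω x).Infinite
  intro hfin
  have h2 : ((Kset ω x).ncard + 1 : ℕ) ≤ (Kset ω x).encard := hω _
  rw [← hfin.cast_ncard_eq] at h2
  have h3 : (Kset ω x).ncard + 1 ≤ (Kset ω x).ncard := by exact_mod_cast h2
  omega

end Vale.Agent.P165.H161.MF
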