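import Vale.Agent.P165.H161.MF1

/-!
# Transfer of the truncated susceptibility
-/

set_option autoImplicit false

open Finset MeasureTheory ProbabilityTheory Filter Topology
open scoped ENNReal

namespace Vale.Agent.P165.H161.MF

open Vale.Agent.P151 (Ex Cn cl csz edgesIn EV con tau)
open Vale.Agent.P165.LF Vale.Agent.P165.BS Vale.Agent.P165.BS2 Vale.Agent.P165.H199

section gen

variable {ι : Type} [DecidableEq ι] [Countable ι]

omit [DecidableEq ι] [Countable ι] in
theorem fun_inter_eq (Λ : Finset ι) (H : Set ι → ℝ≥0∞) (ω : Set ι) :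
    H (ω ∩ (Λ : Set ι)) = ∑ S ∈ Λ.powerset,
      {ω : Set ι | ω ∩ (Λ : Set ι) = (S : Set ι)}.indicator (fun _ => H (S : Set ι)) ω := by
  classical
  set S0 : Finset ι := Λ.filter fun i => i ∈ ω with hS0
  have hS : ω ∩ (Λ : Set ι) = (S0 : Set ι) := by
    ext i
    simp [hS0, and_comm]
  rw [Finset.sum_eq_single_of_mem S0 (Finset.mem_powerset.2 (Finset.filter_subset _ _))]
  · rw [Set.indicator_of_mem (show ω ∈ {ω : Set ι | ω ∩ (Λ : Set ι) = (S0 : Set ι)} from hS), hS]
  · intro S _ hne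
    refine Set.indicator_of_notMem (fun h => hne ?_) _
    have h' : ω ∩ (Λ : Set ι) = (S : Set ι) := h
    rw [hS] at h'
    exact_mod_cast h'.symm

omit [DecidableEq ι] [Countable ι] in
theorem measurable_inter (Λ : Finset ι) (H : Set ι → ℝ≥0∞) :
    Measurable fun ω : Set ι => H (ω ∩ (Λ : Set ι)) := by
  classical
  have h : (fun ω : Set ι => H (ω ∩ (Λ : Set ι))) = fun ω => ∑ S ∈ Λ.powerset,
      {ω : Set ι | ω ∩ (Λ : Set ι) = (S : Set ι)}.indicator (fun _ => H (S : Set ι)) ω := by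
    funext ω
    exact fun_inter_eq Λ H ω
  rw [h]
  exact Finset.measurable_fun_sum _ fun S _ =>
    measurable_const.indicator (measurableSet_inter_eq Λ S)

theorem lintegral_inter (u : Set ι) (p : unitInterval) (Λ : Finset ι) (hΛ : (Λ : Set ι) ⊆ u)
    (H : Set ι → ℝ≥0∞) (h : Finset ι → ℝ) (h0 : ∀ S, 0 ≤ h S)
    (hH : ∀ S ⊆ Λ, H (S : Set ι) = ENNReal.ofReal (h S)) :
    ∫⁻ ω, H (ω ∩ (Λ : Set ι)) ∂(setBernoulli u p) =
      ENNReal.ofReal (Vale.Agent.P151.Ex (p : ℝ) Λ h) := by
  have hp0 : (0 : ℝ) ≤ p := p.2.1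
  have hp1 : (0 : ℝ) ≤ 1 - p := by linarith [p.2.2]
  simp only [fun_inter_eq Λ H]
  rw [lintegral_finsetSum _ fun S _ => measurable_const.indicator (measurableSet_inter_eq Λ S)]
  unfold Vale.Agent.P151.Ex
  rw [ENNReal.ofReal_sum_of_nonneg fun S _ => mul_nonneg (by positivity) (h0 S)]
  refine Finset.sum_congr rfl fun S hS => ?_
  have hw : (0 : ℝ) ≤ (p : ℝ) ^ S.card * (1 - (p : ℝ)) ^ (Λ.card - S.card) := by positivity
  rw [lintegral_indicator_const (measurableSet_inter_eq Λ S),
    setBer_inter_eq u p Λ S hΛ (Finset.mem_powerset.1 hS), hH S (Finset.mem_powerset.1 hS),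
    ENNReal.ofReal_mul hw, mul_comm]

end gen

variable {V : Type} [DecidableEq V] {G : SimpleGraph V}

omit [DecidableEq V] in
theorem Kset_finite_measurable [Countable V] (x : V) :
    MeasurableSet {ω : Set (Sym2 V) | (Kset ω x).Finite} := by
  have h : {ω : Set (Sym2 V) | (Kset ω x).Finite} = (InfC x)ᶜ := by
    ext ω
    change (Kset ω x).Finite ↔ ¬ (Kset ω x).Infinite
    rw [Set.not_infinite]
  rw [h]
  exact (measurableSet_infC x).compl

omit [DecidableEq V] in
/-- the truncated susceptibility through `ncard` -/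
theorem finSus_eq (G : SimpleGraph V) [Countable V] (p : unitInterval) (x : V) :
    finSusceptibility G p x = ∫⁻ ω, ((Kset ω x).ncard : ℝ≥0∞) ∂(setBernoulli G.edgeSet p) := by
  unfold finSusceptibility
  change ∫⁻ ω in {ω : Set (Sym2 V) | (Kset ω x).Finite}, (((Kset ω x).encard : ℕ∞) : ℝ≥0∞)
    ∂(setBernoulli G.edgeSet p) = _
  rw [← lintegral_indicator (Kset_finite_measurable x)]
  refine lintegral_congr fun ω => ?_
  by_cases h : (Kset ω x).Finite
  · rw [Set.indicator_of_mem (show ω ∈ {ω : Set (Sym2 V) | (Kset ω x).Finite} from h)]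
    rw [← h.cast_ncard_eq]
    rfl
  · rw [Set.indicator_of_notMem (show ω ∉ {ω : Set (Sym2 V) | (Kset ω x).Finite} from h),
      Set.Infinite.ncard h, Nat.cast_zero]

/-- Upper bound for the truncated susceptibility (Fatou). -/
theorem finSus_le (G : SimpleGraph V) [G.LocallyFinite] (hG : G.Connected) (p : unitInterval)
    (x : V) {B : ℝ} (hB : ∀ t : ℝ, 0 < t → t < 1 → ∃ F0 : Finset V, ∀ F : Finset V, F0 ⊆ F →
      Ex (p : ℝ) (edgesIn G F) (fun S => (csz S x : ℝ) * t ^ csz S x) ≤ B) :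
    finSusceptibility G p x ≤ ENNReal.ofReal B := by
  have : Countable V := countable_of_connected G hG
  have : Countable (Sym2 V) := by
    unfold Sym2; infer_instance
  set t : ℕ → ℝ := fun j => 1 - 1 / ((j : ℝ) + 2) with ht
  have hj : ∀ j : ℕ, (0 : ℝ) < (j : ℝ) + 2 := fun j => by positivity
  have ht0 : ∀ j, 0 < t j := fun j => by
    have h1 : 1 / ((j : ℝ) + 2) < 1 := by
      rw [div_lt_one (hj j)]
      have : (0 : ℝ) ≤ j := Nat.cast_nonneg j
      linarith
    simp only [ht]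
    linarith
  have ht1 : ∀ j, t j < 1 := fun j => by
    have h1 : 0 < 1 / ((j : ℝ) + 2) := by have := hj j; positivity
    simp only [ht]
    linarith
  have htlim : Tendsto t atTop (𝓝 1) := by
    have h1 : Tendsto (fun j : ℕ => 1 / ((j : ℝ) + 2)) atTop (𝓝 0) := by
      have h2 : Tendsto (fun j : ℕ => (j : ℝ) + 2) atTop atTop :=
        tendsto_atTop_add_const_right _ _ tendsto_natCast_atTop_atTop
      simp only [one_div]
      exact h2.inv_tendsto_atTop
    have h3 := h1.const_sub 1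
    rwa [sub_zero] at h3
  choose F0 hF0 using fun j => hB (t j) (ht0 j) (ht1 j)
  choose m hm using fun j => exists_ballF_superset G hG x (F0 j)
  set k : ℕ → ℕ := fun j => max j (m j) with hk
  set Λ : ℕ → Finset (Sym2 V) := fun j => edgesIn G (Vale.Agent.P165.ballF G x (k j)) with hΛ
  set H : ℕ → Set (Sym2 V) → ℝ≥0∞ := fun j s =>
    ENNReal.ofReal (((Kset s x).ncard : ℝ) * t j ^ (Kset s x).ncard) with hH
  have hint : ∀ j, ∫⁻ ω, H j (ω ∩ (Λ j : Set (Sym2 V))) ∂(setBernoulli G.edgeSet p) ≤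
      ENNReal.ofReal B := by
    intro j
    rw [lintegral_inter G.edgeSet p (Λ j)
      (fun e he => (Vale.Agent.P151.mem_edgesIn.1 (Finset.mem_coe.1 he)).1) (H j)
      (fun S => (csz S x : ℝ) * t j ^ csz S x)
      (fun S => mul_nonneg (Nat.cast_nonneg _) (pow_nonneg (ht0 j).le _))
      (fun S _ => by simp only [hH, ncard_coe])]
    refine ENNReal.ofReal_le_ofReal (hF0 j _ ?_)
    exact (hm j).trans (Vale.Agent.P165.ballF_mono G x (le_max_right _ _))
  rw [finSus_eq]
  have hpt : ∀ᵐ ω ∂(setBernoulli G.edgeSet p), ((Kset ω x).ncard : ℝ≥0∞) ≤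
      liminf (fun j => H j (ω ∩ (Λ j : Set (Sym2 V)))) atTop := by
    filter_upwards [setBernoulli_ae_subset (u := G.edgeSet) (p := p)] with ω hω
    by_cases hfin : (Kset ω x).Finite
    · obtain ⟨M, hM⟩ := exists_ball_Kset G hG hω x hfin subset_rfl
      have heq : ∀ᶠ j in atTop, H j (ω ∩ (Λ j : Set (Sym2 V))) =
          ENNReal.ofReal (((Kset ω x).ncard : ℝ) * t j ^ (Kset ω x).ncard) := by
        filter_upwards [eventually_ge_atTop M] with j hjM
        have h1 : Kset (ω ∩ (Λ j : Set (Sym2 V))) x = Kset ω x :=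
          Set.Subset.antisymm (Kset_mono Set.inter_subset_left x)
            (hM (k j) (hjM.trans (le_max_left _ _)))
        simp only [hH]
        rw [h1]
      have hlim : Tendsto (fun j => H j (ω ∩ (Λ j : Set (Sym2 V)))) atTop
          (𝓝 (ENNReal.ofReal (((Kset ω x).ncard : ℝ) * 1 ^ (Kset ω x).ncard))) := by
        refine Tendsto.congr' (EventuallyEq.symm heq) ?_
        exact (ENNReal.continuous_ofReal.tendsto _).comp ((htlim.pow _).const_mul _)
      rw [hlim.liminf_eq, one_pow, mul_one, ENNReal.ofReal_natCast]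
    · rw [Set.Infinite.ncard hfin, Nat.cast_zero]
      exact bot_le
  calc ∫⁻ ω, ((Kset ω x).ncard : ℝ≥0∞) ∂(setBernoulli G.edgeSet p)
      ≤ ∫⁻ ω, liminf (fun j => H j (ω ∩ (Λ j : Set (Sym2 V)))) atTop
          ∂(setBernoulli G.edgeSet p) := lintegral_mono_ae hpt
    _ ≤ liminf (fun j => ∫⁻ ω, H j (ω ∩ (Λ j : Set (Sym2 V))) ∂(setBernoulli G.edgeSet p))
          atTop := lintegral_liminf_le fun j => measurable_inter (Λ j) (H j)
    _ ≤ ENNReal.ofReal B := by
        refine liminf_le_of_le (by isBoundedDefault) fun b hb => ?_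
        obtain ⟨j, hj⟩ := hb.exists
        exact hj.trans (hint j)

omit [DecidableEq V] in
/-- Lower bound for the truncated susceptibility (Markov). -/
theorem finSus_ge (G : SimpleGraph V) [Countable V] (p : unitInterval) (x : V) (n : ℕ)
    {a b : ℝ} (hb : 0 ≤ b) (ha : ENNReal.ofReal a ≤ clusterTail G p x n)
    (hθ : percProb G p x ≤ ENNReal.ofReal b) :
    ENNReal.ofReal (n * (a - b)) ≤ finSusceptibility G p x := by
  set μ := setBernoulli G.edgeSet p with hμ
  set A : Set (Set (Sym2 V)) := {ω | (Kset ω x).Finite} with hA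
  set T : Set (Set (Sym2 V)) := {ω | (n : ℕ∞) ≤ (Kset ω x).encard} with hT
  have hTm : MeasurableSet T := measurableSet_tail x n
  have hAm : MeasurableSet A := Kset_finite_measurable x
  have h1 : clusterTail G p x n ≤ μ (T ∩ A) + percProb G p x := by
    refine le_trans (measure_mono (show T ⊆ (T ∩ A) ∪ Aᶜ from fun ω hω => ?_))
      ((measure_union_le _ _).trans (add_le_add_right (le_of_eq ?_) _))
    · by_cases h : ω ∈ A
      · exact Or.inl ⟨hω, h⟩
      · exact Or.inr h
    · rfl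
  have h2 : ENNReal.ofReal (a - b) ≤ μ (T ∩ A) := by
    rw [ENNReal.ofReal_sub _ hb]
    refine tsub_le_iff_right.2 ?_
    exact ha.trans (h1.trans (add_le_add_right hθ _))
  have h3 : (n : ℝ≥0∞) * μ (T ∩ A) ≤ finSusceptibility G p x := by
    unfold finSusceptibility
    calc (n : ℝ≥0∞) * μ (T ∩ A) = ∫⁻ _ω in T ∩ A, (n : ℝ≥0∞) ∂μ := by
          rw [setLIntegral_const]
      _ ≤ ∫⁻ ω in T ∩ A, (((Kset ω x).encard : ℕ∞) : ℝ≥0∞) ∂μ := by
          refine setLIntegral_mono' (hTm.inter hAm) fun ω hω => ?_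
          have h4 : (n : ℕ∞) ≤ (Kset ω x).encard := hω.1
          rw [← ENat.toENNReal_coe, ENat.toENNReal_le]
          exact h4
      _ ≤ _ := lintegral_mono_set Set.inter_subset_right
  refine le_trans ?_ h3
  rw [ENNReal.ofReal_mul (Nat.cast_nonneg n), ENNReal.ofReal_natCast]
  exact mul_le_mul' le_rfl h2

end Vale.Agent.P165.H161.MF
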