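import Vale.Agent.P165.H199.Blocks

/-!
# Transport of the cluster quantities along a graph isomorphism
-/

set_option autoImplicit false

open Finset MeasureTheory ProbabilityTheory
open scoped ENNReal

namespace Vale.Agent.P165.H161.MF

open Vale.Agent.P165.LF Vale.Agent.P165.BS Vale.Agent.P165.BS2 Vale.Agent.P165.H794

universe u v

variable {V : Type u} {W : Type v} {G : SimpleGraph V} {H : SimpleGraph W}

theorem map_eq (φ : G ≃g H) (p : unitInterval) :
    (setBernoulli G.edgeSet p).map (setEquiv (sym2Equiv' φ.toEquiv)) =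
      setBernoulli H.edgeSet p :=
  setBernoulli_map_equiv G.edgeSet H.edgeSet p (sym2Equiv' φ.toEquiv) (fun e => by
    induction e using Sym2.ind with
    | _ x y =>
      change s(φ x, φ y) ∈ H.edgeSet ↔ s(x, y) ∈ G.edgeSet
      rw [SimpleGraph.mem_edgeSet, SimpleGraph.mem_edgeSet]
      exact φ.map_rel_iff)

theorem cluster_image (φ : G ≃g H) (ω : Set (Sym2 V)) (x : V) :
    {y | (SimpleGraph.fromEdgeSet ((setEquiv (sym2Equiv' φ.toEquiv)) ω)).Reachable (φ x) y} =
      φ '' {y | (SimpleGraph.fromEdgeSet ω).Reachable x y} := by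
  ext y
  constructor
  · intro hy
    refine ⟨φ.symm y, ?_, φ.apply_symm_apply y⟩
    have h1 : (SimpleGraph.fromEdgeSet ((sym2Equiv' φ.toEquiv) '' ω)).Reachable (φ x)
        (φ (φ.symm y)) := by
      rw [φ.apply_symm_apply]
      exact hy
    exact (openIso φ.toEquiv ω).reachable_iff.1 h1
  · rintro ⟨z, hz, rfl⟩
    exact (openIso φ.toEquiv ω).reachable_iff.2 hz

theorem clusterTail_iso (φ : G ≃g H) (p : unitInterval) (x : V) (n : ℕ) :
    clusterTail H p (φ x) n = clusterTail G p x n := by
  unfold clusterTail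
  rw [← map_eq φ p, MeasurableEquiv.map_apply]
  congr 1
  ext ω
  change (n : ℕ∞) ≤ {y | (SimpleGraph.fromEdgeSet
    ((setEquiv (sym2Equiv' φ.toEquiv)) ω)).Reachable (φ x) y}.encard ↔
    (n : ℕ∞) ≤ {y | (SimpleGraph.fromEdgeSet ω).Reachable x y}.encard
  rw [cluster_image φ ω x, φ.injective.encard_image]

theorem percProb_iso (φ : G ≃g H) (p : unitInterval) (x : V) :
    percProb H p (φ x) = percProb G p x := by
  unfold percProb
  rw [← map_eq φ p, MeasurableEquiv.map_apply]
  congr 1
  ext ω
  change {y | (SimpleGraph.fromEdgeSet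
    ((setEquiv (sym2Equiv' φ.toEquiv)) ω)).Reachable (φ x) y}.Infinite ↔
    {y | (SimpleGraph.fromEdgeSet ω).Reachable x y}.Infinite
  rw [cluster_image φ ω x, Set.infinite_image_iff φ.injective.injOn]

theorem finSusceptibility_iso (φ : G ≃g H) (p : unitInterval) (x : V) :
    finSusceptibility H p (φ x) = finSusceptibility G p x := by
  unfold finSusceptibility
  rw [← map_eq φ p, MeasurableEquiv.restrict_map, lintegral_map_equiv]
  have e : (setEquiv (sym2Equiv' φ.toEquiv)) ⁻¹'
      {ω | {y | (SimpleGraph.fromEdgeSet ω).Reachable (φ x) y}.Finite} =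
      {ω | {y | (SimpleGraph.fromEdgeSet ω).Reachable x y}.Finite} := by
    ext ω
    change {y | (SimpleGraph.fromEdgeSet
      ((setEquiv (sym2Equiv' φ.toEquiv)) ω)).Reachable (φ x) y}.Finite ↔
      {y | (SimpleGraph.fromEdgeSet ω).Reachable x y}.Finite
    rw [cluster_image φ ω x, Set.finite_image_iff φ.injective.injOn]
  rw [e]
  refine lintegral_congr fun ω => ?_
  rw [cluster_image φ ω x, φ.injective.encard_image]

end Vale.Agent.P165.H161.MF
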