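import Vale.Agent.P165.H161.MF2
import Vale.Agent.P165.H161.MFIso

/-!
# The mean-field lower bound for the percolation probability
-/

set_option autoImplicit false
set_option linter.unusedSectionVars false

open Finset MeasureTheory ProbabilityTheory Filter Topology
open scoped ENNReal

namespace Vale.Agent.P165.H161.MF

open Vale.Agent.P151 (Ex Cn cl csz edgesIn EV con tau)
open Vale.Agent.P165.LF Vale.Agent.P165.BS Vale.Agent.P165.BS2 Vale.Agent.P165.H199

variable {V : Type} [DecidableEq V] {G : SimpleGraph V}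

open Classical in
/-- Small functionals give a finite susceptibility. -/
theorem sub_of_small (G : SimpleGraph V) [G.LocallyFinite] {R : Finset V}
    (hR : ∀ x : V, ∃ y ∈ R, ∃ φ : G ≃g G, φ y = x) {q : ℝ} (h0 : 0 ≤ q) (h1 : q ≤ 1)
    (hS : ∀ y ∈ R, ∃ S : Finset V, y ∈ S ∧ shPhi G q y S ≤ 1 / 2) : Sub G q := by
  have hS' : ∀ y : V, ∃ S : Finset V, y ∈ S ∧ (y ∈ R → shPhi G q y S ≤ 1 / 2) := by
    intro y
    by_cases hy : y ∈ R
    · obtain ⟨S, h1, h2⟩ := hS y hy
      exact ⟨S, h1, fun _ => h2⟩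
    · exact ⟨{y}, Finset.mem_singleton_self y, fun h => absurd h hy⟩
  choose S hS1 hS2 using hS'
  have hK : ∀ x : V, ∃ T : Finset V, x ∈ T ∧
      T.card ≤ ∑ y ∈ R, ((S y).card + ∑ a ∈ S y, (G.neighborFinset a \ S y).card) ∧
      ∑ a ∈ T, ((G.neighborFinset a \ T).card : ℝ) ≤
        (∑ y ∈ R, ((S y).card + ∑ a ∈ S y, (G.neighborFinset a \ S y).card) : ℕ) ∧
      ∑ a ∈ T, Ex q (edgesIn G T) (con x a) * ((G.neighborFinset a \ T).card : ℝ) ≤ 1 / 2 := by
    intro x
    obtain ⟨y, hy, g, rfl⟩ := hR x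
    have hle : (S y).card + ∑ a ∈ S y, (G.neighborFinset a \ S y).card ≤
        ∑ y ∈ R, ((S y).card + ∑ a ∈ S y, (G.neighborFinset a \ S y).card) :=
      Finset.single_le_sum (f := fun y => (S y).card + ∑ a ∈ S y, (G.neighborFinset a \ S y).card)
        (fun _ _ => Nat.zero_le _) hy
    refine ⟨(S y).image g, Finset.mem_image_of_mem _ (hS1 y), ?_, ?_, ?_⟩
    · rw [Finset.card_image_of_injective _ g.injective]
      omega
    · rw [Finset.sum_image fun a _ b _ h => g.injective h]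
      simp only [sh_nbr]
      have : ∑ a ∈ S y, (G.neighborFinset a \ S y).card ≤
          ∑ y ∈ R, ((S y).card + ∑ a ∈ S y, (G.neighborFinset a \ S y).card) := by omega
      exact_mod_cast this
    · have h := (sh_phi_aut G g q y (S y)).le.trans (hS2 y hy)
      exact h
  obtain ⟨lam, C, hl, hC, h⟩ := exp_moment G h0 h1 hK
  exact sub_of_exp_moment G h0 h1 hl h

/-- Above `p_c` one of the orbit representatives has large functionals. -/
theorem exists_large (G : SimpleGraph V) [G.LocallyFinite] [Infinite V] (hG : G.Connected)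
    {R : Finset V} (hR : ∀ x : V, ∃ y ∈ R, ∃ φ : G ≃g G, φ y = x) {q : ℝ} (h0 : 0 ≤ q)
    (h1 : q ≤ 1) (hq : pc G < q) :
    ∃ y ∈ R, ∀ S : Finset V, y ∈ S → 1 / 2 < shPhi G q y S := by
  by_contra hcon
  push Not at hcon
  exact absurd (H794.le_pc_of_sub hG h1 (sub_of_small G hR h0 h1 hcon)) (not_le.2 hq)

/-- The integrated differential inequality. -/
theorem percProb_ge_of_large (G : SimpleGraph V) [G.LocallyFinite] (hG : G.Connected) {q : ℝ}
    (h0 : 0 ≤ q) (p : unitInterval) (hqp : q ≤ p) {x : V}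
    (hlarge : ∀ S : Finset V, x ∈ S → 1 / 2 < shPhi G q x S) :
    ENNReal.ofReal (1 - Real.exp (-(1 / 2 * ((p : ℝ) - q)))) ≤ percProb G p x := by
  have h2 : 1 - Real.exp (-(1 / 2 * ((p : ℝ) - q))) ≤
      (setBernoulli G.edgeSet p).real (InfC x) := by
    refine prob_infC_ge G hG p x _ fun L hL => ?_
    have h := FV.crossing_ge (G := G) h0 hqp p.2.2 hL (c := 1 / 2) (fun r hr0 hr1 S hS => by
      rw [← sh_phi_eq]
      exact (hlarge S hS).le.trans (sh_phi_mono G h0 hr0 (hr1.trans p.2.2) x S))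
    classical
    rw [fv_touch_eq, FV.Ex_ind_eq_sum_filter] at h
    convert h using 3
    exact Iff.rfl
  have h3 : percProb G p x ≠ ⊤ := measure_ne_top _ _
  rw [ENNReal.ofReal_le_iff_le_toReal h3]
  exact h2

/-- Comparison of the tails at two vertices (Harris inequality). -/
theorem tail_comp (hG : G.Connected) {p : ℝ} (h0 : 0 ≤ p) (h1 : p ≤ 1) (x z : V) (n : ℕ) :
    p ^ G.dist x z * EV G p (fun S => ind (n ≤ csz S z)) ≤
      EV G p (fun S => ind (n ≤ csz S x)) := by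
  obtain ⟨F0, hF0⟩ := exists_finset_pow_dist_le hG x z
  have hc : 0 ≤ p ^ G.dist x z := pow_nonneg h0 _
  have e : p ^ G.dist x z * EV G p (fun S => ind (n ≤ csz S z)) =
      ⨆ F : Finset V, p ^ G.dist x z * Ex p (edgesIn G F) (fun S => ind (n ≤ csz S z)) :=
    Real.mul_iSup_of_nonneg hc _
  rw [e]
  refine ciSup_le fun F => ?_
  have a1 := hF0 (F ∪ F0) Finset.subset_union_right p h0 h1
  have a2 : Ex p (edgesIn G F) (fun S => ind (n ≤ csz S z)) ≤
      Ex p (edgesIn G (F ∪ F0)) (fun S => ind (n ≤ csz S z)) :=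
    Vale.Agent.P151.Ex_edgesIn_mono h0 h1 (tail_mono z n) Finset.subset_union_left
  have a3 : 0 ≤ Ex p (edgesIn G F) (fun S => ind (n ≤ csz S z)) :=
    Vale.Agent.P151.Ex_nonneg h0 h1 fun S _ => ind_nonneg _
  have a4 : 0 ≤ Ex p (edgesIn G (F ∪ F0)) (con x z) :=
    Vale.Agent.P151.Ex_nonneg h0 h1 fun S _ => Vale.Agent.P151.con_nonneg x z S
  calc p ^ G.dist x z * Ex p (edgesIn G F) (fun S => ind (n ≤ csz S z))
      ≤ Ex p (edgesIn G (F ∪ F0)) (con x z) *
        Ex p (edgesIn G (F ∪ F0)) (fun S => ind (n ≤ csz S z)) := mul_le_mul a1 a2 a3 a4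
    _ ≤ Ex p (edgesIn G (F ∪ F0)) (fun S => con x z S * ind (n ≤ csz S z)) :=
        Vale.Agent.P151.harris h0 h1 _ (Vale.Agent.P151.con_mono x z) (tail_mono z n)
    _ ≤ Ex p (edgesIn G (F ∪ F0)) (fun S => ind (n ≤ csz S x)) := by
        refine Vale.Agent.P151.Ex_mono h0 h1 fun S _ => ?_
        show con x z S * ind (n ≤ csz S z) ≤ ind (n ≤ csz S x)
        unfold con
        split_ifs with h
        · rw [one_mul, Vale.Agent.P151.csz_eq h]
        · rw [zero_mul]
          exact ind_nonneg _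
    _ ≤ EV G p (fun S => ind (n ≤ csz S x)) :=
        Vale.Agent.P151.le_EV h0 h1 (tail_le_one x n) _

theorem percProb_comp [G.LocallyFinite] (hG : G.Connected) (p : unitInterval) (x z : V) :
    ENNReal.ofReal ((p : ℝ) ^ G.dist x z) * percProb G p z ≤ percProb G p x := by
  have : Countable V := countable_of_connected G hG
  refine le_percProb G p x fun n => ?_
  refine (mul_le_mul' le_rfl (percProb_le_tail G p z n)).trans ?_
  rw [clusterTail_eq G hG, clusterTail_eq G hG, ← ENNReal.ofReal_mul (pow_nonneg p.2.1 _)]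
  exact ENNReal.ofReal_le_ofReal (tail_comp hG p.2.1 p.2.2 x z n)

/-- `1 - e^{-u} ≥ u / 2` on `[0, 1]` -/
theorem one_sub_exp_ge {u : ℝ} (h0 : 0 ≤ u) (h1 : u ≤ 1) : u / 2 ≤ 1 - Real.exp (-u) := by
  have h2 : (1 + u) * Real.exp (-u) ≤ 1 := by
    have h3 := Real.add_one_le_exp u
    have h4 : Real.exp u * Real.exp (-u) = 1 := by rw [← Real.exp_add]; simp
    calc (1 + u) * Real.exp (-u) ≤ Real.exp u * Real.exp (-u) :=
          mul_le_mul_of_nonneg_right (by linarith) (Real.exp_nonneg _)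
      _ = 1 := h4
  have h5 : Real.exp (-u) ≤ 1 / (1 + u) := by
    rw [le_div_iff₀ (by linarith)]
    linarith
  have h6 : 1 / (1 + u) ≤ 1 - u / 2 := by
    rw [div_le_iff₀ (by linarith)]
    nlinarith
  linarith

/-- **(T2)** The mean-field lower bound. -/
theorem percProb_ge (G : SimpleGraph V) [G.LocallyFinite] [Infinite V] (hG : G.Connected)
    (hqt : IsQuasiTransitive G) (hpc0 : 0 < pc G) :
    ∃ c : ℝ, 0 < c ∧ ∀ p : unitInterval, pc G ≤ p → ∀ x,
      ENNReal.ofReal (c * (p - pc G)) ≤ percProb G p x := by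
  obtain ⟨R, hR⟩ := hqt
  set D0 : ℕ := (R ×ˢ R).sup fun z => G.dist z.1 z.2 with hD0
  by_cases hpc1 : pc G ≤ 1
  swap
  · refine ⟨1, one_pos, fun p hp x => ?_⟩
    have := p.2.2
    linarith
  refine ⟨pc G ^ D0 * (1 / 8), by positivity, fun p hp x => ?_⟩
  rcases hp.eq_or_lt with he | hlt
  · rw [← he, sub_self, mul_zero, ENNReal.ofReal_zero]
    exact bot_le
  have hp1 := p.2.2
  set q : ℝ := (p + pc G) / 2 with hq
  have hq0 : 0 ≤ q := by rw [hq]; linarith [p.2.1]
  have hqc : pc G < q := by rw [hq]; linarith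
  have hqp : q ≤ p := by rw [hq]; linarith
  obtain ⟨z, hz, hlarge⟩ := exists_large G hG hR hq0 (hqp.trans hp1) hqc
  obtain ⟨y, hy, φ, rfl⟩ := hR x
  rw [percProb_iso φ p y]
  refine le_trans ?_ (percProb_comp hG p y z)
  refine le_trans ?_ (mul_le_mul' le_rfl (percProb_ge_of_large G hG hq0 p hqp hlarge))
  rw [← ENNReal.ofReal_mul (pow_nonneg p.2.1 _)]
  refine ENNReal.ofReal_le_ofReal ?_
  have h1 : pc G ^ D0 ≤ (p : ℝ) ^ G.dist y z := by
    have hd : G.dist y z ≤ D0 := by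
      have hm : (y, z) ∈ R ×ˢ R := Finset.mem_product.2 ⟨hy, hz⟩
      exact Finset.le_sup (f := fun z : V × V => G.dist z.1 z.2) hm
    exact (pow_le_pow_of_le_one hpc0.le hpc1 hd).trans (pow_le_pow_left₀ hpc0.le hp _)
  have h2 : 1 / 8 * ((p : ℝ) - pc G) ≤ 1 - Real.exp (-(1 / 2 * ((p : ℝ) - q))) := by
    have h3 : 1 / 2 * ((p : ℝ) - q) = ((p : ℝ) - pc G) / 4 := by rw [hq]; ring
    rw [h3]
    refine le_trans (le_of_eq ?_) (one_sub_exp_ge (by linarith) (by linarith))
    ring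
  calc pc G ^ D0 * (1 / 8) * ((p : ℝ) - pc G) = pc G ^ D0 * (1 / 8 * ((p : ℝ) - pc G)) := by ring
    _ ≤ (p : ℝ) ^ G.dist y z * (1 - Real.exp (-(1 / 2 * ((p : ℝ) - q)))) :=
        mul_le_mul h1 h2 (by nlinarith) (pow_nonneg p.2.1 _)

end Vale.Agent.P165.H161.MF
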