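import Vale.Agent.P165.H161.MF3

/-!
# Assembly of the mean-field exponents
-/

set_option autoImplicit false
set_option linter.unusedSectionVars false

open Finset MeasureTheory ProbabilityTheory Filter Topology
open scoped ENNReal

namespace Vale.Agent.P165.H161.MF

open Vale.Agent.P151 (Ex Cn cl csz edgesIn EV con tau)
open Vale.Agent.P165.LF Vale.Agent.P165.BS Vale.Agent.P165.BS2 Vale.Agent.P165.H199

/-- The conclusion of the main theorem. -/
def MFConclusion.{u} {V : Type u} (G : SimpleGraph V) : Prop :=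
  (∃ c C : ℝ, 0 < c ∧ 0 < C ∧ ∀ p : unitInterval, (p : ℝ) = pc G → ∀ (x : V) (n : ℕ), 1 ≤ n →
    ENNReal.ofReal (c / √(n : ℝ)) ≤ clusterTail G p x n ∧
    clusterTail G p x n ≤ ENNReal.ofReal (C / √(n : ℝ))) ∧
  (∃ c C : ℝ, 0 < c ∧ 0 < C ∧ ∀ p : unitInterval, pc G ≤ p → ∀ x,
    ENNReal.ofReal (c * (p - pc G)) ≤ percProb G p x ∧
    percProb G p x ≤ ENNReal.ofReal (C * (p - pc G))) ∧
  (∃ c C : ℝ, 0 < c ∧ 0 < C ∧ ∀ p : unitInterval, (p : ℝ) < pc G → ∀ x,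
    ENNReal.ofReal (c / (pc G - p)) ≤ susceptibility G p x ∧
    susceptibility G p x ≤ ENNReal.ofReal (C / (pc G - p))) ∧
  ∃ p₁ c C : ℝ, pc G < p₁ ∧ 0 < c ∧ 0 < C ∧ ∀ p : unitInterval, pc G < p → (p : ℝ) ≤ p₁ → ∀ x,
    ENNReal.ofReal (c / (p - pc G)) ≤ finSusceptibility G p x ∧
    finSusceptibility G p x ≤ ENNReal.ofReal (C / (p - pc G))

section type0

variable {V : Type} [DecidableEq V] {G : SimpleGraph V}

theorem tails [G.LocallyFinite] (hG : G.Connected) (hTU : TailUp G) (hTL : TailLow G) :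
    ∃ c C : ℝ, 0 < c ∧ 0 < C ∧ ∀ p : unitInterval, (p : ℝ) = pc G → ∀ (x : V) (n : ℕ), 1 ≤ n →
      ENNReal.ofReal (c / √(n : ℝ)) ≤ clusterTail G p x n ∧
      clusterTail G p x n ≤ ENNReal.ofReal (C / √(n : ℝ)) := by
  obtain ⟨C, hC, hU⟩ := hTU
  obtain ⟨c, hc, hL⟩ := hTL
  refine ⟨c, C, hc, hC, fun p hp x n hn => ?_⟩
  rw [clusterTail_eq G hG, hp]
  exact ⟨ENNReal.ofReal_le_ofReal (hL n hn x),
    ENNReal.ofReal_le_ofReal (Vale.Agent.P151.EV_le fun F => hU n hn x F)⟩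

theorem percProb_le [G.LocallyFinite] (hG : G.Connected) (h : ThetaUp G) :
    ∃ C : ℝ, 0 < C ∧ ∀ p : unitInterval, pc G ≤ p → ∀ x,
      percProb G p x ≤ ENNReal.ofReal (C * (p - pc G)) := by
  obtain ⟨C, hC, hU⟩ := h
  refine ⟨C, hC, fun p hp x => ?_⟩
  have hs : 0 ≤ C * ((p : ℝ) - pc G) := mul_nonneg hC.le (by linarith)
  have hne : percProb G p x ≠ ⊤ := measure_ne_top _ _
  rw [ENNReal.le_ofReal_iff_toReal_le hne hs]
  refine le_of_forall_pos_le_add fun ε hε => ?_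
  obtain ⟨n, hn⟩ := hU p hp p.2.2 x ε hε
  rw [← ENNReal.le_ofReal_iff_toReal_le hne (by positivity)]
  refine (percProb_le_tail G p x n).trans ?_
  rw [clusterTail_eq G hG]
  exact ENNReal.ofReal_le_ofReal (Vale.Agent.P151.EV_le hn)

/-- The numerical part of the lower bound for the truncated susceptibility. -/
theorem num_lower {c₁ C₂ s : ℝ} (hc : 0 < c₁) (hC : 0 < C₂) (hs : 0 < s)
    (hs2 : s ≤ c₁ / (2 * C₂)) : ∃ n : ℕ, 1 ≤ n ∧
      c₁ ^ 2 / (8 * C₂) / s ≤ n * (c₁ / √(n : ℝ) - C₂ * s) := by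
  set u : ℝ := c₁ / (2 * C₂ * s) with hu
  have hu1 : 1 ≤ u := by
    rw [hu, le_div_iff₀ (by positivity), one_mul]
    rw [le_div_iff₀ (by positivity)] at hs2
    linarith
  have hu2 : 1 ≤ u ^ 2 := by nlinarith
  refine ⟨⌊u ^ 2⌋₊, (Nat.one_le_floor_iff _).2 hu2, ?_⟩
  set n : ℕ := ⌊u ^ 2⌋₊ with hn
  have hn1 : 1 ≤ n := (Nat.one_le_floor_iff _).2 hu2
  have hn1' : (1 : ℝ) ≤ n := by exact_mod_cast hn1
  have hnu : (n : ℝ) ≤ u ^ 2 := Nat.floor_le (by positivity)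
  have hnl : u ^ 2 < n + 1 := Nat.lt_floor_add_one _
  set r : ℝ := √(n : ℝ) with hr
  have hr0 : 0 < r := Real.sqrt_pos.2 (by linarith)
  have hr2 : r ^ 2 = n := Real.sq_sqrt (by linarith)
  have hru : r ≤ u := by
    have : r ^ 2 ≤ u ^ 2 := by rw [hr2]; exact hnu
    exact (sq_le_sq₀ hr0.le (by linarith)).1 this
  have hrl : u / 2 ≤ r := by
    have : (u / 2) ^ 2 ≤ r ^ 2 := by rw [hr2]; nlinarith
    exact (sq_le_sq₀ (by linarith) hr0.le).1 this
  have hb : C₂ * s = c₁ / (2 * u) := by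
    rw [hu]
    field_simp
  rw [← hr2]
  have e1 : r ^ 2 * (c₁ / r - C₂ * s) = c₁ * r - r ^ 2 * (C₂ * s) := by
    field_simp
  have e2 : r ^ 2 * (C₂ * s) ≤ c₁ * r / 2 := by
    rw [hb]
    have h3 : r ^ 2 * (c₁ / (2 * u)) = c₁ * r / 2 * (r / u) := by
      field_simp
    rw [h3]
    refine mul_le_of_le_one_right (by positivity) ?_
    rw [div_le_one (by linarith)]
    exact hru
  have e3 : c₁ ^ 2 / (8 * C₂) / s = c₁ * u / 4 := by
    rw [hu]
    field_simp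
    ring
  rw [e1, e3]
  nlinarith

theorem finSus_bounds [G.LocallyFinite] [Infinite V] (hG : G.Connected) (hpc0 : 0 < pc G)
    (hTL : TailLow G) (hΘ : ThetaUp G) (hF : FinUp G) :
    ∃ p₁ c C : ℝ, pc G < p₁ ∧ 0 < c ∧ 0 < C ∧ ∀ p : unitInterval, pc G < p → (p : ℝ) ≤ p₁ →
      ∀ x, ENNReal.ofReal (c / (p - pc G)) ≤ finSusceptibility G p x ∧
        finSusceptibility G p x ≤ ENNReal.ofReal (C / (p - pc G)) := by
  have : Countable V := countable_of_connected G hG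
  obtain ⟨c₁, hc₁, hL⟩ := hTL
  obtain ⟨C₂, hC₂, hU⟩ := percProb_le hG hΘ
  obtain ⟨p₁, C, hp₁, -, hC, hF⟩ := hF
  refine ⟨min p₁ (pc G + c₁ / (2 * C₂)), c₁ ^ 2 / (8 * C₂), C, lt_min hp₁ (by
    have : 0 < c₁ / (2 * C₂) := by positivity
    linarith), by positivity, hC, fun p hp hp1 x => ⟨?_, ?_⟩⟩
  · obtain ⟨n, hn, hnum⟩ := num_lower hc₁ hC₂ (s := (p : ℝ) - pc G) (by linarith)
      (by have := hp1.trans (min_le_right _ _); linarith)
    refine (ENNReal.ofReal_le_ofReal hnum).trans ?_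
    refine finSus_ge G p x n (mul_nonneg hC₂.le (by linarith)) ?_ (hU p hp.le x)
    rw [clusterTail_eq G hG]
    refine ENNReal.ofReal_le_ofReal ((hL n hn x).trans ?_)
    exact Vale.Agent.P151.EV_mono_p hpc0.le hp.le p.2.2 (tail_mono x n) (tail_le_one x n)
  · exact finSus_le G hG p x fun t ht0 ht1 =>
      hF p hp (hp1.trans (min_le_left _ _)) t ht0 ht1 x

/-- **Assembly**, `V : Type`. -/
theorem assemble [G.LocallyFinite] [Infinite V] (hG : G.Connected) (hqt : IsQuasiTransitive G)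
    (hna : 0 < vertexCheeger G) (hTU : TailUp G) (hTL : TailLow G) (hΘ : ThetaUp G)
    (hF : FinUp G) : MFConclusion G := by
  obtain ⟨⟨hpc0, -, -⟩, -, hsus⟩ := H794.main (G := G) hG hqt hna
  refine ⟨tails hG hTU hTL, ?_, hsus, finSus_bounds hG hpc0 hTL hΘ hF⟩
  obtain ⟨c, hc, h1⟩ := percProb_ge G hG hqt hpc0
  obtain ⟨C, hC, h2⟩ := percProb_le hG hΘ
  exact ⟨c, C, hc, hC, fun p hp x => ⟨h1 p hp x, h2 p hp x⟩⟩

end type0

section iso

universe u v

variable {V : Type u} {W : Type v} {G : SimpleGraph V} {H : SimpleGraph W}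

theorem MFConclusion_iso (φ : G ≃g H) (h : MFConclusion H) : MFConclusion G := by
  obtain ⟨⟨c1, C1, hc1, hC1, h1⟩, ⟨c2, C2, hc2, hC2, h2⟩, ⟨c3, C3, hc3, hC3, h3⟩,
    p₁, c4, C4, hp₁, hc4, hC4, h4⟩ := h
  rw [pc_iso φ] at h1 h2 h3 hp₁ h4
  refine ⟨⟨c1, C1, hc1, hC1, fun p hp x n hn => ?_⟩, ⟨c2, C2, hc2, hC2, fun p hp x => ?_⟩,
    ⟨c3, C3, hc3, hC3, fun p hp x => ?_⟩, p₁, c4, C4, hp₁, hc4, hC4, fun p hp hp' x => ?_⟩
  · have h := h1 p hp (φ x) n hn
    rwa [clusterTail_iso φ] at h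
  · have h := h2 p hp (φ x)
    rwa [percProb_iso φ] at h
  · have h := h3 p hp (φ x)
    rwa [H794.susceptibility_iso φ] at h
  · have h := h4 p hp hp' (φ x)
    rwa [finSusceptibility_iso φ] at h

/-- **Assembly** in every universe, from the four blocks for graphs on types in `Type`. -/
theorem assemble_universe
    (hmain : ∀ {V : Type} [DecidableEq V] {G : SimpleGraph V} [G.LocallyFinite] [Infinite V],
      G.Connected → IsQuasiTransitive G → 0 < vertexCheeger G →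
      TailUp G ∧ TailLow G ∧ ThetaUp G ∧ FinUp G)
    [Infinite V] (G : SimpleGraph V) [G.LocallyFinite] (hG : G.Connected)
    (hqt : IsQuasiTransitive G) (hna : 0 < vertexCheeger G) : MFConclusion G := by
  have hc : Countable V := countable_of_connected G hG
  obtain ⟨e⟩ : Nonempty (V ≃ ℕ) := by
    have := nonempty_denumerable V
    obtain ⟨d⟩ := this
    exact ⟨d.eqv⟩
  let φ : G ≃g G.map e := SimpleGraph.Iso.map e G
  have hlf : (G.map e).LocallyFinite := fun x =>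
    Fintype.ofEquiv _ ((φ.symm.mapNeighborSet x).symm)
  have hG' : (G.map e).Connected := φ.connected_iff.1 hG
  have hqt' : IsQuasiTransitive (G.map e) := isQuasiTransitive_iso φ hqt
  have hna' : 0 < vertexCheeger (G.map e) := by
    rw [vertexCheeger_iso φ]
    exact hna
  obtain ⟨h1, h2, h3, h4⟩ := hmain hG' hqt' hna'
  exact MFConclusion_iso φ (assemble hG' hqt' hna' h1 h2 h3 h4)

end iso

end Vale.Agent.P165.H161.MF
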