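import Vale.Agent.P165.H161.MF4
import Vale.Agent.P165.H199.BAMain
import Vale.Agent.P165.H115.MFTheta
import Vale.Agent.P165.H177.Low
import Vale.Agent.P165.H177.Up

/-!
# The mean-field exponents of nonamenable quasi-transitive graphs
-/

set_option autoImplicit false

namespace Vale.Agent.P165.H161.MF

open Vale.Agent.P165.H199

theorem blocks {V : Type} [DecidableEq V] {G : SimpleGraph V} [G.LocallyFinite] [Infinite V]
    (hG : G.Connected) (hqt : IsQuasiTransitive G) (hna : 0 < vertexCheeger G) :
    TailUp G ∧ TailLow G ∧ ThetaUp G ∧ FinUp G := by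
  have hb : BA1 G := ba1 hG hqt hna
  have hU : TailUp G := H177.tailUp hG hqt hna hb
  exact ⟨hU, H177.tailLow hG hqt hna hU, H177.thetaUp hG hqt hna hb,
    H177.finUp hG hqt hb (H115.thetaLow hG hqt)⟩

universe u

/-- **Mean-field exponents**, every universe. -/
theorem meanField {V : Type u} [Infinite V] (G : SimpleGraph V) [G.LocallyFinite]
    (hG : G.Connected) (hqt : IsQuasiTransitive G) (hna : 0 < vertexCheeger G) :
    MFConclusion G :=
  assemble_universe (fun h1 h2 h3 => blocks h1 h2 h3) G hG hqt hna

end Vale.Agent.P165.H161.MF
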