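import Vale.Agent.P165.H161.MF2
import Vale.Agent.P165.H199.Arm

/-!
# Transfer of moments and of the one-arm probabilities
-/

set_option autoImplicit false
set_option linter.unusedSectionVars false

open Finset MeasureTheory ProbabilityTheory Filter Topology
open scoped ENNReal

namespace Vale.Agent.P165.H161.MF

open Vale.Agent.P151 (Ex Cn cl csz edgesIn EV con tau)
open Vale.Agent.P165.LF Vale.Agent.P165.BS Vale.Agent.P165.BS2 Vale.Agent.P165.H199

variable {V : Type} [DecidableEq V] {G : SimpleGraph V}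

/-- a finite-volume probability as a measure -/
theorem Ex_ind_eq (G : SimpleGraph V) [Countable V] (p : unitInterval) (Λ : Finset (Sym2 V))
    (hΛ : (Λ : Set (Sym2 V)) ⊆ G.edgeSet) (P : Set (Sym2 V) → Prop)
    (Q : Finset (Sym2 V) → Prop) (hPQ : ∀ S : Finset (Sym2 V), P (S : Set (Sym2 V)) ↔ Q S) :
    ENNReal.ofReal (Ex (p : ℝ) Λ (fun S => ind (Q S))) =
      setBernoulli G.edgeSet p {ω | P (ω ∩ (Λ : Set (Sym2 V)))} := by
  classical
  have : Countable (Sym2 V) := by
    unfold Sym2; infer_instance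
  have h4 := setBer_inter_pred G.edgeSet p Λ hΛ P
  have h5 : Ex (p : ℝ) Λ (fun S => ind (Q S)) =
      (setBernoulli G.edgeSet p).real {ω | P (ω ∩ (Λ : Set (Sym2 V)))} := by
    refine Eq.trans ?_ h4.symm
    unfold Ex
    rw [Finset.sum_filter]
    apply Finset.sum_congr rfl
    intro S _
    simp only
    by_cases h : Q S
    · rw [ind_true h, if_pos ((hPQ S).2 h), mul_one]
    · rw [ind_false h, if_neg fun h' => h ((hPQ S).1 h'), mul_zero]
  rw [h5, measureReal_def, ENNReal.ofReal_toReal (measure_ne_top _ _)]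

theorem edgesIn_sub (G : SimpleGraph V) (F : Finset V) :
    (edgesIn G F : Set (Sym2 V)) ⊆ G.edgeSet :=
  fun _ he => (Vale.Agent.P151.mem_edgesIn.1 (Finset.mem_coe.1 he)).1

/-! ### The extrinsic one-arm event -/

/-- lower bound for `armProb` -/
theorem le_armProb (G : SimpleGraph V) [Countable V] (p : unitInterval) (x : V) (n : ℕ) {c : ℝ}
    (h : c ≤ EV G (p : ℝ) (fun S => ind (∃ y, Cn S x y ∧ n ≤ G.dist x y))) :
    ENNReal.ofReal c ≤ armProb G p x n := by
  have h2 : armProb G p x n ≠ ⊤ := measure_ne_top _ _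
  rw [ENNReal.ofReal_le_iff_le_toReal h2]
  refine h.trans (Vale.Agent.P151.EV_le fun F => ?_)
  rw [← ENNReal.ofReal_le_iff_le_toReal h2, Ex_ind_eq G p (edgesIn G F) (edgesIn_sub G F)
    (fun s => ∃ y, (SimpleGraph.fromEdgeSet s).Reachable x y ∧ n ≤ G.dist x y)
    (fun S => ∃ y, Cn S x y ∧ n ≤ G.dist x y) (fun S => Iff.rfl)]
  refine measure_mono ?_
  rintro ω ⟨y, hy, hn⟩
  exact ⟨y, Kset_mono Set.inter_subset_left x hy, hn⟩

omit [DecidableEq V] in
theorem armProb_le_radiusTail (G : SimpleGraph V) [Countable V] (p : unitInterval) (x : V)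
    (n : ℕ) : armProb G p x n ≤ radiusTail G p x n := by
  have : Countable (Sym2 V) := by
    unfold Sym2; infer_instance
  refine measure_mono_ae ?_
  filter_upwards [setBernoulli_ae_subset (u := G.edgeSet) (p := p)] with ω hω hmem
  obtain ⟨y, hy, hn⟩ := hmem
  refine ⟨y, hy, hn.trans ?_⟩
  refine SimpleGraph.Reachable.dist_anti ?_ hy
  intro a b hab
  rw [SimpleGraph.fromEdgeSet_adj] at hab
  exact hω hab.1

/-! ### The intrinsic radius -/

omit [DecidableEq V] in
theorem mem_ballF_of_walk (G : SimpleGraph V) [G.LocallyFinite] (x : V) {a b : V}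
    (w : G.Walk a b) : ∀ k : ℕ, a ∈ Vale.Agent.P165.ballF G x k →
      b ∈ Vale.Agent.P165.ballF G x (k + w.length) := by
  induction w with
  | nil => intro k h; simpa using h
  | cons h w ih =>
    intro k ha
    have h1 := ih (k + 1) ((Vale.Agent.P165.mem_ballF_succ G x k _).2 (Or.inr ⟨_, ha, h⟩))
    rw [SimpleGraph.Walk.length_cons]
    have e : k + 1 + w.length = k + (w.length + 1) := by ring
    rwa [e] at h1

omit [DecidableEq V] in
theorem fes_le {G : SimpleGraph V} {ω : Set (Sym2 V)} (hω : ω ⊆ G.edgeSet) :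
    SimpleGraph.fromEdgeSet ω ≤ G := by
  intro a b hab
  rw [SimpleGraph.fromEdgeSet_adj] at hab
  exact hω hab.1

/-- A short walk lives in the ball. -/
theorem walk_ball (G : SimpleGraph V) [G.LocallyFinite] {ω : Set (Sym2 V)}
    (hω : ω ⊆ G.edgeSet) {x y : V} (w : (SimpleGraph.fromEdgeSet ω).Walk x y) {m : ℕ}
    (hm : w.length ≤ m) :
    ∃ w' : (SimpleGraph.fromEdgeSet (ω ∩
      (edgesIn G (Vale.Agent.P165.ballF G x m) : Set (Sym2 V)))).Walk x y,
      w'.length = w.length := by
  classical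
  refine ⟨w.transfer _ ?_, SimpleGraph.Walk.length_transfer _ _⟩
  intro e he
  have he1 := w.edges_subset_edgeSet he
  rw [SimpleGraph.edgeSet_fromEdgeSet] at he1 ⊢
  refine ⟨⟨he1.1, ?_⟩, he1.2⟩
  rw [Finset.mem_coe, Vale.Agent.P151.mem_edgesIn]
  refine ⟨hω he1.1, ?_⟩
  intro v hv
  have hvs : v ∈ w.support := by
    induction e using Sym2.ind with
    | _ a b =>
      rcases Sym2.mem_iff.1 hv with rfl | rfl
      · exact w.fst_mem_support_of_mem_edges he
      · exact w.snd_mem_support_of_mem_edges he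
  have h1 := mem_ballF_of_walk G x ((w.takeUntil v hvs).mapLe (fes_le hω)) 0
    (Vale.Agent.P165.mem_ballF_self G x 0)
  rw [SimpleGraph.Walk.length_mapLe, zero_add] at h1
  exact Vale.Agent.P165.ballF_mono G x ((w.length_takeUntil_le_length hvs).trans hm) h1

/-- The event that the intrinsic radius of the cluster of `x` is at least `n`. -/
def RadS {V : Type} (s : Set (Sym2 V)) (x : V) (n : ℕ) : Prop :=
  ∃ y, (SimpleGraph.fromEdgeSet s).Reachable x y ∧ n ≤ (SimpleGraph.fromEdgeSet s).dist x y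

theorem radS_coe (S : Finset (Sym2 V)) (x : V) (n : ℕ) :
    RadS (S : Set (Sym2 V)) x n ↔ Rad S x n := by
  constructor
  · rintro ⟨y, hy, hn⟩
    exact ⟨y, hy, fun w => hn.trans (SimpleGraph.dist_le w)⟩
  · rintro ⟨y, hy, hn⟩
    obtain ⟨w, hw⟩ := SimpleGraph.Reachable.exists_walk_length_eq_dist hy
    exact ⟨y, hy, (hn w).trans (le_of_eq hw)⟩

omit [DecidableEq V] in
/-- a point at distance exactly `n` -/
theorem radS_exact {s : Set (Sym2 V)} {x : V} {n : ℕ} (h : RadS s x n) :
    ∃ y, ∃ w : (SimpleGraph.fromEdgeSet s).Walk x y, w.length = n ∧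
      n ≤ (SimpleGraph.fromEdgeSet s).dist x y := by
  obtain ⟨y, hy, hn⟩ := h
  obtain ⟨w, hw⟩ := hy.exists_walk_length_eq_dist
  have hl : (w.take n).length = n := by
    rw [SimpleGraph.Walk.take_length]
    exact min_eq_left (hw ▸ hn)
  refine ⟨w.getVert n, w.take n, hl, ?_⟩
  by_contra hlt
  push Not at hlt
  obtain ⟨w', hw'⟩ := SimpleGraph.Reachable.exists_walk_length_eq_dist ⟨w.take n⟩
  have h1 := SimpleGraph.dist_le (w'.append (w.drop n))
  rw [SimpleGraph.Walk.length_append, SimpleGraph.Walk.drop_length, hw', hw] at h1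
  omega

theorem radS_inter (G : SimpleGraph V) [G.LocallyFinite] {ω : Set (Sym2 V)}
    (hω : ω ⊆ G.edgeSet) (x : V) (n : ℕ) :
    RadS ω x n ↔
      RadS (ω ∩ (edgesIn G (Vale.Agent.P165.ballF G x n) : Set (Sym2 V))) x n := by
  have hsub : SimpleGraph.fromEdgeSet
      (ω ∩ (edgesIn G (Vale.Agent.P165.ballF G x n) : Set (Sym2 V))) ≤
      SimpleGraph.fromEdgeSet ω := SimpleGraph.fromEdgeSet_mono Set.inter_subset_left
  constructor
  · intro h
    obtain ⟨y, w, hw, hn⟩ := radS_exact h
    obtain ⟨w', hw'⟩ := walk_ball G hω w (m := n) hw.le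
    exact ⟨y, ⟨w'⟩, hn.trans (SimpleGraph.Reachable.dist_anti hsub ⟨w'⟩)⟩
  · intro h
    obtain ⟨y, w, hw, hn⟩ := radS_exact h
    refine ⟨y, ⟨w.mapLe hsub⟩, ?_⟩
    by_contra hlt
    push Not at hlt
    obtain ⟨v, hv⟩ := SimpleGraph.Reachable.exists_walk_length_eq_dist
      (⟨w.mapLe hsub⟩ : (SimpleGraph.fromEdgeSet ω).Reachable x y)
    obtain ⟨v', hv'⟩ := walk_ball G hω v (m := n) (by omega)
    have := SimpleGraph.dist_le v'
    omega

/-- `radiusTail` is a finite-volume probability. -/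
theorem radiusTail_eq (G : SimpleGraph V) [G.LocallyFinite] (hG : G.Connected)
    (p : unitInterval) (x : V) (n : ℕ) :
    radiusTail G p x n = ENNReal.ofReal
      (Ex (p : ℝ) (edgesIn G (Vale.Agent.P165.ballF G x n)) (fun S => ind (Rad S x n))) := by
  have : Countable V := countable_of_connected G hG
  have : Countable (Sym2 V) := by
    unfold Sym2; infer_instance
  rw [Ex_ind_eq G p _ (edgesIn_sub G _) (fun s => RadS s x n) _ (fun S => radS_coe S x n)]
  refine measure_congr ?_
  filter_upwards [setBernoulli_ae_subset (u := G.edgeSet) (p := p)] with ω hω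
  exact propext (radS_inter G hω x n)

/-! ### Moments -/

/-- lower bound for the moments -/
theorem le_clusterMoment (G : SimpleGraph V) [Countable V] (p : unitInterval) (x : V) (k : ℕ)
    (F : Finset V) :
    ENNReal.ofReal (Ex (p : ℝ) (edgesIn G F) (fun S => (csz S x : ℝ) ^ k)) ≤
      clusterMoment G p x k := by
  have : Countable (Sym2 V) := by
    unfold Sym2; infer_instance
  rw [← lintegral_inter G.edgeSet p (edgesIn G F) (edgesIn_sub G F)
    (fun s => (((Kset s x).encard : ℕ∞) : ℝ≥0∞) ^ k) (fun S => (csz S x : ℝ) ^ k)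
    (fun S => by positivity) (fun S _ => by
      rw [encard_coe, ENat.toENNReal_coe, ENNReal.ofReal_pow (Nat.cast_nonneg _),
        ENNReal.ofReal_natCast])]
  refine lintegral_mono fun ω => ?_
  refine pow_le_pow_left' ?_ k
  rw [ENat.toENNReal_le]
  exact Set.encard_le_encard (Kset_mono Set.inter_subset_left x)

/-- upper bound for the moments -/
theorem clusterMoment_le (G : SimpleGraph V) [G.LocallyFinite] (hG : G.Connected)
    (p : unitInterval) (x : V) (k : ℕ) {B : ℝ}
    (hB : ∀ F : Finset V, Ex (p : ℝ) (edgesIn G F) (fun S => (csz S x : ℝ) ^ k) ≤ B) :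
    clusterMoment G p x k ≤ ENNReal.ofReal B := by
  have : Countable V := countable_of_connected G hG
  have : Countable (Sym2 V) := by
    unfold Sym2; infer_instance
  set Λ : ℕ → Finset (Sym2 V) := fun j => edgesIn G (Vale.Agent.P165.ballF G x j) with hΛ
  set H : Set (Sym2 V) → ℝ≥0∞ := fun s => (((Kset s x).encard : ℕ∞) : ℝ≥0∞) ^ k with hH
  have hint : ∀ j, ∫⁻ ω, H (ω ∩ (Λ j : Set (Sym2 V))) ∂(setBernoulli G.edgeSet p) ≤
      ENNReal.ofReal B := by
    intro j
    rw [lintegral_inter G.edgeSet p (Λ j) (edgesIn_sub G _) H (fun S => (csz S x : ℝ) ^ k)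
      (fun S => by positivity) (fun S _ => by
        simp only [hH]
        rw [encard_coe, ENat.toENNReal_coe, ENNReal.ofReal_pow (Nat.cast_nonneg _),
          ENNReal.ofReal_natCast])]
    exact ENNReal.ofReal_le_ofReal (hB _)
  have hpt : ∀ᵐ ω ∂(setBernoulli G.edgeSet p), (((Kset ω x).encard : ℕ∞) : ℝ≥0∞) ^ k ≤
      liminf (fun j => H (ω ∩ (Λ j : Set (Sym2 V)))) atTop := by
    filter_upwards [setBernoulli_ae_subset (u := G.edgeSet) (p := p)] with ω hω
    set f : ℕ → ℝ≥0∞ := fun j => (((Kset (ω ∩ (Λ j : Set (Sym2 V))) x).encard : ℕ∞) : ℝ≥0∞)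
      with hf
    have hmono : Monotone f := by
      intro i j hij
      simp only [hf]
      rw [ENat.toENNReal_le]
      refine Set.encard_le_encard (Kset_mono (Set.inter_subset_inter_right _ ?_) x)
      exact_mod_cast Vale.Agent.P151.edgesIn_mono G (Vale.Agent.P165.ballF_mono G x hij)
    have hsup : (((Kset ω x).encard : ℕ∞) : ℝ≥0∞) ≤ ⨆ j, f j := by
      refine ENNReal.le_of_forall_nnreal_lt fun r hr => ?_
      obtain ⟨N, hN⟩ := exists_nat_ge (r : ℝ)
      set M : ℕ∞ := min (N : ℕ∞) (Kset ω x).encard with hM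
      have hMK : M ≤ (Kset ω x).encard := min_le_right _ _
      obtain ⟨T, hT, hTn⟩ := Set.exists_subset_encard_eq hMK
      have hTf : T.Finite := by
        rw [← Set.encard_lt_top_iff, hTn]
        exact lt_of_le_of_lt (min_le_left _ _) (ENat.coe_lt_top N)
      obtain ⟨m, hm⟩ := exists_ball_Kset G hG hω x hTf hT
      refine le_trans ?_ (le_iSup f m)
      have h1 : M ≤ (Kset (ω ∩ (Λ m : Set (Sym2 V))) x).encard := by
        rw [← hTn]
        exact Set.encard_le_encard (hm m le_rfl)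
      refine le_trans ?_ (ENat.toENNReal_le.2 h1)
      rw [hM]
      rcases le_total (N : ℕ∞) (Kset ω x).encard with h | h
      · rw [min_eq_left h, ENat.toENNReal_coe]
        have : r ≤ (N : NNReal) := by exact_mod_cast hN
        exact_mod_cast this
      · rw [min_eq_right h]
        exact hr.le
    have hlim : Tendsto (fun j => H (ω ∩ (Λ j : Set (Sym2 V)))) atTop (𝓝 ((⨆ j, f j) ^ k)) :=
      ENNReal.Tendsto.pow (tendsto_atTop_iSup hmono)
    rw [hlim.liminf_eq]
    exact pow_le_pow_left' hsup k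
  calc clusterMoment G p x k
      ≤ ∫⁻ ω, liminf (fun j => H (ω ∩ (Λ j : Set (Sym2 V)))) atTop
          ∂(setBernoulli G.edgeSet p) := lintegral_mono_ae hpt
    _ ≤ liminf (fun j => ∫⁻ ω, H (ω ∩ (Λ j : Set (Sym2 V))) ∂(setBernoulli G.edgeSet p))
          atTop := lintegral_liminf_le fun j => measurable_inter (Λ j) H
    _ ≤ ENNReal.ofReal B := by
        refine liminf_le_of_le (by isBoundedDefault) fun b hb => ?_
        obtain ⟨j, hj⟩ := hb.exists
        exact hj.trans (hint j)

end Vale.Agent.P165.H161.MF
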