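import Vale.Agent.P165.H161.MFIso
import Vale.Agent.P165.H199.Arm

/-!
# Transport of the moments and of the one-arm probabilities along a graph isomorphism
-/

set_option autoImplicit false

open Finset MeasureTheory ProbabilityTheory
open scoped ENNReal

namespace Vale.Agent.P165.H161.MF

open Vale.Agent.P165.LF Vale.Agent.P165.BS Vale.Agent.P165.BS2 Vale.Agent.P165.H794

universe u v

variable {V : Type u} {W : Type v} {G : SimpleGraph V} {H : SimpleGraph W}

theorem gdist_iso_le (φ : G ≃g H) {x y : V} (h : G.Reachable x y) :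
    H.dist (φ x) (φ y) ≤ G.dist x y := by
  obtain ⟨w, hw⟩ := h.exists_walk_length_eq_dist
  rw [← hw, ← SimpleGraph.Walk.length_map φ.toHom w]
  exact SimpleGraph.dist_le _

theorem gdist_iso (φ : G ≃g H) (x y : V) : H.dist (φ x) (φ y) = G.dist x y := by
  by_cases h : G.Reachable x y
  · refine le_antisymm (gdist_iso_le φ h) ?_
    have h1 := gdist_iso_le φ.symm (φ.reachable_iff.2 h)
    rwa [φ.symm_apply_apply, φ.symm_apply_apply] at h1
  · rw [SimpleGraph.dist_eq_zero_of_not_reachable h,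
      SimpleGraph.dist_eq_zero_of_not_reachable fun h' => h (φ.reachable_iff.1 h')]

theorem clusterMoment_iso (φ : G ≃g H) (p : unitInterval) (x : V) (k : ℕ) :
    clusterMoment H p (φ x) k = clusterMoment G p x k := by
  unfold clusterMoment
  rw [← map_eq φ p, lintegral_map_equiv]
  refine lintegral_congr fun ω => ?_
  rw [cluster_image φ ω x, φ.injective.encard_image]

theorem armProb_iso (φ : G ≃g H) (p : unitInterval) (x : V) (n : ℕ) :
    armProb H p (φ x) n = armProb G p x n := by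
  unfold armProb
  rw [← map_eq φ p, MeasurableEquiv.map_apply]
  congr 1
  ext ω
  change (∃ y, (SimpleGraph.fromEdgeSet ((sym2Equiv' φ.toEquiv) '' ω)).Reachable (φ x) y ∧
      n ≤ H.dist (φ x) y) ↔
    ∃ y, (SimpleGraph.fromEdgeSet ω).Reachable x y ∧ n ≤ G.dist x y
  constructor
  · rintro ⟨y, hy, hn⟩
    obtain ⟨z, rfl⟩ := φ.surjective y
    rw [gdist_iso φ] at hn
    exact ⟨z, (openIso φ.toEquiv ω).reachable_iff.1 hy, hn⟩
  · rintro ⟨z, hz, hn⟩
    refine ⟨φ z, (openIso φ.toEquiv ω).reachable_iff.2 hz, ?_⟩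
    rw [gdist_iso φ]
    exact hn

theorem radiusTail_iso (φ : G ≃g H) (p : unitInterval) (x : V) (n : ℕ) :
    radiusTail H p (φ x) n = radiusTail G p x n := by
  unfold radiusTail
  rw [← map_eq φ p, MeasurableEquiv.map_apply]
  congr 1
  ext ω
  change (∃ y, (SimpleGraph.fromEdgeSet ((sym2Equiv' φ.toEquiv) '' ω)).Reachable (φ x) y ∧
      n ≤ (SimpleGraph.fromEdgeSet ((sym2Equiv' φ.toEquiv) '' ω)).dist (φ x) y) ↔
    ∃ y, (SimpleGraph.fromEdgeSet ω).Reachable x y ∧ n ≤ (SimpleGraph.fromEdgeSet ω).dist x y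
  constructor
  · rintro ⟨y, hy, hn⟩
    obtain ⟨z, rfl⟩ := φ.surjective y
    have e := gdist_iso (openIso φ.toEquiv ω) x z
    refine ⟨z, (openIso φ.toEquiv ω).reachable_iff.1 hy, hn.trans (le_of_eq e)⟩
  · rintro ⟨z, hz, hn⟩
    have e := gdist_iso (openIso φ.toEquiv ω) x z
    exact ⟨φ z, (openIso φ.toEquiv ω).reachable_iff.2 hz, hn.trans (le_of_eq e.symm)⟩

end Vale.Agent.P165.H161.MF
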