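import Vale.Agent.P165.H161.MG1
import Vale.Agent.P165.H161.MG2
import Vale.Agent.P165.H161.MF5
import Vale.Agent.P165.H633.Split
import Vale.Agent.P165.H115.Moments
import Vale.Agent.P165.H326.MomLowMain
import Vale.Agent.P165.H177.Rad
import Vale.Agent.P165.H177.SubTailM
import Vale.Agent.P165.H199.ArmLow

/-!
# The exponents of all moments below the critical point and of the arm events
-/

set_option autoImplicit false
set_option linter.unusedSectionVars false

open Finset MeasureTheory ProbabilityTheory Filter Topology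
open scoped ENNReal

namespace Vale.Agent.P165.H161.MF

open Vale.Agent.P151 (Ex Cn cl csz edgesIn EV con tau)
open Vale.Agent.P165.LF Vale.Agent.P165.BS Vale.Agent.P165.BS2 Vale.Agent.P165.H199
open Vale.Agent.P165.H794

/-- The tail of the cluster size up to the critical point. -/
def TailConclusion.{u} {V : Type u} (G : SimpleGraph V) : Prop :=
  ∃ c C : ℝ, 0 < c ∧ 0 < C ∧ ∀ p : unitInterval, p ≤ pc G → ∀ (x : V) (n : ℕ), 1 ≤ n →
    clusterTail G p x n ≤ ENNReal.ofReal (C / √(n : ℝ) * Real.exp (-(c * (pc G - p) ^ 2 * n))) ∧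
    ((n : ℝ) * (pc G - p) ^ 2 ≤ c → ENNReal.ofReal (c / √(n : ℝ)) ≤ clusterTail G p x n)

/-- All moments below the critical point. -/
def MomConclusion.{u} {V : Type u} (G : SimpleGraph V) : Prop :=
  ∀ k : ℕ, 1 ≤ k → ∃ c C : ℝ, 0 < c ∧ 0 < C ∧ ∀ p : unitInterval, p < pc G → ∀ x,
    ENNReal.ofReal (c / (pc G - p) ^ (2 * k - 1)) ≤ clusterMoment G p x k ∧
    clusterMoment G p x k ≤ ENNReal.ofReal (C / (pc G - p) ^ (2 * k - 1))

/-- The arm probabilities at the critical point. -/
def ArmConclusion.{u} {V : Type u} (G : SimpleGraph V) : Prop :=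
  ∃ c C : ℝ, 0 < c ∧ 0 < C ∧ ∀ p : unitInterval, (p : ℝ) = pc G → ∀ (x : V) (n : ℕ), 1 ≤ n →
    ENNReal.ofReal (c / n) ≤ armProb G p x n ∧ armProb G p x n ≤ radiusTail G p x n ∧
    radiusTail G p x n ≤ ENNReal.ofReal (C / n)

section type0

variable {V : Type} [DecidableEq V] {G : SimpleGraph V}

theorem moments0 [G.LocallyFinite] [Infinite V] (hG : G.Connected) (hqt : IsQuasiTransitive G)
    (hna : 0 < vertexCheeger G) : MomConclusion G := by
  intro k hk
  obtain ⟨C1, hC1, hE2⟩ := H115.e2 G H633.e1 k hk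
  obtain ⟨c, hc, hE3⟩ := H326.e3 hG hqt hna k hk
  obtain ⟨C2, hC2, hchi⟩ := H177.chi_upper hG hqt hna
  have : Countable V := countable_of_connected G hG
  refine ⟨c, C1 * C2 ^ (2 * k - 1), hc, by positivity, fun p hp x => ⟨?_, ?_⟩⟩
  · obtain ⟨F, hF⟩ := hE3 p p.2.1 hp x
    exact (ENNReal.ofReal_le_ofReal hF).trans (le_clusterMoment G p x k F)
  · have hs : Sub G p := sub_of_lt_pc hG hqt p.2.1 hp p.2.2
    refine clusterMoment_le G hG p x k fun F => ?_
    have h := hE2 p (C2 / (pc G - p)) p.2.1 p.2.2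
      (fun z => (csz_le_chi hs z.1 z.2).trans (hchi p p.2.1 hp)) x F
    rwa [div_pow, ← mul_div_assoc] at h

theorem arms0 [G.LocallyFinite] [Infinite V] (hG : G.Connected) (hqt : IsQuasiTransitive G)
    (hna : 0 < vertexCheeger G) : ArmConclusion G := by
  have : Countable V := countable_of_connected G hG
  obtain ⟨hTU, hTL, -, -⟩ := blocks hG hqt hna
  obtain ⟨c, hc, hL⟩ := H199.armLow hG hqt hna hTL
  obtain ⟨C, hC, hU⟩ := H177.radUp hG hqt hna hTU
  refine ⟨c, C, hc, hC, fun p hp x n hn => ⟨?_, armProb_le_radiusTail G p x n, ?_⟩⟩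
  · refine le_armProb G p x n ?_
    rw [hp]
    exact hL n hn x
  · rw [radiusTail_eq G hG, hp]
    exact ENNReal.ofReal_le_ofReal (hU n hn x _ _ subset_rfl)

end type0

section iso

universe u v

variable {V : Type u} {W : Type v} {G : SimpleGraph V} {H : SimpleGraph W}

theorem MomConclusion_iso (φ : G ≃g H) (h : MomConclusion H) : MomConclusion G := by
  intro k hk
  obtain ⟨c, C, hc, hC, h⟩ := h k hk
  rw [pc_iso φ] at h
  refine ⟨c, C, hc, hC, fun p hp x => ?_⟩
  have h' := h p hp (φ x)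
  rwa [clusterMoment_iso φ] at h'

theorem ArmConclusion_iso (φ : G ≃g H) (h : ArmConclusion H) : ArmConclusion G := by
  obtain ⟨c, C, hc, hC, h⟩ := h
  rw [pc_iso φ] at h
  refine ⟨c, C, hc, hC, fun p hp x n hn => ?_⟩
  have h' := h p hp (φ x) n hn
  rwa [armProb_iso φ, radiusTail_iso φ] at h'

/-- Reduction to graphs on types in `Type`. -/
theorem universe_reduction {P : Prop}
    (Q : ∀ {W : Type}, SimpleGraph W → Prop)
    (hQ : ∀ {W : Type} [DecidableEq W] {H : SimpleGraph W} [H.LocallyFinite] [Infinite W],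
      H.Connected → IsQuasiTransitive H → 0 < vertexCheeger H → Q H)
    [Infinite V] (G : SimpleGraph V) [G.LocallyFinite] (hG : G.Connected)
    (hqt : IsQuasiTransitive G) (hna : 0 < vertexCheeger G)
    (hP : ∀ {W : Type} {H : SimpleGraph W}, (G ≃g H) → Q H → P) : P := by
  have hc : Countable V := countable_of_connected G hG
  obtain ⟨e⟩ : Nonempty (V ≃ ℕ) := by
    have := nonempty_denumerable V
    obtain ⟨d⟩ := this
    exact ⟨d.eqv⟩
  let φ : G ≃g G.map e := SimpleGraph.Iso.map e G
  have hlf : (G.map e).LocallyFinite := fun x =>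
    Fintype.ofEquiv _ ((φ.symm.mapNeighborSet x).symm)
  refine hP φ (hQ ?_ (isQuasiTransitive_iso φ hqt) ?_)
  · exact φ.connected_iff.1 hG
  · rw [vertexCheeger_iso φ]
    exact hna

theorem moments [Infinite V] (G : SimpleGraph V) [G.LocallyFinite] (hG : G.Connected)
    (hqt : IsQuasiTransitive G) (hna : 0 < vertexCheeger G) : MomConclusion G :=
  universe_reduction (fun H => MomConclusion H) (fun h1 h2 h3 => moments0 h1 h2 h3) G hG hqt hna
    (fun φ h => MomConclusion_iso φ h)

theorem arms [Infinite V] (G : SimpleGraph V) [G.LocallyFinite] (hG : G.Connected)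
    (hqt : IsQuasiTransitive G) (hna : 0 < vertexCheeger G) : ArmConclusion G :=
  universe_reduction (fun H => ArmConclusion H) (fun h1 h2 h3 => arms0 h1 h2 h3) G hG hqt hna
    (fun φ h => ArmConclusion_iso φ h)

theorem tailsFull [Infinite V] (G : SimpleGraph V) [G.LocallyFinite] (hG : G.Connected)
    (hqt : IsQuasiTransitive G) (hna : 0 < vertexCheeger G) : TailConclusion G := by
  obtain ⟨⟨c1, C1, hc1, hC1, h1⟩, -, -⟩ := meanField G hG hqt hna
  obtain ⟨c2, C2, hc2, hC2, h2⟩ := H177.subTail G hG hqt hna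
  refine ⟨min c1 c2, max C1 C2, lt_min hc1 hc2, lt_max_of_lt_left hC1, fun p hp x n hn => ?_⟩
  have hn0 : (0 : ℝ) < n := by exact_mod_cast hn
  have hsq : 0 < √(n : ℝ) := Real.sqrt_pos.2 hn0
  rcases hp.eq_or_lt with he | hlt
  · obtain ⟨h3, h4⟩ := h1 p he x n hn
    constructor
    · refine h4.trans (ENNReal.ofReal_le_ofReal ?_)
      rw [he, sub_self]
      have e : -(min c1 c2 * (0 : ℝ) ^ 2 * n) = 0 := by ring
      rw [e, Real.exp_zero, mul_one]
      exact div_le_div_of_nonneg_right (le_max_left _ _) hsq.le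
    · intro _
      refine le_trans (ENNReal.ofReal_le_ofReal ?_) h3
      exact div_le_div_of_nonneg_right (min_le_left _ _) hsq.le
  · obtain ⟨h3, h4⟩ := h2 p hlt x n hn
    constructor
    · refine h3.trans (ENNReal.ofReal_le_ofReal ?_)
      refine mul_le_mul (div_le_div_of_nonneg_right (le_max_right _ _) hsq.le)
        (Real.exp_le_exp.2 (neg_le_neg ?_)) (Real.exp_nonneg _) (by positivity)
      exact mul_le_mul_of_nonneg_right
        (mul_le_mul_of_nonneg_right (min_le_right _ _) (sq_nonneg _)) hn0.le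
    · intro h
      refine le_trans (ENNReal.ofReal_le_ofReal ?_) (h4 (h.trans (min_le_right _ _)))
      exact div_le_div_of_nonneg_right (min_le_right _ _) hsq.le

end iso

end Vale.Agent.P165.H161.MF
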