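import Vale.Agent.P165.H161.MG3
import Vale.Agent.P165.H199.Rad

/-!
# The arm probabilities below the critical point: lower bound
-/

set_option autoImplicit false
set_option linter.unusedSectionVars false

open Finset MeasureTheory ProbabilityTheory Filter Topology
open scoped ENNReal

namespace Vale.Agent.P165.H161.MF

open Vale.Agent.P151 (Ex Cn cl csz edgesIn EV con tau)
open Vale.Agent.P165.LF Vale.Agent.P165.BS Vale.Agent.P165.BS2 Vale.Agent.P165.H199
open Vale.Agent.P165.H794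

variable {V : Type} [DecidableEq V] {G : SimpleGraph V}

/-- An open path shorter than `m` survives the thinning. -/
theorem arm_thin_pt {s : ℝ} (h0 : 0 ≤ s) (h1 : s ≤ 1) (G : SimpleGraph V) (x : V) (n m : ℕ)
    (S : Finset (Sym2 V)) :
    s ^ m * (ind (∃ y, Cn S x y ∧ n ≤ G.dist x y) - ind (Rad S x m)) ≤
      Ex s S (fun T => ind (∃ y, Cn T x y ∧ n ≤ G.dist x y)) := by
  have hR : 0 ≤ Ex s S (fun T => ind (∃ y, Cn T x y ∧ n ≤ G.dist x y)) :=
    Vale.Agent.P151.Ex_nonneg h0 h1 fun T _ => ind_nonneg _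
  have hs : 0 ≤ s ^ m := pow_nonneg h0 _
  by_cases hA : ∃ y, Cn S x y ∧ n ≤ G.dist x y
  · by_cases hr : Rad S x m
    · rw [ind_true hA, ind_true hr, sub_self, mul_zero]
      exact hR
    · rw [ind_true hA, ind_false hr, _root_.sub_zero, mul_one]
      obtain ⟨y, hy, hn⟩ := hA
      have hyB : y ∈ Bn S x m := by
        by_contra hcon
        refine hr ⟨y, hy, fun w => ?_⟩
        by_contra hlt
        exact hcon ⟨w, by omega⟩
      refine (pow_le_Ex_con h0 h1 hyB).trans (Vale.Agent.P151.Ex_mono h0 h1 fun T _ => ?_)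
      rw [con_eq_ind]
      exact ind_mono fun h => ⟨y, h, hn⟩
  · rw [ind_false hA]
    refine le_trans ?_ hR
    exact mul_nonpos_of_nonneg_of_nonpos hs (by have := ind_nonneg (Rad S x m); linarith)

/-- **Lower bound** for the extrinsic arm probability at every `q ≤ p_c`. -/
theorem armSubLow (hpc0 : 0 < pc G) (hpc1 : pc G ≤ 1) (hArm : ArmLow G) (hRad : RadUp G) :
    ∃ c : ℝ, ∃ K : ℕ, 0 < c ∧ ∀ q : ℝ, 0 ≤ q → q ≤ pc G → ∀ n : ℕ, 1 ≤ n → ∀ x : V,
      c / n * (q / pc G) ^ (K * n) ≤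
        EV G q (fun S => ind (∃ y, Cn S x y ∧ n ≤ G.dist x y)) := by
  obtain ⟨c, hc, hL⟩ := hArm
  obtain ⟨C, hC, hU⟩ := hRad
  obtain ⟨K, hK⟩ := exists_nat_ge (max 1 (2 * C / c))
  have hK1 : (1 : ℝ) ≤ K := (le_max_left _ _).trans hK
  have hK2 : 2 * C / c ≤ K := (le_max_right _ _).trans hK
  have hK1' : 1 ≤ K := by exact_mod_cast hK1
  refine ⟨c / 2, K, by positivity, fun q hq0 hq n hn x => ?_⟩
  have hn0 : (0 : ℝ) < n := by exact_mod_cast hn
  have hK0 : (0 : ℝ) < K := by linarith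
  set s : ℝ := q / pc G with hs
  have hs0 : 0 ≤ s := div_nonneg hq0 hpc0.le
  have hs1 : s ≤ 1 := (div_le_one hpc0).2 hq
  have hqs : q = pc G * s := by rw [hs]; field_simp
  have hq1 : q ≤ 1 := hq.trans hpc1
  set f : Finset (Sym2 V) → ℝ := fun S => ind (∃ y, Cn S x y ∧ n ≤ G.dist x y) with hf
  have hsK : 0 ≤ s ^ (K * n) := pow_nonneg hs0 _
  have key : ∀ F : Finset V, s ^ (K * n) * (Ex (pc G) (edgesIn G F) f - C / (K * n)) ≤
      EV G q f := by
    intro F
    have h1 : Ex (pc G) (edgesIn G F) (fun S => s ^ (K * n) * (f S - ind (Rad S x (K * n)))) ≤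
        Ex q (edgesIn G F) f := by
      rw [hqs, ← Ex_thin (pc G) s (edgesIn G F) f]
      exact Vale.Agent.P151.Ex_mono hpc0.le hpc1 fun S _ => arm_thin_pt hs0 hs1 G x n (K * n) S
    have h2 : Ex (pc G) (edgesIn G F) (fun S => s ^ (K * n) * (f S - ind (Rad S x (K * n)))) =
        s ^ (K * n) * (Ex (pc G) (edgesIn G F) f -
          Ex (pc G) (edgesIn G F) (fun S => ind (Rad S x (K * n)))) := by
      rw [Vale.Agent.P151.Ex_const_mul, Vale.Agent.P151.Ex_sub]
    have h3 : Ex (pc G) (edgesIn G F) (fun S => ind (Rad S x (K * n))) ≤ C / (K * n) := by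
      have h := hU (K * n) (by nlinarith) x F _ subset_rfl
      rwa [Nat.cast_mul] at h
    have h4 : Ex q (edgesIn G F) f ≤ EV G q f :=
      Vale.Agent.P151.le_EV hq0 hq1 (fun S => ind_le_one _) F
    refine le_trans ?_ (h1.trans h4)
    rw [h2]
    exact mul_le_mul_of_nonneg_left (by linarith) hsK
  have hEV : s ^ (K * n) * (EV G (pc G) f - C / (K * n)) ≤ EV G q f := by
    have e : s ^ (K * n) * EV G (pc G) f = ⨆ F : Finset V, s ^ (K * n) *
        Ex (pc G) (edgesIn G F) f := Real.mul_iSup_of_nonneg hsK _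
    rw [mul_sub, e, sub_le_iff_le_add]
    refine ciSup_le fun F => ?_
    have := key F
    rw [mul_sub] at this
    linarith
  refine le_trans ?_ hEV
  have h5 := hL n hn x
  have h6 : C / (K * n) ≤ c / 2 / n := by
    rw [div_le_div_iff₀ (by positivity) hn0]
    rw [div_le_iff₀ hc] at hK2
    nlinarith
  have h7 : c / 2 / n ≤ EV G (pc G) f - C / (K * n) := by
    have e2 : c / n = c / 2 / n + c / 2 / n := by ring
    have h8 : c / n ≤ EV G (pc G) f := h5
    linarith
  rw [mul_comm]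
  exact mul_le_mul_of_nonneg_left h7 hsK

end Vale.Agent.P165.H161.MF
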