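import Vale.Agent.P165.H161.MH2
import Vale.Agent.P165.H199.Esc

/-!
# Transfer of the tail of the finite clusters
-/

set_option autoImplicit false
set_option linter.unusedSectionVars false

open Finset MeasureTheory ProbabilityTheory Filter Topology
open scoped ENNReal

namespace Vale.Agent.P165.H161.MF

open Vale.Agent.P151 (Ex Cn cl csz edgesIn EV con tau)
open Vale.Agent.P165.LF Vale.Agent.P165.BS Vale.Agent.P165.BS2 Vale.Agent.P165.H199

variable {V : Type} [DecidableEq V] {G : SimpleGraph V}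

/-- Upper bound for the tail of the finite clusters (Fatou). -/
theorem finTail_le (G : SimpleGraph V) [G.LocallyFinite] (hG : G.Connected) (p : unitInterval)
    (x : V) (n : ℕ) {B : ℝ} (hB : ∀ L : ℕ, ∀ t : ℝ, 0 < t → t < 1 → ∃ F0 : Finset V,
      ∀ F : Finset V, F0 ⊆ F →
      Ex (p : ℝ) (edgesIn G F) (fun S => ind (n ≤ csz S x ∧ csz S x ≤ L) * t ^ csz S x) ≤ B) :
    finTailProb G p x n ≤ ENNReal.ofReal B := by
  have : Countable V := countable_of_connected G hG
  have : Countable (Sym2 V) := by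
    unfold Sym2; infer_instance
  set t : ℕ → ℝ := fun j => 1 - 1 / ((j : ℝ) + 2) with ht
  have hj : ∀ j : ℕ, (0 : ℝ) < (j : ℝ) + 2 := fun j => by positivity
  have ht0 : ∀ j, 0 < t j := fun j => by
    have h1 : 1 / ((j : ℝ) + 2) < 1 := by
      rw [div_lt_one (hj j)]
      have : (0 : ℝ) ≤ j := Nat.cast_nonneg j
      linarith
    simp only [ht]
    linarith
  have ht1 : ∀ j, t j < 1 := fun j => by
    have h1 : 0 < 1 / ((j : ℝ) + 2) := by have := hj j; positivity
    simp only [ht]
    linarith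
  have htlim : Tendsto t atTop (𝓝 1) := by
    have h1 : Tendsto (fun j : ℕ => 1 / ((j : ℝ) + 2)) atTop (𝓝 0) := by
      have h2 : Tendsto (fun j : ℕ => (j : ℝ) + 2) atTop atTop :=
        tendsto_atTop_add_const_right _ _ tendsto_natCast_atTop_atTop
      simp only [one_div]
      exact h2.inv_tendsto_atTop
    have h3 := h1.const_sub 1
    rwa [sub_zero] at h3
  choose F0 hF0 using fun j : ℕ => hB j (t j) (ht0 j) (ht1 j)
  choose m hm using fun j => exists_ballF_superset G hG x (F0 j)
  set k : ℕ → ℕ := fun j => max j (m j) with hk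
  set Λ : ℕ → Finset (Sym2 V) := fun j => edgesIn G (Vale.Agent.P165.ballF G x (k j)) with hΛ
  set H : ℕ → Set (Sym2 V) → ℝ≥0∞ := fun j s =>
    ENNReal.ofReal (ind (n ≤ (Kset s x).ncard ∧ (Kset s x).ncard ≤ j) *
      t j ^ (Kset s x).ncard) with hH
  have hint : ∀ j, ∫⁻ ω, H j (ω ∩ (Λ j : Set (Sym2 V))) ∂(setBernoulli G.edgeSet p) ≤
      ENNReal.ofReal B := by
    intro j
    rw [lintegral_inter G.edgeSet p (Λ j)
      (fun e he => (Vale.Agent.P151.mem_edgesIn.1 (Finset.mem_coe.1 he)).1) (H j)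
      (fun S => ind (n ≤ csz S x ∧ csz S x ≤ j) * t j ^ csz S x)
      (fun S => mul_nonneg (ind_nonneg _) (pow_nonneg (ht0 j).le _))
      (fun S _ => by simp only [hH, ncard_coe])]
    refine ENNReal.ofReal_le_ofReal (hF0 j _ ?_)
    exact (hm j).trans (Vale.Agent.P165.ballF_mono G x (le_max_right _ _))
  have hpt : ∀ᵐ ω ∂(setBernoulli G.edgeSet p), (FT x n).indicator (1 : Set (Sym2 V) → ℝ≥0∞) ω ≤
      liminf (fun j => H j (ω ∩ (Λ j : Set (Sym2 V)))) atTop := by
    filter_upwards [setBernoulli_ae_subset (u := G.edgeSet) (p := p)] with ω hω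
    by_cases hmem : ω ∈ FT x n
    · rw [Set.indicator_of_mem hmem]
      obtain ⟨hn, hfin⟩ := hmem
      obtain ⟨M, hM⟩ := exists_ball_Kset G hG hω x hfin subset_rfl
      have hn' : n ≤ (Kset ω x).ncard := by
        rw [← hfin.cast_ncard_eq] at hn
        exact_mod_cast hn
      have heq : ∀ᶠ j in atTop, H j (ω ∩ (Λ j : Set (Sym2 V))) =
          ENNReal.ofReal (t j ^ (Kset ω x).ncard) := by
        filter_upwards [eventually_ge_atTop M, eventually_ge_atTop (Kset ω x).ncard]
          with j hjM hjK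
        have h1 : Kset (ω ∩ (Λ j : Set (Sym2 V))) x = Kset ω x :=
          Set.Subset.antisymm (Kset_mono Set.inter_subset_left x)
            (hM (k j) (hjM.trans (le_max_left _ _)))
        simp only [hH]
        rw [h1, ind_true ⟨hn', hjK⟩, one_mul]
      have hlim : Tendsto (fun j => H j (ω ∩ (Λ j : Set (Sym2 V)))) atTop
          (𝓝 (ENNReal.ofReal (1 ^ (Kset ω x).ncard))) := by
        refine Tendsto.congr' (EventuallyEq.symm heq) ?_
        exact (ENNReal.continuous_ofReal.tendsto _).comp (htlim.pow _)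
      rw [hlim.liminf_eq, one_pow, ENNReal.ofReal_one]
      exact le_rfl
    · rw [Set.indicator_of_notMem hmem]
      exact bot_le
  calc finTailProb G p x n
      = ∫⁻ ω, (FT x n).indicator (1 : Set (Sym2 V) → ℝ≥0∞) ω ∂(setBernoulli G.edgeSet p) :=
        (lintegral_indicator_one (measurableSet_FT x n)).symm
    _ ≤ ∫⁻ ω, liminf (fun j => H j (ω ∩ (Λ j : Set (Sym2 V)))) atTop
          ∂(setBernoulli G.edgeSet p) := lintegral_mono_ae hpt
    _ ≤ liminf (fun j => ∫⁻ ω, H j (ω ∩ (Λ j : Set (Sym2 V))) ∂(setBernoulli G.edgeSet p))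
          atTop := lintegral_liminf_le fun j => measurable_inter (Λ j) (H j)
    _ ≤ ENNReal.ofReal B := by
        refine liminf_le_of_le (by isBoundedDefault) fun b hb => ?_
        obtain ⟨j, hj⟩ := hb.exists
        exact hj.trans (hint j)

omit [DecidableEq V] in
theorem finTailProb_le_clusterTail (G : SimpleGraph V) (p : unitInterval) (x : V) (n : ℕ) :
    finTailProb G p x n ≤ clusterTail G p x n :=
  measure_mono fun _ hω => hω.1

omit [DecidableEq V] in
theorem clusterTail_le_add (G : SimpleGraph V) (p : unitInterval) (x : V) (n : ℕ) :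
    clusterTail G p x n ≤ finTailProb G p x n + percProb G p x := by
  refine le_trans (measure_mono (show {ω : Set (Sym2 V) | (n : ℕ∞) ≤
    {y | (SimpleGraph.fromEdgeSet ω).Reachable x y}.encard} ⊆
      {ω | (n : ℕ∞) ≤ {y | (SimpleGraph.fromEdgeSet ω).Reachable x y}.encard ∧
        {y | (SimpleGraph.fromEdgeSet ω).Reachable x y}.Finite} ∪
      {ω | {y | (SimpleGraph.fromEdgeSet ω).Reachable x y}.Infinite} from fun ω hω => ?_))
    (measure_union_le _ _)
  by_cases h : {y | (SimpleGraph.fromEdgeSet ω).Reachable x y}.Finite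
  · exact Or.inl ⟨hω, h⟩
  · exact Or.inr h

/-- lower bound for the tail of the finite clusters -/
theorem le_finTailProb (G : SimpleGraph V) (p : unitInterval) (x : V) (n : ℕ) {a b : ℝ}
    (hb : 0 ≤ b) (ha : ENNReal.ofReal a ≤ clusterTail G p x n)
    (hθ : percProb G p x ≤ ENNReal.ofReal b) :
    ENNReal.ofReal (a - b) ≤ finTailProb G p x n := by
  rw [ENNReal.ofReal_sub _ hb]
  refine tsub_le_iff_right.2 ?_
  exact ha.trans ((clusterTail_le_add G p x n).trans (add_le_add_right hθ _))

end Vale.Agent.P165.H161.MF
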