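import Vale.Agent.P165.H161.FinDefs
import Vale.Agent.P165.H161.MF5
import Vale.Agent.P165.H199.MomDefs

/-!
# From the tail of the finite clusters to their moments
-/

set_option autoImplicit false
set_option linter.unusedSectionVars false

open Finset MeasureTheory ProbabilityTheory Filter Topology
open scoped ENNReal

namespace Vale.Agent.P165.H161.MF

open Vale.Agent.P165.LF Vale.Agent.P165.BS Vale.Agent.P165.BS2 Vale.Agent.P165.H199

/-! ### Real analysis -/

theorem sqrt_exp_le {b : ℝ} (hb : 0 < b) (m : ℕ) :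
    1 / √((m : ℝ) + 1) * Real.exp (-(b * (m + 1))) ≤
      2 * Real.exp 1 / √b * (Real.exp (-√(b * m)) - Real.exp (-√(b * (m + 1 : ℕ)))) := by
  push_cast
  have hm : (0 : ℝ) ≤ m := Nat.cast_nonneg m
  set u : ℝ := √(b * (m + 1)) with hu
  set v : ℝ := √(b * m) with hv
  have hu0 : 0 < u := Real.sqrt_pos.2 (by positivity)
  have hv0 : 0 ≤ v := Real.sqrt_nonneg _
  have hu2 : u ^ 2 = b * (m + 1) := Real.sq_sqrt (by positivity)
  have hv2 : v ^ 2 = b * m := Real.sq_sqrt (by positivity)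
  have hvu : v ≤ u := Real.sqrt_le_sqrt (by nlinarith)
  have hsb : 0 < √b := Real.sqrt_pos.2 hb
  have hsb2 : √b ^ 2 = b := Real.sq_sqrt hb.le
  have hus : u = √b * √((m : ℝ) + 1) := Real.sqrt_mul hb.le _
  have hs1 : 0 < √((m : ℝ) + 1) := Real.sqrt_pos.2 (by positivity)
  have h1 : Real.exp (-u) * (b / (2 * u)) ≤ Real.exp (-v) - Real.exp (-u) := by
    have e1 : Real.exp (-v) = Real.exp (-u) * Real.exp (u - v) := by
      rw [← Real.exp_add]; ring_nf
    have e2 := Real.add_one_le_exp (u - v)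
    have e3 : b / (2 * u) ≤ u - v := by
      rw [div_le_iff₀ (by positivity)]
      nlinarith
    have e4 := Real.exp_pos (-u)
    rw [e1]
    nlinarith [mul_le_mul_of_nonneg_left e3 e4.le, mul_le_mul_of_nonneg_left e2 e4.le]
  have h2 : Real.exp (-(b * (m + 1))) ≤ Real.exp 1 * Real.exp (-u) := by
    rw [← Real.exp_add]
    refine Real.exp_le_exp.2 ?_
    rw [← hu2]
    nlinarith [sq_nonneg (u - 1), sq_nonneg u]
  have h3 : 2 * Real.exp 1 / √b * (Real.exp (-u) * (b / (2 * u))) =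
      1 / √((m : ℝ) + 1) * (Real.exp 1 * Real.exp (-u)) := by
    rw [hus]
    have : b = √b ^ 2 := hsb2.symm
    field_simp
    rw [hsb2]
  calc 1 / √((m : ℝ) + 1) * Real.exp (-(b * (m + 1)))
      ≤ 1 / √((m : ℝ) + 1) * (Real.exp 1 * Real.exp (-u)) :=
        mul_le_mul_of_nonneg_left h2 (by positivity)
    _ = 2 * Real.exp 1 / √b * (Real.exp (-u) * (b / (2 * u))) := h3.symm
    _ ≤ _ := mul_le_mul_of_nonneg_left h1 (by positivity)

theorem pow_exp_le {b y : ℝ} (hb : 0 < b) (hy : 0 ≤ y) (j : ℕ) :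
    y ^ j * Real.exp (-(b * y)) ≤ j.factorial / b ^ j := by
  have h1 := Real.pow_div_factorial_le_exp (b * y) (by positivity) j
  have hj : (0 : ℝ) < j.factorial := by exact_mod_cast j.factorial_pos
  have hbj : 0 < b ^ j := pow_pos hb j
  rw [Real.exp_neg, ← div_eq_mul_inv, div_le_div_iff₀ (Real.exp_pos _) hbj]
  rw [div_le_iff₀ hj, mul_pow] at h1
  linarith

theorem nat_pow_succ_le (k : ℕ) (N : ℕ) :
    (N + 1) ^ (k + 1) ≤ N ^ (k + 1) + (k + 1) * (N + 1) ^ k := by
  induction k with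
  | zero => simp
  | succ k ih =>
    have h1 : N ^ (k + 1) ≤ (N + 1) ^ (k + 1) := Nat.pow_le_pow_left (Nat.le_succ N) _
    calc (N + 1) ^ (k + 1 + 1) = (N + 1) ^ (k + 1) * (N + 1) := pow_succ _ _
      _ ≤ (N ^ (k + 1) + (k + 1) * (N + 1) ^ k) * (N + 1) := Nat.mul_le_mul_right _ ih
      _ = N ^ (k + 1 + 1) + N ^ (k + 1) + (k + 1) * (N + 1) ^ (k + 1) := by ring
      _ ≤ N ^ (k + 1 + 1) + (N + 1) ^ (k + 1) + (k + 1) * (N + 1) ^ (k + 1) := by omega
      _ = _ := by ring

theorem nat_pow_le_sum (k : ℕ) (N : ℕ) :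
    N ^ (k + 1) ≤ ∑ m ∈ Finset.range N, (k + 1) * (m + 1) ^ k := by
  induction N with
  | zero => simp
  | succ N ih =>
    rw [Finset.sum_range_succ]
    exact (nat_pow_succ_le k N).trans (Nat.add_le_add_right ih _)

/-- The sum of the bounds. -/
theorem tsum_bound {C a : ℝ} (hC : 0 < C) (ha : 0 < a) (j : ℕ) :
    ∑' m : ℕ, (((j + 1) * (m + 1) ^ j : ℕ) : ℝ≥0∞) *
      ENNReal.ofReal (C / √((m + 1 : ℕ) : ℝ) * Real.exp (-(a * (m + 1 : ℕ)))) ≤
      ENNReal.ofReal ((j + 1) * C * (j.factorial / (a / 2) ^ j) *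
        (2 * Real.exp 1 / √(a / 2))) := by
  set b : ℝ := a / 2 with hb
  have hb0 : 0 < b := by rw [hb]; positivity
  set A : ℝ := (j + 1) * C * (j.factorial / b ^ j) with hA
  have hA0 : 0 ≤ A := by rw [hA]; positivity
  set g : ℕ → ℝ := fun m => Real.exp (-√(b * m)) with hg
  have hterm : ∀ m : ℕ, (((j + 1) * (m + 1) ^ j : ℕ) : ℝ≥0∞) *
      ENNReal.ofReal (C / √((m + 1 : ℕ) : ℝ) * Real.exp (-(a * (m + 1 : ℕ)))) ≤
      ENNReal.ofReal (A * (2 * Real.exp 1 / √b) * (g m - g (m + 1))) := by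
    intro m
    rw [← ENNReal.ofReal_natCast, ← ENNReal.ofReal_mul (Nat.cast_nonneg _)]
    refine ENNReal.ofReal_le_ofReal ?_
    have h1 := sqrt_exp_le hb0 m
    have h2 := pow_exp_le (y := (m : ℝ) + 1) hb0 (by positivity) j
    have h3 : Real.exp (-(a * ((m : ℝ) + 1))) =
        Real.exp (-(b * (m + 1))) * Real.exp (-(b * (m + 1))) := by
      rw [← Real.exp_add]
      congr 1
      rw [hb]
      ring
    have h4 : 0 ≤ 1 / √((m : ℝ) + 1) * Real.exp (-(b * (m + 1))) := by positivity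
    push_cast
    rw [h3]
    calc ((j : ℝ) + 1) * ((m : ℝ) + 1) ^ j * (C / √((m : ℝ) + 1) *
          (Real.exp (-(b * (m + 1))) * Real.exp (-(b * (m + 1)))))
        = ((j : ℝ) + 1) * C * (((m : ℝ) + 1) ^ j * Real.exp (-(b * (m + 1)))) *
          (1 / √((m : ℝ) + 1) * Real.exp (-(b * (m + 1)))) := by ring
      _ ≤ A * (1 / √((m : ℝ) + 1) * Real.exp (-(b * (m + 1)))) := by
          refine mul_le_mul_of_nonneg_right ?_ h4
          exact mul_le_mul_of_nonneg_left h2 (by positivity)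
      _ ≤ A * (2 * Real.exp 1 / √b * (g m - g (m + 1))) :=
          mul_le_mul_of_nonneg_left h1 hA0
      _ = _ := by ring
  refine (ENNReal.tsum_le_tsum hterm).trans ?_
  refine ENNReal.tsum_le_of_sum_range_le fun N => ?_
  have hpos : ∀ m, 0 ≤ A * (2 * Real.exp 1 / √b) * (g m - g (m + 1)) := by
    intro m
    have h1 := sqrt_exp_le hb0 m
    have h4 : 0 ≤ 1 / √((m : ℝ) + 1) * Real.exp (-(b * (m + 1))) := by positivity
    have h5 : 0 ≤ 2 * Real.exp 1 / √b * (g m - g (m + 1)) := h4.trans h1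
    calc (0 : ℝ) ≤ A * (2 * Real.exp 1 / √b * (g m - g (m + 1))) := mul_nonneg hA0 h5
      _ = _ := by ring
  rw [← ENNReal.ofReal_sum_of_nonneg fun m _ => hpos m]
  refine ENNReal.ofReal_le_ofReal ?_
  rw [← Finset.mul_sum, Finset.sum_range_sub']
  have h6 : g 0 = 1 := by simp [hg]
  have h7 : 0 ≤ g N := (Real.exp_pos _).le
  have h8 : 0 ≤ A * (2 * Real.exp 1 / √b) := by positivity
  rw [h6]
  nlinarith

/-! ### Measures -/

section meas

variable {V : Type} [DecidableEq V] {G : SimpleGraph V}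

/-- the event `n ≤ |K_x| < ∞` -/
def FT {V : Type} (x : V) (n : ℕ) : Set (Set (Sym2 V)) :=
  {ω | (n : ℕ∞) ≤ (Kset ω x).encard ∧ (Kset ω x).Finite}

omit [DecidableEq V] in
theorem measurableSet_FT [Countable V] (x : V) (n : ℕ) : MeasurableSet (FT x n) :=
  (measurableSet_tail x n).inter (Kset_finite_measurable x)

omit [DecidableEq V] in
/-- The moments of the finite clusters through their tail. -/
theorem finMoment_le_tsum (G : SimpleGraph V) [Countable V] (p : unitInterval) (x : V) (j : ℕ) :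
    finMoment G p x (j + 1) ≤
      ∑' m : ℕ, (((j + 1) * (m + 1) ^ j : ℕ) : ℝ≥0∞) * finTailProb G p x (m + 1) := by
  have : Countable (Sym2 V) := by
    unfold Sym2; infer_instance
  set μ := setBernoulli G.edgeSet p with hμ
  have h1 : ∀ m : ℕ, (((j + 1) * (m + 1) ^ j : ℕ) : ℝ≥0∞) * finTailProb G p x (m + 1) =
      ∫⁻ ω, (((j + 1) * (m + 1) ^ j : ℕ) : ℝ≥0∞) *
        (FT x (m + 1)).indicator (1 : Set (Sym2 V) → ℝ≥0∞) ω ∂μ := by
    intro m
    rw [lintegral_const_mul _ (measurable_one.indicator (measurableSet_FT x (m + 1))),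
      lintegral_indicator_one (measurableSet_FT x (m + 1))]
    rfl
  have h2 : ∑' m : ℕ, (((j + 1) * (m + 1) ^ j : ℕ) : ℝ≥0∞) * finTailProb G p x (m + 1) =
      ∫⁻ ω, ∑' m : ℕ, (((j + 1) * (m + 1) ^ j : ℕ) : ℝ≥0∞) *
        (FT x (m + 1)).indicator (1 : Set (Sym2 V) → ℝ≥0∞) ω ∂μ := by
    rw [lintegral_tsum fun m =>
      ((measurable_one.indicator (measurableSet_FT x (m + 1))).const_mul _).aemeasurable]
    exact tsum_congr h1
  rw [h2]
  have hAm : MeasurableSet {ω : Set (Sym2 V) | (Kset ω x).Finite} := Kset_finite_measurable x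
  calc finMoment G p x (j + 1)
      = ∫⁻ ω, {ω : Set (Sym2 V) | (Kset ω x).Finite}.indicator
          (fun ω => (((Kset ω x).encard : ℕ∞) : ℝ≥0∞) ^ (j + 1)) ω ∂μ :=
        (lintegral_indicator hAm _).symm
    _ ≤ _ := ?_
  refine lintegral_mono fun ω => ?_
  by_cases hfin : (Kset ω x).Finite
  · rw [Set.indicator_of_mem (show ω ∈ {ω : Set (Sym2 V) | (Kset ω x).Finite} from hfin)]
    rw [← hfin.cast_ncard_eq, ENat.toENNReal_coe]
    set N := (Kset ω x).ncard with hN
    calc (N : ℝ≥0∞) ^ (j + 1) = ((N ^ (j + 1) : ℕ) : ℝ≥0∞) := by push_cast; rfl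
      _ ≤ ((∑ m ∈ Finset.range N, (j + 1) * (m + 1) ^ j : ℕ) : ℝ≥0∞) := by
          exact_mod_cast nat_pow_le_sum j N
      _ = ∑ m ∈ Finset.range N, (((j + 1) * (m + 1) ^ j : ℕ) : ℝ≥0∞) := by
          rw [Nat.cast_sum]
      _ = ∑ m ∈ Finset.range N, (((j + 1) * (m + 1) ^ j : ℕ) : ℝ≥0∞) *
            (FT x (m + 1)).indicator (1 : Set (Sym2 V) → ℝ≥0∞) ω := by
          refine Finset.sum_congr rfl fun m hm => ?_
          have hmem : ω ∈ FT x (m + 1) := by
            refine ⟨?_, hfin⟩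
            rw [← hfin.cast_ncard_eq]
            exact_mod_cast Finset.mem_range.1 hm
          rw [Set.indicator_of_mem hmem, Pi.one_apply, mul_one]
      _ ≤ _ := ENNReal.sum_le_tsum _
  · rw [Set.indicator_of_notMem (show ω ∉ {ω : Set (Sym2 V) | (Kset ω x).Finite} from hfin)]
    exact bot_le

omit [DecidableEq V] in
/-- Markov: the tail of the finite clusters bounds their moments from below. -/
theorem le_finMoment (G : SimpleGraph V) [Countable V] (p : unitInterval) (x : V) (n k : ℕ) :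
    (n : ℝ≥0∞) ^ k * finTailProb G p x n ≤ finMoment G p x k := by
  set μ := setBernoulli G.edgeSet p with hμ
  set A : Set (Set (Sym2 V)) := {ω | (Kset ω x).Finite} with hA
  calc (n : ℝ≥0∞) ^ k * finTailProb G p x n = ∫⁻ _ω in FT x n, (n : ℝ≥0∞) ^ k ∂μ := by
        rw [setLIntegral_const]
        rfl
    _ ≤ ∫⁻ ω in FT x n, (((Kset ω x).encard : ℕ∞) : ℝ≥0∞) ^ k ∂μ := by
        refine setLIntegral_mono' (measurableSet_FT x n) fun ω hω => ?_
        refine pow_le_pow_left' ?_ k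
        rw [← ENat.toENNReal_coe, ENat.toENNReal_le]
        exact hω.1
    _ ≤ _ := lintegral_mono_set (show FT x n ⊆ A from fun ω hω => hω.2)

omit [DecidableEq V] in
/-- Below the percolation threshold the truncated moment is the moment. -/
theorem finMoment_eq_clusterMoment (G : SimpleGraph V) [Countable V] (p : unitInterval) (x : V)
    (k : ℕ) (h : percProb G p x = 0) : finMoment G p x k = clusterMoment G p x k := by
  unfold finMoment clusterMoment
  rw [Measure.restrict_eq_self_of_ae_mem]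
  rw [ae_iff]
  exact h

end meas

end Vale.Agent.P165.H161.MF
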