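import Vale.Agent.P165.H161.MH1
import Vale.Agent.P165.H161.MG4

/-!
# The finite clusters at every parameter: conclusions
-/

set_option autoImplicit false
set_option linter.unusedSectionVars false

open Finset MeasureTheory ProbabilityTheory Filter Topology
open scoped ENNReal

namespace Vale.Agent.P165.H161.MF

open Vale.Agent.P151 (Ex Cn cl csz edgesIn EV con tau)
open Vale.Agent.P165.LF Vale.Agent.P165.BS Vale.Agent.P165.BS2 Vale.Agent.P165.H199
open Vale.Agent.P165.H794

/-- The percolation probability at every parameter (it vanishes up to `p_c`). -/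
def ThetaConclusion.{u} {V : Type u} (G : SimpleGraph V) : Prop :=
  ∃ c C : ℝ, 0 < c ∧ 0 < C ∧ ∀ (p : unitInterval) (x : V),
    ENNReal.ofReal (c * (p - pc G)) ≤ percProb G p x ∧
    percProb G p x ≤ ENNReal.ofReal (C * (p - pc G))

/-- The tail of the finite clusters at every parameter. -/
def FinTailConclusion.{u} {V : Type u} (G : SimpleGraph V) : Prop :=
  ∃ c C : ℝ, 0 < c ∧ 0 < C ∧ ∀ (p : unitInterval) (x : V) (n : ℕ), 1 ≤ n →
    finTailProb G p x n ≤
      ENNReal.ofReal (C / √(n : ℝ) * Real.exp (-(c * (p - pc G) ^ 2 * n))) ∧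
    ((n : ℝ) * (p - pc G) ^ 2 ≤ c → ENNReal.ofReal (c / √(n : ℝ)) ≤ finTailProb G p x n)

/-- The moments of the finite clusters at every parameter. -/
def FinMomConclusion.{u} {V : Type u} (G : SimpleGraph V) : Prop :=
  ∃ p₁ : ℝ, pc G < p₁ ∧ ∀ k : ℕ, 1 ≤ k → ∃ c C : ℝ, 0 < c ∧ 0 < C ∧
    ∀ p : unitInterval, (p : ℝ) ≠ pc G → ∀ x : V,
      finMoment G p x k ≤ ENNReal.ofReal (C / |(p : ℝ) - pc G| ^ (2 * k - 1)) ∧
      (p ≤ p₁ → ENNReal.ofReal (c / |(p : ℝ) - pc G| ^ (2 * k - 1)) ≤ finMoment G p x k)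

section type0

variable {V : Type} [DecidableEq V] {G : SimpleGraph V}

omit [DecidableEq V] in
theorem percProb_eq_zero (G : SimpleGraph V) (p : unitInterval) (x : V) {C : ℝ}
    (h : ∀ n : ℕ, 1 ≤ n → clusterTail G p x n ≤ ENNReal.ofReal (C / √(n : ℝ))) :
    percProb G p x = 0 := by
  have h1 : Tendsto (fun n : ℕ => ENNReal.ofReal (C / √(n : ℝ))) atTop (𝓝 0) := by
    rw [← ENNReal.ofReal_zero]
    refine (ENNReal.continuous_ofReal.tendsto 0).comp ?_
    exact Tendsto.const_div_atTop (Real.tendsto_sqrt_atTop.comp tendsto_natCast_atTop_atTop) C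
  refine le_antisymm (ge_of_tendsto h1 ?_) bot_le
  filter_upwards [eventually_ge_atTop 1] with n hn
  exact (percProb_le_tail G p x n).trans (h n hn)

omit [DecidableEq V] in
theorem percProb_sub (hT : TailConclusion G) (p : unitInterval) (hp : p ≤ pc G) (x : V) :
    percProb G p x = 0 := by
  obtain ⟨c, C, hc, hC, h⟩ := hT
  refine percProb_eq_zero G p x (C := C) fun n hn => (h p hp x n hn).1.trans ?_
  refine ENNReal.ofReal_le_ofReal (mul_le_of_le_one_right (by positivity) ?_)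
  rw [Real.exp_le_one_iff]
  have : 0 ≤ c * (pc G - p) ^ 2 * n := by positivity
  linarith

theorem clusterTail_mono [G.LocallyFinite] (hG : G.Connected)
    {p q : unitInterval} (h : (p : ℝ) ≤ q) (x : V) (n : ℕ) :
    clusterTail G p x n ≤ clusterTail G q x n := by
  rw [clusterTail_eq G hG, clusterTail_eq G hG]
  exact ENNReal.ofReal_le_ofReal
    (Vale.Agent.P151.EV_mono_p p.2.1 h q.2.2 (tail_mono x n) (tail_le_one x n))

theorem theta0 (hT : TailConclusion G) (h : MFConclusion G) : ThetaConclusion G := by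
  obtain ⟨-, ⟨c, C, hc, hC, h⟩, -, -⟩ := h
  refine ⟨c, C, hc, hC, fun p x => ?_⟩
  rcases le_total (pc G) p with hp | hp
  · exact h p hp x
  · rw [percProb_sub hT p hp x]
    refine ⟨le_of_eq (ENNReal.ofReal_of_nonpos ?_), bot_le⟩
    exact mul_nonpos_of_nonneg_of_nonpos hc.le (by linarith)

theorem finTailC0 [G.LocallyFinite] [Infinite V] (hG : G.Connected) (hpc0 : 0 < pc G)
    (hpc1 : pc G ≤ 1) (hT : TailConclusion G) (hM : MFConclusion G) (hF : FinTail G) :
    FinTailConclusion G := by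
  obtain ⟨c1, C1, hc1, hC1, h1⟩ := hT
  obtain ⟨-, ⟨c2, C2, -, hC2, h2⟩, -, -⟩ := hM
  obtain ⟨c3, C3, hc3, hC3, h3⟩ := hF
  set c4 : ℝ := (c1 / (2 * C2)) ^ 2 with hc4
  have hc40 : 0 < c4 := by positivity
  set c : ℝ := min (min c1 c3) (min (c1 / 2) c4) with hc
  have hcc1 : c ≤ c1 := (min_le_left _ _).trans (min_le_left _ _)
  have hcc3 : c ≤ c3 := (min_le_left _ _).trans (min_le_right _ _)
  have hcc2 : c ≤ c1 / 2 := (min_le_right _ _).trans (min_le_left _ _)
  have hcc4 : c ≤ c4 := (min_le_right _ _).trans (min_le_right _ _)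
  have hc0 : 0 < c := lt_min (lt_min hc1 hc3) (lt_min (by positivity) hc40)
  refine ⟨c, max C1 C3, hc0, lt_max_of_lt_left hC1, fun p x n hn => ?_⟩
  have hn0 : (0 : ℝ) < n := by exact_mod_cast hn
  have hsq : 0 < √(n : ℝ) := Real.sqrt_pos.2 hn0
  have hnum : ∀ {c' C' e : ℝ}, c ≤ c' → 0 ≤ C' → C' ≤ max C1 C3 → e = ((p : ℝ) - pc G) ^ 2 →
      C' / √(n : ℝ) * Real.exp (-(c' * e * n)) ≤
      max C1 C3 / √(n : ℝ) * Real.exp (-(c * ((p : ℝ) - pc G) ^ 2 * n)) := by
    intro c' C' e h4 h5 h6 he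
    rw [he]
    refine mul_le_mul (div_le_div_of_nonneg_right h6 hsq.le)
      (Real.exp_le_exp.2 (neg_le_neg ?_)) (Real.exp_nonneg _)
      (div_nonneg (h5.trans h6) hsq.le)
    exact mul_le_mul_of_nonneg_right (mul_le_mul_of_nonneg_right h4 (sq_nonneg _)) hn0.le
  rcases le_or_gt (p : ℝ) (pc G) with hp | hp
  · -- below
    obtain ⟨h4, h5⟩ := h1 p hp x n hn
    have hθ : percProb G p x = 0 := percProb_sub ⟨c1, C1, hc1, hC1, h1⟩ p hp x
    have e : (pc G - (p : ℝ)) ^ 2 = ((p : ℝ) - pc G) ^ 2 := by ring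
    constructor
    · refine (finTailProb_le_clusterTail G p x n).trans (h4.trans (ENNReal.ofReal_le_ofReal ?_))
      exact hnum hcc1 hC1.le (le_max_left _ _) e
    · intro h
      have h6 := h5 (by rw [e]; exact h.trans hcc1)
      have h7 := clusterTail_le_add G p x n
      rw [hθ, add_zero] at h7
      refine le_trans (ENNReal.ofReal_le_ofReal ?_) (h6.trans h7)
      exact div_le_div_of_nonneg_right hcc1 hsq.le
  · -- above
    constructor
    · refine (finTail_le G hG p x n fun L t ht0 ht1 => h3 p hp p.2.2 x n L hn t ht0 ht1).trans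
        (ENNReal.ofReal_le_ofReal ?_)
      exact hnum hcc3 hC3.le (le_max_right _ _) rfl
    · intro h
      set q : unitInterval := ⟨pc G, hpc0.le, hpc1⟩ with hq
      have h4 : ENNReal.ofReal (c1 / √(n : ℝ)) ≤ clusterTail G q x n := by
        refine (h1 q le_rfl x n hn).2 ?_
        have : (n : ℝ) * (pc G - (q : ℝ)) ^ 2 = 0 := by
          rw [hq]; simp
        rw [this]
        exact hc1.le
      have h5 : ENNReal.ofReal (c1 / √(n : ℝ)) ≤ clusterTail G p x n :=
        h4.trans (clusterTail_mono hG hp.le x n)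
      have h6 := le_finTailProb G p x n (b := C2 * ((p : ℝ) - pc G))
        (mul_nonneg hC2.le (by linarith)) h5 (h2 p hp.le x).2
      refine le_trans (ENNReal.ofReal_le_ofReal ?_) h6
      have h7 : ((p : ℝ) - pc G) * √(n : ℝ) ≤ c1 / (2 * C2) := by
        have h8 : (((p : ℝ) - pc G) * √(n : ℝ)) ^ 2 ≤ (c1 / (2 * C2)) ^ 2 := by
          rw [mul_pow, Real.sq_sqrt hn0.le, mul_comm]
          exact h.trans hcc4
        exact le_of_sq_le_sq h8 (by positivity)
      have h9 : C2 * ((p : ℝ) - pc G) ≤ c1 / 2 / √(n : ℝ) := by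
        rw [le_div_iff₀ hsq]
        rw [le_div_iff₀ (by positivity)] at h7
        nlinarith
      have h10 : c / √(n : ℝ) ≤ c1 / 2 / √(n : ℝ) := div_le_div_of_nonneg_right hcc2 hsq.le
      have h11 : c1 / √(n : ℝ) = c1 / 2 / √(n : ℝ) + c1 / 2 / √(n : ℝ) := by ring
      linarith

/-- lower bound of the moments from the tail -/
theorem num_mom_lower {c e : ℝ} (hc : 0 < c) (he : 0 < e) (hec : e ^ 2 ≤ c) (j : ℕ) :
    ∃ n : ℕ, 1 ≤ n ∧ (n : ℝ) * e ^ 2 ≤ c ∧
      c * ((c / 2) ^ j * √(c / 2)) / e ^ (2 * j + 1) ≤ (n : ℝ) ^ (j + 1) * (c / √(n : ℝ)) := by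
  have he2 : 0 < e ^ 2 := by positivity
  have hy : 1 ≤ c / e ^ 2 := by rwa [le_div_iff₀ he2, one_mul]
  set n := ⌊c / e ^ 2⌋₊ with hn
  have hn1 : 1 ≤ n := (Nat.one_le_floor_iff _).2 hy
  have hn1' : (1 : ℝ) ≤ n := by exact_mod_cast hn1
  have hnu : (n : ℝ) ≤ c / e ^ 2 := Nat.floor_le (by positivity)
  have hnl : c / e ^ 2 < n + 1 := Nat.lt_floor_add_one _
  refine ⟨n, hn1, by rwa [le_div_iff₀ he2] at hnu, ?_⟩
  have hlow : c / 2 / e ^ 2 ≤ n := by
    have : c / 2 / e ^ 2 = (c / e ^ 2) / 2 := by ring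
    rw [this]
    linarith
  have hn0 : (0 : ℝ) < n := by linarith
  have h1 : (c / 2) ^ j / e ^ (2 * j) ≤ (n : ℝ) ^ j := by
    have : (c / 2) ^ j / e ^ (2 * j) = (c / 2 / e ^ 2) ^ j := by
      rw [div_pow (c / 2), pow_mul]
    rw [this]
    exact pow_le_pow_left₀ (by positivity) hlow j
  have h2 : √(c / 2) / e ≤ √(n : ℝ) := by
    have : √(c / 2) / e = √(c / 2 / e ^ 2) := by
      rw [Real.sqrt_div (show (0 : ℝ) ≤ c / 2 by positivity) (e ^ 2), Real.sqrt_sq he.le]
    rw [this]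
    exact Real.sqrt_le_sqrt hlow
  have h3 : (n : ℝ) ^ (j + 1) * (c / √(n : ℝ)) = c * ((n : ℝ) ^ j * √(n : ℝ)) := by
    have hs : √(n : ℝ) ^ 2 = n := Real.sq_sqrt hn0.le
    have hs0 : 0 < √(n : ℝ) := Real.sqrt_pos.2 hn0
    rw [pow_succ]
    field_simp
    rw [hs]
  have h4 : c * ((c / 2) ^ j * √(c / 2)) / e ^ (2 * j + 1) =
      c * ((c / 2) ^ j / e ^ (2 * j) * (√(c / 2) / e)) := by
    rw [pow_succ]
    field_simp
  rw [h3, h4]
  refine mul_le_mul_of_nonneg_left ?_ hc.le
  exact mul_le_mul h1 h2 (by positivity) (by positivity)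

theorem finMomC0 [G.LocallyFinite] [Infinite V] (hG : G.Connected) (hT : TailConclusion G)
    (hM : MomConclusion G) (hF : FinTailConclusion G) : FinMomConclusion G := by
  have : Countable V := countable_of_connected G hG
  obtain ⟨c, C, hc, hC, hF⟩ := hF
  refine ⟨pc G + √c, by have := Real.sqrt_pos.2 hc; linarith, fun k hk => ?_⟩
  obtain ⟨j, rfl⟩ : ∃ j, k = j + 1 := ⟨k - 1, by omega⟩
  obtain ⟨c5, C5, hc5, hC5, hM5⟩ := hM (j + 1) hk
  have ek : 2 * (j + 1) - 1 = 2 * j + 1 := by omega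
  rw [ek] at hM5
  rw [ek]
  set D : ℝ := (j + 1) * C * (j.factorial / (c / 2) ^ j) * (2 * Real.exp 1 / √(c / 2)) with hD
  have hD0 : 0 < D := by
    have : (0 : ℝ) < j.factorial := by exact_mod_cast j.factorial_pos
    have := Real.exp_pos 1
    have : 0 < √(c / 2) := Real.sqrt_pos.2 (by positivity)
    rw [hD]; positivity
  refine ⟨min c5 (c * ((c / 2) ^ j * √(c / 2))), D, lt_min hc5 (by
    have : 0 < √(c / 2) := Real.sqrt_pos.2 (by positivity)
    positivity), hD0, fun p hp x => ?_⟩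
  set e : ℝ := |(p : ℝ) - pc G| with he
  have he0 : 0 < e := abs_pos.2 (sub_ne_zero.2 hp)
  have he2 : ((p : ℝ) - pc G) ^ 2 = e ^ 2 := (sq_abs _).symm
  have hlow : e ^ 2 ≤ c → ENNReal.ofReal (min c5 (c * ((c / 2) ^ j * √(c / 2))) /
      e ^ (2 * j + 1)) ≤ finMoment G p x (j + 1) := by
    intro hec
    obtain ⟨n, hn, hn2, hnum⟩ := num_mom_lower hc he0 hec j
    have h1 := (hF p x n hn).2 (by rw [he2]; exact hn2)
    refine le_trans ?_ ((mul_le_mul' le_rfl h1).trans (le_finMoment G p x n (j + 1)))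
    rw [← ENNReal.ofReal_natCast, ← ENNReal.ofReal_pow (Nat.cast_nonneg _),
      ← ENNReal.ofReal_mul (by positivity)]
    refine ENNReal.ofReal_le_ofReal (le_trans ?_ hnum)
    exact div_le_div_of_nonneg_right (min_le_right _ _) (by positivity)
  constructor
  · -- upper bound
    refine (finMoment_le_tsum G p x j).trans ?_
    have ha : 0 < c * e ^ 2 := by positivity
    refine (ENNReal.tsum_le_tsum fun m => mul_le_mul' le_rfl
      ((hF p x (m + 1) (Nat.succ_pos m)).1)).trans ?_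
    rw [he2]
    refine (tsum_bound hC ha j).trans (ENNReal.ofReal_le_ofReal (le_of_eq ?_))
    have e1 : c * e ^ 2 / 2 = c / 2 * e ^ 2 := by ring
    have e2 : √(c / 2 * e ^ 2) = √(c / 2) * e := by
      rw [Real.sqrt_mul (by positivity), Real.sqrt_sq he0.le]
    rw [e1, e2, mul_pow, ← pow_mul, hD, pow_succ e (2 * j)]
    have : 0 < √(c / 2) := Real.sqrt_pos.2 (by positivity)
    field_simp
  · intro hp1
    rcases le_or_gt (p : ℝ) (pc G) with hple | hpgt
    · have hlt : (p : ℝ) < pc G := lt_of_le_of_ne hple hp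
      rw [finMoment_eq_clusterMoment G p x (j + 1) (percProb_sub hT p hple x)]
      refine le_trans (ENNReal.ofReal_le_ofReal ?_) (hM5 p hlt x).1
      have e3 : e = pc G - p := by rw [he, abs_of_neg (by linarith)]; ring
      rw [e3]
      refine div_le_div_of_nonneg_right (min_le_left _ _) (pow_nonneg (by linarith) _)
    · refine hlow ?_
      have e3 : e = p - pc G := by rw [he, abs_of_pos (by linarith)]
      have e4 : e ≤ √c := by rw [e3]; linarith
      calc e ^ 2 ≤ √c ^ 2 := pow_le_pow_left₀ he0.le e4 2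
        _ = c := Real.sq_sqrt hc.le

end type0

section iso

universe u v

variable {V : Type u} {W : Type v} {G : SimpleGraph V} {H : SimpleGraph W}

theorem finTailProb_iso (φ : G ≃g H) (p : unitInterval) (x : V) (n : ℕ) :
    finTailProb H p (φ x) n = finTailProb G p x n := by
  unfold finTailProb
  rw [← map_eq φ p, MeasurableEquiv.map_apply]
  congr 1
  ext ω
  change ((n : ℕ∞) ≤ {y | (SimpleGraph.fromEdgeSet
    ((setEquiv (sym2Equiv' φ.toEquiv)) ω)).Reachable (φ x) y}.encard ∧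
      {y | (SimpleGraph.fromEdgeSet
        ((setEquiv (sym2Equiv' φ.toEquiv)) ω)).Reachable (φ x) y}.Finite) ↔
    ((n : ℕ∞) ≤ {y | (SimpleGraph.fromEdgeSet ω).Reachable x y}.encard ∧
      {y | (SimpleGraph.fromEdgeSet ω).Reachable x y}.Finite)
  rw [cluster_image φ ω x, φ.injective.encard_image, Set.finite_image_iff φ.injective.injOn]

theorem finMoment_iso (φ : G ≃g H) (p : unitInterval) (x : V) (k : ℕ) :
    finMoment H p (φ x) k = finMoment G p x k := by
  unfold finMoment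
  rw [← map_eq φ p, MeasurableEquiv.restrict_map, lintegral_map_equiv]
  have e : (setEquiv (sym2Equiv' φ.toEquiv)) ⁻¹'
      {ω | {y | (SimpleGraph.fromEdgeSet ω).Reachable (φ x) y}.Finite} =
      {ω | {y | (SimpleGraph.fromEdgeSet ω).Reachable x y}.Finite} := by
    ext ω
    change {y | (SimpleGraph.fromEdgeSet
      ((setEquiv (sym2Equiv' φ.toEquiv)) ω)).Reachable (φ x) y}.Finite ↔
      {y | (SimpleGraph.fromEdgeSet ω).Reachable x y}.Finite
    rw [cluster_image φ ω x, Set.finite_image_iff φ.injective.injOn]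
  rw [e]
  refine lintegral_congr fun ω => ?_
  rw [cluster_image φ ω x, φ.injective.encard_image]

theorem ThetaConclusion_iso (φ : G ≃g H) (h : ThetaConclusion H) : ThetaConclusion G := by
  obtain ⟨c, C, hc, hC, h⟩ := h
  rw [pc_iso φ] at h
  refine ⟨c, C, hc, hC, fun p x => ?_⟩
  have h' := h p (φ x)
  rwa [percProb_iso φ] at h'

theorem FinTailConclusion_iso (φ : G ≃g H) (h : FinTailConclusion H) :
    FinTailConclusion G := by
  obtain ⟨c, C, hc, hC, h⟩ := h
  rw [pc_iso φ] at h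
  refine ⟨c, C, hc, hC, fun p x n hn => ?_⟩
  have h' := h p (φ x) n hn
  rwa [finTailProb_iso φ] at h'

theorem FinMomConclusion_iso (φ : G ≃g H) (h : FinMomConclusion H) : FinMomConclusion G := by
  obtain ⟨p₁, hp₁, h⟩ := h
  rw [pc_iso φ] at hp₁ h
  refine ⟨p₁, hp₁, fun k hk => ?_⟩
  obtain ⟨c, C, hc, hC, h⟩ := h k hk
  refine ⟨c, C, hc, hC, fun p hp x => ?_⟩
  have h' := h p hp (φ x)
  rwa [finMoment_iso φ] at h'

end iso

end Vale.Agent.P165.H161.MF
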