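import Vale.Agent.P165.H161.MH3
import Vale.Agent.P165.H115.RadSub
import Vale.Agent.P165.H199.FinMain

/-!
# The arm probabilities up to the critical point, assembly
-/

set_option autoImplicit false
set_option linter.unusedSectionVars false

open Finset MeasureTheory ProbabilityTheory Filter Topology
open scoped ENNReal

namespace Vale.Agent.P165.H161.MF

open Vale.Agent.P151 (Ex Cn cl csz edgesIn EV con tau)
open Vale.Agent.P165.LF Vale.Agent.P165.BS Vale.Agent.P165.BS2 Vale.Agent.P165.H199
open Vale.Agent.P165.H794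

/-- The arm probabilities up to the critical point. -/
def ArmSubConclusion.{u} {V : Type u} (G : SimpleGraph V) : Prop :=
  ∃ (c C : ℝ) (K : ℕ), 0 < c ∧ 0 < C ∧ ∀ p : unitInterval, p ≤ pc G → ∀ (x : V) (n : ℕ), 1 ≤ n →
    ENNReal.ofReal (c / n * (p / pc G) ^ (K * n)) ≤ armProb G p x n ∧
    armProb G p x n ≤ radiusTail G p x n ∧
    radiusTail G p x n ≤ ENNReal.ofReal (C / n * Real.exp (-(c * (pc G - p) * n)))

section type0

variable {V : Type} [DecidableEq V] {G : SimpleGraph V}

theorem armSub0 [G.LocallyFinite] [Infinite V] (hG : G.Connected) (hqt : IsQuasiTransitive G)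
    (hna : 0 < vertexCheeger G) : ArmSubConclusion G := by
  have : Countable V := countable_of_connected G hG
  obtain ⟨hTU, hTL, -, -⟩ := blocks hG hqt hna
  obtain ⟨c1, K, hc1, hL⟩ := armSubLow (pc_pos hG hqt) (H177.pc_lt_one hG hqt hna).le
    (H199.armLow hG hqt hna hTL) (H177.radUp hG hqt hna hTU)
  obtain ⟨c2, C, hc2, hC, hU⟩ := H115.radSub hG hqt hna hTU
  have hpc0 : 0 < pc G := pc_pos hG hqt
  refine ⟨min c1 c2, C, K, lt_min hc1 hc2, hC, fun p hp x n hn =>
    ⟨?_, armProb_le_radiusTail G p x n, ?_⟩⟩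
  · refine le_armProb G p x n (le_trans ?_ (hL p p.2.1 hp n hn x))
    refine mul_le_mul_of_nonneg_right ?_ (pow_nonneg (div_nonneg p.2.1 hpc0.le) _)
    exact div_le_div_of_nonneg_right (min_le_left _ _) (Nat.cast_nonneg _)
  · rw [radiusTail_eq G hG]
    refine ENNReal.ofReal_le_ofReal ((hU p p.2.1 hp n hn x _ _ subset_rfl).trans ?_)
    refine mul_le_mul_of_nonneg_left (Real.exp_le_exp.2 (neg_le_neg ?_)) (by positivity)
    refine mul_le_mul_of_nonneg_right ?_ (Nat.cast_nonneg _)
    exact mul_le_mul_of_nonneg_right (min_le_right _ _) (by linarith)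

/-- All the conclusions, `V : Type`. -/
theorem full0 [G.LocallyFinite] [Infinite V] (hG : G.Connected) (hqt : IsQuasiTransitive G)
    (hna : 0 < vertexCheeger G) :
    ThetaConclusion G ∧ FinTailConclusion G ∧ FinMomConclusion G := by
  have hT : TailConclusion G := tailsFull G hG hqt hna
  have hM : MFConclusion G := meanField G hG hqt hna
  have hF : FinTailConclusion G := finTailC0 hG (pc_pos hG hqt) (H177.pc_lt_one hG hqt hna).le
    hT hM (H199.finTail hG hqt hna)
  exact ⟨theta0 hT hM, hF, finMomC0 hG hT (moments0 hG hqt hna) hF⟩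

end type0

section iso

universe u v

variable {V : Type u} {W : Type v} {G : SimpleGraph V} {H : SimpleGraph W}

theorem ArmSubConclusion_iso (φ : G ≃g H) (h : ArmSubConclusion H) : ArmSubConclusion G := by
  obtain ⟨c, C, K, hc, hC, h⟩ := h
  rw [pc_iso φ] at h
  refine ⟨c, C, K, hc, hC, fun p hp x n hn => ?_⟩
  have h' := h p hp (φ x) n hn
  rwa [armProb_iso φ, radiusTail_iso φ] at h'

theorem thetaC [Infinite V] (G : SimpleGraph V) [G.LocallyFinite] (hG : G.Connected)
    (hqt : IsQuasiTransitive G) (hna : 0 < vertexCheeger G) : ThetaConclusion G :=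
  universe_reduction (fun H => ThetaConclusion H) (fun h1 h2 h3 => (full0 h1 h2 h3).1) G hG hqt hna
    (fun φ h => ThetaConclusion_iso φ h)

theorem finTailC [Infinite V] (G : SimpleGraph V) [G.LocallyFinite] (hG : G.Connected)
    (hqt : IsQuasiTransitive G) (hna : 0 < vertexCheeger G) : FinTailConclusion G :=
  universe_reduction (fun H => FinTailConclusion H) (fun h1 h2 h3 => (full0 h1 h2 h3).2.1) G hG
    hqt hna (fun φ h => FinTailConclusion_iso φ h)

theorem finMomC [Infinite V] (G : SimpleGraph V) [G.LocallyFinite] (hG : G.Connected)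
    (hqt : IsQuasiTransitive G) (hna : 0 < vertexCheeger G) : FinMomConclusion G :=
  universe_reduction (fun H => FinMomConclusion H) (fun h1 h2 h3 => (full0 h1 h2 h3).2.2) G hG
    hqt hna (fun φ h => FinMomConclusion_iso φ h)

theorem armSubC [Infinite V] (G : SimpleGraph V) [G.LocallyFinite] (hG : G.Connected)
    (hqt : IsQuasiTransitive G) (hna : 0 < vertexCheeger G) : ArmSubConclusion G :=
  universe_reduction (fun H => ArmSubConclusion H) (fun h1 h2 h3 => armSub0 h1 h2 h3) G hG
    hqt hna (fun φ h => ArmSubConclusion_iso φ h)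

end iso

end Vale.Agent.P165.H161.MF
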