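import Vale.Agent.P165.H161.MH4
import Vale.Agent.P165.H161.FinDefs2

/-!
# The radius of the finite clusters at every parameter
-/

set_option autoImplicit false
set_option linter.unusedSectionVars false

open Finset MeasureTheory ProbabilityTheory Filter Topology
open scoped ENNReal

namespace Vale.Agent.P165.H161.MF

open Vale.Agent.P151 (Ex Cn cl csz edgesIn EV con tau)
open Vale.Agent.P165.LF Vale.Agent.P165.BS Vale.Agent.P165.BS2 Vale.Agent.P165.H199
open Vale.Agent.P165.H794

/-- The radius of the finite clusters above the critical point, finite volume. -/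
def RadFinP {V : Type} [DecidableEq V] (G : SimpleGraph V) : Prop :=
  ∃ c C : ℝ, 0 < c ∧ 0 < C ∧ ∀ q : ℝ, pc G < q → q ≤ 1 → ∀ (x : V) (n L : ℕ), 1 ≤ n →
    ∀ t : ℝ, 0 < t → t < 1 → ∃ F0 : Finset V, ∀ F : Finset V, F0 ⊆ F →
      Ex q (edgesIn G F) (fun S => ind (Rad S x n ∧ csz S x ≤ L) * t ^ csz S x) ≤
        C / n * Real.exp (-(c * (q - pc G) * n))

/-- The arms of the finite clusters at every parameter. -/
def ArmFullConclusion.{u} {V : Type u} (G : SimpleGraph V) : Prop :=
  ∃ (c C : ℝ) (K : ℕ), 0 < c ∧ 0 < C ∧ ∀ (p : unitInterval) (x : V) (n : ℕ), 1 ≤ n →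
    finArmProb G p x n ≤ finRadiusTail G p x n ∧
    finRadiusTail G p x n ≤ ENNReal.ofReal (C / n * Real.exp (-(c * |(p : ℝ) - pc G| * n))) ∧
    ((n : ℝ) * |(p : ℝ) - pc G| ≤ c → ENNReal.ofReal (c / n) ≤ finArmProb G p x n) ∧
    (p ≤ pc G → ENNReal.ofReal (c / n * (p / pc G) ^ (K * n)) ≤ finArmProb G p x n)

section type0

variable {V : Type} [DecidableEq V] {G : SimpleGraph V}

theorem radS_inter_ge (G : SimpleGraph V) [G.LocallyFinite] {ω : Set (Sym2 V)}
    (hω : ω ⊆ G.edgeSet) (x : V) {n m : ℕ} (hnm : n ≤ m) :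
    RadS ω x n ↔
      RadS (ω ∩ (edgesIn G (Vale.Agent.P165.ballF G x m) : Set (Sym2 V))) x n := by
  have hsub : SimpleGraph.fromEdgeSet
      (ω ∩ (edgesIn G (Vale.Agent.P165.ballF G x m) : Set (Sym2 V))) ≤
      SimpleGraph.fromEdgeSet ω := SimpleGraph.fromEdgeSet_mono Set.inter_subset_left
  constructor
  · intro h
    obtain ⟨y, w, hw, hn⟩ := radS_exact h
    obtain ⟨w', hw'⟩ := walk_ball G hω w (m := m) (hw.le.trans hnm)
    exact ⟨y, ⟨w'⟩, hn.trans (SimpleGraph.Reachable.dist_anti hsub ⟨w'⟩)⟩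
  · intro h
    obtain ⟨y, w, hw, hn⟩ := radS_exact h
    refine ⟨y, ⟨w.mapLe hsub⟩, ?_⟩
    by_contra hlt
    push Not at hlt
    obtain ⟨v, hv⟩ := SimpleGraph.Reachable.exists_walk_length_eq_dist
      (⟨w.mapLe hsub⟩ : (SimpleGraph.fromEdgeSet ω).Reachable x y)
    obtain ⟨v', hv'⟩ := walk_ball G hω v (m := m) (by omega)
    have := SimpleGraph.dist_le v'
    omega

/-- Upper bound for the radius of the finite clusters (Fatou). -/
theorem finRadius_le (G : SimpleGraph V) [G.LocallyFinite] (hG : G.Connected) (p : unitInterval)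
    (x : V) (n : ℕ) {B : ℝ} (hB : ∀ L : ℕ, ∀ t : ℝ, 0 < t → t < 1 → ∃ F0 : Finset V,
      ∀ F : Finset V, F0 ⊆ F →
      Ex (p : ℝ) (edgesIn G F) (fun S => ind (Rad S x n ∧ csz S x ≤ L) * t ^ csz S x) ≤ B) :
    finRadiusTail G p x n ≤ ENNReal.ofReal B := by
  have : Countable V := countable_of_connected G hG
  have : Countable (Sym2 V) := by
    unfold Sym2; infer_instance
  set t : ℕ → ℝ := fun j => 1 - 1 / ((j : ℝ) + 2) with ht
  have hj : ∀ j : ℕ, (0 : ℝ) < (j : ℝ) + 2 := fun j => by positivity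
  have ht0 : ∀ j, 0 < t j := fun j => by
    have h1 : 1 / ((j : ℝ) + 2) < 1 := by
      rw [div_lt_one (hj j)]
      have : (0 : ℝ) ≤ j := Nat.cast_nonneg j
      linarith
    simp only [ht]
    linarith
  have ht1 : ∀ j, t j < 1 := fun j => by
    have h1 : 0 < 1 / ((j : ℝ) + 2) := by have := hj j; positivity
    simp only [ht]
    linarith
  have htlim : Tendsto t atTop (𝓝 1) := by
    have h1 : Tendsto (fun j : ℕ => 1 / ((j : ℝ) + 2)) atTop (𝓝 0) := by
      have h2 : Tendsto (fun j : ℕ => (j : ℝ) + 2) atTop atTop :=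
        tendsto_atTop_add_const_right _ _ tendsto_natCast_atTop_atTop
      simp only [one_div]
      exact h2.inv_tendsto_atTop
    have h3 := h1.const_sub 1
    rwa [_root_.sub_zero] at h3
  choose F0 hF0 using fun j : ℕ => hB j (t j) (ht0 j) (ht1 j)
  choose m hm using fun j => exists_ballF_superset G hG x (F0 j)
  set k : ℕ → ℕ := fun j => max j (m j) with hk
  set Λ : ℕ → Finset (Sym2 V) := fun j => edgesIn G (Vale.Agent.P165.ballF G x (k j)) with hΛ
  set H : ℕ → Set (Sym2 V) → ℝ≥0∞ := fun j s =>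
    ENNReal.ofReal (ind (RadS s x n ∧ (Kset s x).ncard ≤ j) * t j ^ (Kset s x).ncard) with hH
  have hint : ∀ j, ∫⁻ ω, H j (ω ∩ (Λ j : Set (Sym2 V))) ∂(setBernoulli G.edgeSet p) ≤
      ENNReal.ofReal B := by
    intro j
    rw [lintegral_inter G.edgeSet p (Λ j)
      (fun e he => (Vale.Agent.P151.mem_edgesIn.1 (Finset.mem_coe.1 he)).1) (H j)
      (fun S => ind (Rad S x n ∧ csz S x ≤ j) * t j ^ csz S x)
      (fun S => mul_nonneg (ind_nonneg _) (pow_nonneg (ht0 j).le _))
      (fun S _ => by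
        simp only [hH, ncard_coe]
        rw [ind_congr (and_congr_left fun _ => radS_coe S x n)])]
    refine ENNReal.ofReal_le_ofReal (hF0 j _ ?_)
    exact (hm j).trans (Vale.Agent.P165.ballF_mono G x (le_max_right _ _))
  set f : Set (Sym2 V) → ℝ≥0∞ := fun ω => liminf (fun j => H j (ω ∩ (Λ j : Set (Sym2 V)))) atTop
    with hf
  have hfm : Measurable f := Measurable.liminf fun j => measurable_inter (Λ j) (H j)
  have hsub : finRadiusTail G p x n ≤ setBernoulli G.edgeSet p {ω | 1 ≤ f ω} := by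
    refine measure_mono_ae ?_
    filter_upwards [setBernoulli_ae_subset (u := G.edgeSet) (p := p)] with ω hω hmem
    obtain ⟨hr, hfin⟩ := hmem
    have hr' : RadS ω x n := hr
    have hfin' : (Kset ω x).Finite := hfin
    obtain ⟨M, hM⟩ := exists_ball_Kset G hG hω x hfin' subset_rfl
    have heq : ∀ᶠ j in atTop, H j (ω ∩ (Λ j : Set (Sym2 V))) =
        ENNReal.ofReal (t j ^ (Kset ω x).ncard) := by
      filter_upwards [eventually_ge_atTop M, eventually_ge_atTop (Kset ω x).ncard,
        eventually_ge_atTop n] with j hjM hjK hjn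
      have h1 : Kset (ω ∩ (Λ j : Set (Sym2 V))) x = Kset ω x :=
        Set.Subset.antisymm (Kset_mono Set.inter_subset_left x)
          (hM (k j) (hjM.trans (le_max_left _ _)))
      have h2 : RadS (ω ∩ (Λ j : Set (Sym2 V))) x n :=
        (radS_inter_ge G hω x (hjn.trans (le_max_left _ _))).1 hr'
      simp only [hH]
      rw [h1, ind_true ⟨h2, hjK⟩, one_mul]
    have hlim : Tendsto (fun j => H j (ω ∩ (Λ j : Set (Sym2 V)))) atTop
        (𝓝 (ENNReal.ofReal (1 ^ (Kset ω x).ncard))) := by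
      refine Tendsto.congr' (EventuallyEq.symm heq) ?_
      exact (ENNReal.continuous_ofReal.tendsto _).comp (htlim.pow _)
    change 1 ≤ f ω
    rw [hf]
    simp only
    rw [hlim.liminf_eq, one_pow, ENNReal.ofReal_one]
  calc finRadiusTail G p x n ≤ setBernoulli G.edgeSet p {ω | 1 ≤ f ω} := hsub
    _ = 1 * setBernoulli G.edgeSet p {ω | 1 ≤ f ω} := (one_mul _).symm
    _ ≤ ∫⁻ ω, f ω ∂(setBernoulli G.edgeSet p) := mul_meas_ge_le_lintegral hfm 1
    _ ≤ liminf (fun j => ∫⁻ ω, H j (ω ∩ (Λ j : Set (Sym2 V))) ∂(setBernoulli G.edgeSet p))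
          atTop := lintegral_liminf_le fun j => measurable_inter (Λ j) (H j)
    _ ≤ ENNReal.ofReal B := by
        refine liminf_le_of_le (by isBoundedDefault) fun b hb => ?_
        obtain ⟨j, hj⟩ := hb.exists
        exact hj.trans (hint j)

omit [DecidableEq V] in
theorem finArmProb_le_finRadiusTail (G : SimpleGraph V) [Countable V] (p : unitInterval) (x : V)
    (n : ℕ) : finArmProb G p x n ≤ finRadiusTail G p x n := by
  have : Countable (Sym2 V) := by
    unfold Sym2; infer_instance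
  refine measure_mono_ae ?_
  filter_upwards [setBernoulli_ae_subset (u := G.edgeSet) (p := p)] with ω hω hmem
  obtain ⟨⟨y, hy, hn⟩, hfin⟩ := hmem
  exact ⟨⟨y, hy, hn.trans (SimpleGraph.Reachable.dist_anti (fes_le hω) hy)⟩, hfin⟩

omit [DecidableEq V] in
theorem finRadiusTail_le_radiusTail (G : SimpleGraph V) (p : unitInterval) (x : V) (n : ℕ) :
    finRadiusTail G p x n ≤ radiusTail G p x n :=
  measure_mono fun _ hω => hω.1

omit [DecidableEq V] in
theorem armProb_le_add (G : SimpleGraph V) (p : unitInterval) (x : V) (n : ℕ) :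
    armProb G p x n ≤ finArmProb G p x n + percProb G p x := by
  refine le_trans (measure_mono (show {ω : Set (Sym2 V) | ∃ y,
    (SimpleGraph.fromEdgeSet ω).Reachable x y ∧ n ≤ G.dist x y} ⊆
      {ω | (∃ y, (SimpleGraph.fromEdgeSet ω).Reachable x y ∧ n ≤ G.dist x y) ∧
        {y | (SimpleGraph.fromEdgeSet ω).Reachable x y}.Finite} ∪
      {ω | {y | (SimpleGraph.fromEdgeSet ω).Reachable x y}.Infinite} from fun ω hω => ?_))
    (measure_union_le _ _)
  by_cases h : {y | (SimpleGraph.fromEdgeSet ω).Reachable x y}.Finite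
  · exact Or.inl ⟨hω, h⟩
  · exact Or.inr h

theorem armFull0 [G.LocallyFinite] [Infinite V] (hG : G.Connected) (hqt : IsQuasiTransitive G)
    (hna : 0 < vertexCheeger G) (hR : RadFinP G) : ArmFullConclusion G := by
  have : Countable V := countable_of_connected G hG
  have hpc0 : 0 < pc G := pc_pos hG hqt
  have hpc1 : pc G ≤ 1 := (H177.pc_lt_one hG hqt hna).le
  have hT : TailConclusion G := tailsFull G hG hqt hna
  obtain ⟨c0, C0, hc0, hC0, hθ⟩ := (full0 hG hqt hna).1
  obtain ⟨c1, C1, K, hc1, hC1, h1⟩ := armSub0 hG hqt hna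
  obtain ⟨c2, C2, hc2, hC2, h2⟩ := hR
  obtain ⟨c6, hc6, hL6⟩ := H199.armLow hG hqt hna (blocks hG hqt hna).2.1
  set c : ℝ := min (min c1 c2) (min (min (c1 / 2) (c6 / 2))
    (min (pc G / (2 * (K + 1))) (c6 / (2 * C0)))) with hc
  have hcc1 : c ≤ c1 := (min_le_left _ _).trans (min_le_left _ _)
  have hcc2 : c ≤ c2 := (min_le_left _ _).trans (min_le_right _ _)
  have hcc3 : c ≤ c1 / 2 :=
    (min_le_right _ _).trans ((min_le_left _ _).trans (min_le_left _ _))
  have hcc6 : c ≤ c6 / 2 :=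
    (min_le_right _ _).trans ((min_le_left _ _).trans (min_le_right _ _))
  have hcc4 : c ≤ pc G / (2 * (K + 1)) :=
    (min_le_right _ _).trans ((min_le_right _ _).trans (min_le_left _ _))
  have hcc5 : c ≤ c6 / (2 * C0) :=
    (min_le_right _ _).trans ((min_le_right _ _).trans (min_le_right _ _))
  have hcpos : 0 < c := lt_min (lt_min hc1 hc2) (lt_min (lt_min (by positivity) (by positivity))
    (lt_min (by positivity) (by positivity)))
  refine ⟨c, max C1 C2, K, hcpos, lt_max_of_lt_left hC1, fun p x n hn => ?_⟩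
  have hn0 : (0 : ℝ) < n := by exact_mod_cast hn
  have hnum : ∀ {c' C' : ℝ}, c ≤ c' → 0 ≤ C' → C' ≤ max C1 C2 →
      C' / n * Real.exp (-(c' * |(p : ℝ) - pc G| * n)) ≤
      max C1 C2 / n * Real.exp (-(c * |(p : ℝ) - pc G| * n)) := by
    intro c' C' h4 h5 h6
    refine mul_le_mul (div_le_div_of_nonneg_right h6 hn0.le)
      (Real.exp_le_exp.2 (neg_le_neg ?_)) (Real.exp_nonneg _)
      (div_nonneg (h5.trans h6) hn0.le)
    exact mul_le_mul_of_nonneg_right (mul_le_mul_of_nonneg_right h4 (abs_nonneg _)) hn0.le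
  refine ⟨finArmProb_le_finRadiusTail G p x n, ?_⟩
  rcases le_or_gt (p : ℝ) (pc G) with hp | hp
  · -- below
    obtain ⟨h3, -, h5⟩ := h1 p hp x n hn
    have hθ0 : percProb G p x = 0 := percProb_sub hT p hp x
    have e : |(p : ℝ) - pc G| = pc G - p := by rw [abs_of_nonpos (by linarith)]; ring
    have h6 : ENNReal.ofReal (c1 / n * (p / pc G) ^ (K * n)) ≤ finArmProb G p x n := by
      have h7 := armProb_le_add G p x n
      rw [hθ0, add_zero] at h7
      exact h3.trans h7
    have hq0 : (0 : ℝ) ≤ p / pc G := div_nonneg p.2.1 hpc0.le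
    refine ⟨?_, ?_, ?_⟩
    · refine (finRadiusTail_le_radiusTail G p x n).trans (h5.trans (ENNReal.ofReal_le_ofReal ?_))
      rw [← e]
      exact hnum hcc1 hC1.le (le_max_left _ _)
    · intro h
      refine le_trans (ENNReal.ofReal_le_ofReal ?_) h6
      have h8 : (1 : ℝ) / 2 ≤ (p / pc G) ^ (K * n) := by
        have h9 := one_add_mul_le_pow (R := ℝ) (a := -((pc G - p) / pc G)) (by
          have : (pc G - p) / pc G ≤ 1 := by
            rw [div_le_one hpc0]
            linarith [p.2.1]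
          linarith) (K * n)
        have h10 : 1 + -((pc G - (p : ℝ)) / pc G) = p / pc G := by field_simp; ring
        rw [h10] at h9
        refine le_trans ?_ h9
        have h11 : (n : ℝ) * (pc G - p) ≤ pc G / (2 * (K + 1)) := by
          rw [← e]
          exact h.trans hcc4
        have hK0 : (0 : ℝ) ≤ K := Nat.cast_nonneg K
        rw [le_div_iff₀ (by positivity)] at h11
        have h12 : ((K * n : ℕ) : ℝ) * ((pc G - p) / pc G) ≤ 1 / 2 := by
          rw [← mul_div_assoc, div_le_iff₀ hpc0]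
          push_cast
          have h13 : 0 ≤ (n : ℝ) * (pc G - p) := mul_nonneg hn0.le (by linarith)
          nlinarith
        linarith
      calc c / n ≤ c1 / 2 / n := div_le_div_of_nonneg_right hcc3 hn0.le
        _ = c1 / n * (1 / 2) := by ring
        _ ≤ c1 / n * (p / pc G) ^ (K * n) := mul_le_mul_of_nonneg_left h8 (by positivity)
    · intro _
      refine le_trans (ENNReal.ofReal_le_ofReal ?_) h6
      exact mul_le_mul_of_nonneg_right (div_le_div_of_nonneg_right hcc1 hn0.le)
        (pow_nonneg hq0 _)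
  · -- above
    have e : |(p : ℝ) - pc G| = p - pc G := abs_of_pos (by linarith)
    refine ⟨?_, ?_, fun h => absurd h (not_le.2 hp)⟩
    · refine (finRadius_le G hG p x n fun L t ht0 ht1 => h2 p hp p.2.2 x n L hn t ht0 ht1).trans
        (ENNReal.ofReal_le_ofReal ?_)
      have h20 := hnum hcc2 hC2.le (le_max_right _ _)
      rw [e] at h20
      rw [e]
      exact h20
    · intro h
      have hmono : Monotone fun S : Finset (Sym2 V) =>
          ind (∃ y, Cn S x y ∧ n ≤ G.dist x y) := by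
        intro S T hST
        refine ind_mono ?_
        rintro ⟨y, hy, hn'⟩
        exact ⟨y, SimpleGraph.Reachable.mono
          (SimpleGraph.fromEdgeSet_mono (Finset.coe_subset.2 hST)) hy, hn'⟩
      have h4 : c6 / n ≤ EV G (p : ℝ) (fun S => ind (∃ y, Cn S x y ∧ n ≤ G.dist x y)) :=
        (hL6 n hn x).trans (Vale.Agent.P151.EV_mono_p hpc0.le hp.le p.2.2 hmono
          (fun S => ind_le_one _))
      have h5 : ENNReal.ofReal (c6 / n) ≤ armProb G p x n := le_armProb G p x n h4
      have h6 : ENNReal.ofReal (c6 / n - C0 * ((p : ℝ) - pc G)) ≤ finArmProb G p x n := by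
        rw [ENNReal.ofReal_sub _ (mul_nonneg hC0.le (by linarith))]
        refine tsub_le_iff_right.2 ?_
        exact h5.trans ((armProb_le_add G p x n).trans (add_le_add_right (hθ p x).2 _))
      refine le_trans (ENNReal.ofReal_le_ofReal ?_) h6
      rw [e] at h
      have h7 : (n : ℝ) * (p - pc G) ≤ c6 / (2 * C0) := h.trans hcc5
      rw [le_div_iff₀ (by positivity)] at h7
      have h9 : C0 * ((p : ℝ) - pc G) ≤ c6 / 2 / n := by
        rw [le_div_iff₀ hn0]
        nlinarith
      have h10 : c / n ≤ c6 / 2 / n := div_le_div_of_nonneg_right hcc6 hn0.le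
      have h11 : c6 / n = c6 / 2 / n + c6 / 2 / n := by ring
      linarith

end type0

section iso

universe u v

variable {V : Type u} {W : Type v} {G : SimpleGraph V} {H : SimpleGraph W}

theorem finArmProb_iso (φ : G ≃g H) (p : unitInterval) (x : V) (n : ℕ) :
    finArmProb H p (φ x) n = finArmProb G p x n := by
  unfold finArmProb
  rw [← map_eq φ p, MeasurableEquiv.map_apply]
  congr 1
  ext ω
  have h1 : {y | (SimpleGraph.fromEdgeSet
      ((setEquiv (sym2Equiv' φ.toEquiv)) ω)).Reachable (φ x) y}.Finite ↔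
      {y | (SimpleGraph.fromEdgeSet ω).Reachable x y}.Finite := by
    rw [cluster_image φ ω x, Set.finite_image_iff φ.injective.injOn]
  refine and_congr ?_ h1
  change (∃ y, (SimpleGraph.fromEdgeSet ((sym2Equiv' φ.toEquiv) '' ω)).Reachable (φ x) y ∧
      n ≤ H.dist (φ x) y) ↔
    ∃ y, (SimpleGraph.fromEdgeSet ω).Reachable x y ∧ n ≤ G.dist x y
  constructor
  · rintro ⟨y, hy, hn⟩
    obtain ⟨z, rfl⟩ := φ.surjective y
    rw [gdist_iso φ] at hn
    exact ⟨z, (openIso φ.toEquiv ω).reachable_iff.1 hy, hn⟩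
  · rintro ⟨z, hz, hn⟩
    refine ⟨φ z, (openIso φ.toEquiv ω).reachable_iff.2 hz, ?_⟩
    rw [gdist_iso φ]
    exact hn

theorem finRadiusTail_iso (φ : G ≃g H) (p : unitInterval) (x : V) (n : ℕ) :
    finRadiusTail H p (φ x) n = finRadiusTail G p x n := by
  unfold finRadiusTail
  rw [← map_eq φ p, MeasurableEquiv.map_apply]
  congr 1
  ext ω
  have h1 : {y | (SimpleGraph.fromEdgeSet
      ((setEquiv (sym2Equiv' φ.toEquiv)) ω)).Reachable (φ x) y}.Finite ↔
      {y | (SimpleGraph.fromEdgeSet ω).Reachable x y}.Finite := by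
    rw [cluster_image φ ω x, Set.finite_image_iff φ.injective.injOn]
  refine and_congr ?_ h1
  change (∃ y, (SimpleGraph.fromEdgeSet ((sym2Equiv' φ.toEquiv) '' ω)).Reachable (φ x) y ∧
      n ≤ (SimpleGraph.fromEdgeSet ((sym2Equiv' φ.toEquiv) '' ω)).dist (φ x) y) ↔
    ∃ y, (SimpleGraph.fromEdgeSet ω).Reachable x y ∧ n ≤ (SimpleGraph.fromEdgeSet ω).dist x y
  constructor
  · rintro ⟨y, hy, hn⟩
    obtain ⟨z, rfl⟩ := φ.surjective y
    have e := gdist_iso (openIso φ.toEquiv ω) x z
    refine ⟨z, (openIso φ.toEquiv ω).reachable_iff.1 hy, hn.trans (le_of_eq e)⟩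
  · rintro ⟨z, hz, hn⟩
    have e := gdist_iso (openIso φ.toEquiv ω) x z
    exact ⟨φ z, (openIso φ.toEquiv ω).reachable_iff.2 hz, hn.trans (le_of_eq e.symm)⟩

theorem ArmFullConclusion_iso (φ : G ≃g H) (h : ArmFullConclusion H) :
    ArmFullConclusion G := by
  obtain ⟨c, C, K, hc, hC, h⟩ := h
  rw [pc_iso φ] at h
  refine ⟨c, C, K, hc, hC, fun p x n hn => ?_⟩
  have h' := h p (φ x) n hn
  rwa [finArmProb_iso φ, finRadiusTail_iso φ] at h'

end iso

end Vale.Agent.P165.H161.MF
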