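import Vale.Agent.P165.H161.MK1
import Vale.Agent.P165.H199.LowDefs

/-!
# The sharp lower bound of the tail of the finite clusters: transfer
-/

set_option autoImplicit false
set_option linter.unusedSectionVars false

open Finset MeasureTheory ProbabilityTheory Filter Topology
open scoped ENNReal

namespace Vale.Agent.P165.H161.MF

open Vale.Agent.P151 (Ex Cn cl csz edgesIn EV con tau)
open Vale.Agent.P165.LF Vale.Agent.P165.BS Vale.Agent.P165.BS2 Vale.Agent.P165.H199
open Vale.Agent.P165.H794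

/-- The two-sided sharp tail of the finite clusters. -/
def SharpConclusion.{u} {V : Type u} (G : SimpleGraph V) : Prop :=
  ∀ a b : ℝ, 0 < a → b < 1 → ∃ c C : ℝ, 0 < c ∧ 0 < C ∧
    ∀ p : unitInterval, a ≤ p → p ≤ b → ∀ (x : V) (n : ℕ), 1 ≤ n →
      ENNReal.ofReal (c / √(n : ℝ) * Real.exp (-(C * (p - pc G) ^ 2 * n))) ≤
        finTailProb G p x n

section type0

variable {V : Type} [DecidableEq V] {G : SimpleGraph V}

/-- Lower bound for the tail of the finite clusters from finite volume. -/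
theorem le_finTail_of (G : SimpleGraph V) [G.LocallyFinite] (hG : G.Connected)
    (p : unitInterval) (x : V) (n L : ℕ) {b : ℝ} (h : ∃ F0 : Finset V, ∀ F : Finset V, F0 ⊆ F →
      b ≤ Ex (p : ℝ) (edgesIn G F) (fun S => ind (n ≤ csz S x ∧ csz S x ≤ L))) :
    ENNReal.ofReal b ≤ finTailProb G p x n := by
  have : Countable V := countable_of_connected G hG
  have : Countable (Sym2 V) := by
    unfold Sym2; infer_instance
  set μ := setBernoulli G.edgeSet p with hμ
  obtain ⟨F0, hF0⟩ := h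
  obtain ⟨m0, hm0⟩ := exists_ballF_superset G hG x F0
  set Λ : ℕ → Finset (Sym2 V) := fun m => edgesIn G (Vale.Agent.P165.ballF G x (m0 + m)) with hΛ
  have hΛm : ∀ i j : ℕ, i ≤ j → (Λ i : Set (Sym2 V)) ⊆ (Λ j : Set (Sym2 V)) := by
    intro i j hij
    exact_mod_cast Vale.Agent.P151.edgesIn_mono G
      (Vale.Agent.P165.ballF_mono G x (Nat.add_le_add_left hij m0))
  set A : ℕ → Set (Set (Sym2 V)) := fun m =>
    {ω | (((Kset (ω ∩ (Λ m : Set (Sym2 V))) x).encard : ℕ∞) : ℝ≥0∞) ≤ (L : ℝ≥0∞)} ∩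
      {ω | (n : ℕ∞) ≤ (Kset ω x).encard} with hA
  have hAm : ∀ m, MeasurableSet (A m) := fun m =>
    (measurableSet_le (measurable_inter (Λ m)
      (fun s => (((Kset s x).encard : ℕ∞) : ℝ≥0∞))) measurable_const).inter
      (measurableSet_tail x n)
  have hanti : Antitone A := by
    intro i j hij ω hω
    refine ⟨le_trans ?_ (show (((Kset (ω ∩ (Λ j : Set (Sym2 V))) x).encard : ℕ∞) : ℝ≥0∞) ≤
      (L : ℝ≥0∞) from hω.1), hω.2⟩
    rw [ENat.toENNReal_le]
    exact Set.encard_le_encard (Kset_mono (Set.inter_subset_inter_right _ (hΛm i j hij)) x)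
  have hlow : ∀ m, ENNReal.ofReal b ≤ μ (A m) := by
    intro m
    have h1 : b ≤ Ex (p : ℝ) (Λ m) (fun S => ind (n ≤ csz S x ∧ csz S x ≤ L)) :=
      hF0 _ (hm0.trans (Vale.Agent.P165.ballF_mono G x (Nat.le_add_right m0 m)))
    refine (ENNReal.ofReal_le_ofReal h1).trans ?_
    rw [Ex_ind_eq G p (Λ m) (edgesIn_sub G _)
      (fun s => (n : ℕ∞) ≤ (Kset s x).encard ∧ (Kset s x).encard ≤ (L : ℕ∞))
      (fun S => n ≤ csz S x ∧ csz S x ≤ L) (fun S => by
        rw [encard_coe, Nat.cast_le, Nat.cast_le])]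
    refine measure_mono ?_
    rintro ω ⟨h2, h3⟩
    refine ⟨?_, h2.trans (Set.encard_le_encard (Kset_mono Set.inter_subset_left x))⟩
    change (((Kset (ω ∩ (Λ m : Set (Sym2 V))) x).encard : ℕ∞) : ℝ≥0∞) ≤ (L : ℝ≥0∞)
    rw [← ENat.toENNReal_coe, ENat.toENNReal_le]
    exact h3
  have htend : Tendsto (fun m => μ (A m)) atTop (𝓝 (μ (⋂ m, A m))) :=
    tendsto_measure_iInter_atTop (fun m => (hAm m).nullMeasurableSet) hanti
      ⟨0, measure_ne_top _ _⟩
  have h1 : ENNReal.ofReal b ≤ μ (⋂ m, A m) := ge_of_tendsto' htend hlow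
  refine h1.trans (measure_mono_ae ?_)
  filter_upwards [setBernoulli_ae_subset (u := G.edgeSet) (p := p)] with ω hω hmem
  have hmem' : ∀ m, ω ∈ A m := Set.mem_iInter.1 hmem
  refine ⟨(hmem' 0).2, ?_⟩
  change (Kset ω x).Finite
  by_contra hinf
  have hinf' : (Kset ω x).Infinite := hinf
  obtain ⟨T, hT, hTc⟩ := hinf'.exists_subset_card_eq (L + 1)
  obtain ⟨m, hm⟩ := exists_ball_Kset G hG hω x T.finite_toSet hT
  have h2 : (T : Set V) ⊆ Kset (ω ∩ (Λ m : Set (Sym2 V))) x := hm (m0 + m) (Nat.le_add_left m m0)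
  have h3 : (((Kset (ω ∩ (Λ m : Set (Sym2 V))) x).encard : ℕ∞) : ℝ≥0∞) ≤ (L : ℝ≥0∞) :=
    (hmem' m).1
  rw [← ENat.toENNReal_coe, ENat.toENNReal_le] at h3
  have h4 := (Set.encard_le_encard h2).trans h3
  rw [Set.encard_coe_eq_coe_finsetCard, hTc] at h4
  have h5 : L + 1 ≤ L := by exact_mod_cast h4
  omega

theorem sharp0 [G.LocallyFinite] (hG : G.Connected) (h : TailLowAll G) :
    SharpConclusion G := by
  intro a b ha hb
  obtain ⟨c, C, B, hc, hC, h⟩ := h a b ha hb
  refine ⟨c, C, hc, hC, fun p hap hpb x n hn => ?_⟩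
  exact le_finTail_of G hG p x n (B * n) (h p hap hpb x n hn)

end type0

section iso

universe u v

variable {V : Type u} {W : Type v} {G : SimpleGraph V} {H : SimpleGraph W}

theorem SharpConclusion_iso (φ : G ≃g H) (h : SharpConclusion H) : SharpConclusion G := by
  intro a b ha hb
  obtain ⟨c, C, hc, hC, h⟩ := h a b ha hb
  rw [pc_iso φ] at h
  refine ⟨c, C, hc, hC, fun p hap hpb x n hn => ?_⟩
  have h' := h p hap hpb (φ x) n hn
  rwa [finTailProb_iso φ] at h'

end iso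

end Vale.Agent.P165.H161.MF
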