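import Vale.Agent.P165.H161.MK2

/-!
# Everything in every universe
-/

set_option autoImplicit false

open Finset MeasureTheory ProbabilityTheory Filter Topology
open scoped ENNReal

namespace Vale.Agent.P165.H161.MF

open Vale.Agent.P165.H199

universe u

variable {V : Type u}

theorem armFullC_of (hR : ∀ {W : Type} [DecidableEq W] {H : SimpleGraph W} [H.LocallyFinite]
      [Infinite W], H.Connected → IsQuasiTransitive H → 0 < vertexCheeger H → RadFinP H)
    [Infinite V] (G : SimpleGraph V) [G.LocallyFinite] (hG : G.Connected)
    (hqt : IsQuasiTransitive G) (hna : 0 < vertexCheeger G) : ArmFullConclusion G :=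
  universe_reduction (fun H => ArmFullConclusion H)
    (fun h1 h2 h3 => armFull0 h1 h2 h3 (hR h1 h2 h3)) G hG hqt hna
    (fun φ h => ArmFullConclusion_iso φ h)

theorem sharpC_of (hR : ∀ {W : Type} [DecidableEq W] {H : SimpleGraph W} [H.LocallyFinite]
      [Infinite W], H.Connected → IsQuasiTransitive H → 0 < vertexCheeger H → TailLowAll H)
    [Infinite V] (G : SimpleGraph V) [G.LocallyFinite] (hG : G.Connected)
    (hqt : IsQuasiTransitive G) (hna : 0 < vertexCheeger G) : SharpConclusion G :=
  universe_reduction (fun H => SharpConclusion H)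
    (fun h1 h2 h3 => sharp0 h1 (hR h1 h2 h3)) G hG hqt hna
    (fun φ h => SharpConclusion_iso φ h)

end Vale.Agent.P165.H161.MF
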