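import Vale.Agent.P165.H161.MK3
import Vale.Agent.P165.H115.RadFin
import Vale.Agent.P165.H177.LowAll
import Vale.Agent.P165.H199.SecMomPf
import Vale.Agent.P165.H199.ChParPf

/-!
# The last clauses
-/

set_option autoImplicit false

open Finset MeasureTheory ProbabilityTheory Filter Topology
open scoped ENNReal

namespace Vale.Agent.P165.H161.MF

open Vale.Agent.P165.H199

theorem tailLowAll0 {V : Type} [DecidableEq V] {G : SimpleGraph V} [G.LocallyFinite]
    [Infinite V] (hG : G.Connected) (hqt : IsQuasiTransitive G) (hna : 0 < vertexCheeger G) :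
    TailLowAll G := by
  obtain ⟨d, -, hd⟩ := LF.exists_degree_bound (G := G) hqt
  obtain ⟨hTU, hTL, -, -⟩ := blocks hG hqt hna
  exact H177.tailLowAll_of (secMom G hd) (chPar G hd) hTU hTL (H794.pc_pos hG hqt)
    (H177.pc_lt_one hG hqt hna)

universe u

variable {V : Type u}

theorem armFullC [Infinite V] (G : SimpleGraph V) [G.LocallyFinite] (hG : G.Connected)
    (hqt : IsQuasiTransitive G) (hna : 0 < vertexCheeger G) : ArmFullConclusion G :=
  armFullC_of (fun h1 h2 h3 => H115.radFin h1 h2 h3) G hG hqt hna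

theorem sharpC [Infinite V] (G : SimpleGraph V) [G.LocallyFinite] (hG : G.Connected)
    (hqt : IsQuasiTransitive G) (hna : 0 < vertexCheeger G) : SharpConclusion G :=
  sharpC_of (fun h1 h2 h3 => tailLowAll0 h1 h2 h3) G hG hqt hna

end Vale.Agent.P165.H161.MF
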