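import Vale.Agent.P165.H161.MK4

/-!
# The lower bound of the arms of the finite clusters: transfer
-/

set_option autoImplicit false
set_option linter.unusedSectionVars false

open Finset MeasureTheory ProbabilityTheory Filter Topology
open scoped ENNReal

namespace Vale.Agent.P165.H161.MF

open Vale.Agent.P151 (Ex Cn cl csz edgesIn EV con tau)
open Vale.Agent.P165.LF Vale.Agent.P165.BS Vale.Agent.P165.BS2 Vale.Agent.P165.H199
open Vale.Agent.P165.H794

/-- The lower bound of the arms of the finite clusters, finite volume. -/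
def ArmLowAllP {V : Type} [DecidableEq V] (G : SimpleGraph V) : Prop :=
  ∀ a b : ℝ, 0 < a → b < 1 → ∃ c C : ℝ, 0 < c ∧ 0 < C ∧ ∀ p : ℝ, a ≤ p → p ≤ b →
    ∀ (x : V) (n : ℕ), 1 ≤ n → ∃ L : ℕ, ∃ F0 : Finset V, ∀ F : Finset V, F0 ⊆ F →
      c / n * Real.exp (-(C * |p - pc G| * n)) ≤
        Ex p (edgesIn G F) (fun S => ind ((∃ y, Cn S x y ∧ n ≤ G.dist x y) ∧ csz S x ≤ L))

/-- The two-sided sharp behaviour on compact sets of parameters. -/
def SharpArmConclusion.{u} {V : Type u} (G : SimpleGraph V) : Prop :=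
  ∀ a b : ℝ, 0 < a → b < 1 → ∃ c C : ℝ, 0 < c ∧ 0 < C ∧
    ∀ p : unitInterval, a ≤ p → p ≤ b → ∀ (x : V) (n : ℕ), 1 ≤ n →
      ENNReal.ofReal (c / √(n : ℝ) * Real.exp (-(C * (p - pc G) ^ 2 * n))) ≤
        finTailProb G p x n ∧
      ENNReal.ofReal (c / n * Real.exp (-(C * |(p : ℝ) - pc G| * n))) ≤ finArmProb G p x n

section type0

variable {V : Type} [DecidableEq V] {G : SimpleGraph V}

omit [DecidableEq V] in
theorem measurableSet_arm (G : SimpleGraph V) [Countable V] (x : V) (n : ℕ) :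
    MeasurableSet {ω : Set (Sym2 V) | ∃ y, (SimpleGraph.fromEdgeSet ω).Reachable x y ∧
      n ≤ G.dist x y} := by
  have h : {ω : Set (Sym2 V) | ∃ y, (SimpleGraph.fromEdgeSet ω).Reachable x y ∧
      n ≤ G.dist x y} = ⋃ y ∈ {y : V | n ≤ G.dist x y},
        {ω : Set (Sym2 V) | (SimpleGraph.fromEdgeSet ω).Reachable x y} := by
    ext ω
    simp only [Set.mem_ofPred_eq, Set.mem_iUnion, exists_prop]
    exact exists_congr fun y => and_comm
  rw [h]
  exact MeasurableSet.biUnion (Set.to_countable _) fun y _ => measurableSet_reachable x y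

/-- Lower bound for the arms of the finite clusters from finite volume. -/
theorem le_finArm_of (G : SimpleGraph V) [G.LocallyFinite] (hG : G.Connected)
    (p : unitInterval) (x : V) (n L : ℕ) {b : ℝ} (h : ∃ F0 : Finset V, ∀ F : Finset V, F0 ⊆ F →
      b ≤ Ex (p : ℝ) (edgesIn G F)
        (fun S => ind ((∃ y, Cn S x y ∧ n ≤ G.dist x y) ∧ csz S x ≤ L))) :
    ENNReal.ofReal b ≤ finArmProb G p x n := by
  have : Countable V := countable_of_connected G hG
  have : Countable (Sym2 V) := by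
    unfold Sym2; infer_instance
  set μ := setBernoulli G.edgeSet p with hμ
  obtain ⟨F0, hF0⟩ := h
  obtain ⟨m0, hm0⟩ := exists_ballF_superset G hG x F0
  set Λ : ℕ → Finset (Sym2 V) := fun m => edgesIn G (Vale.Agent.P165.ballF G x (m0 + m)) with hΛ
  have hΛm : ∀ i j : ℕ, i ≤ j → (Λ i : Set (Sym2 V)) ⊆ (Λ j : Set (Sym2 V)) := by
    intro i j hij
    exact_mod_cast Vale.Agent.P151.edgesIn_mono G
      (Vale.Agent.P165.ballF_mono G x (Nat.add_le_add_left hij m0))
  set A : ℕ → Set (Set (Sym2 V)) := fun m =>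
    {ω | (((Kset (ω ∩ (Λ m : Set (Sym2 V))) x).encard : ℕ∞) : ℝ≥0∞) ≤ (L : ℝ≥0∞)} ∩
      {ω | ∃ y, (SimpleGraph.fromEdgeSet ω).Reachable x y ∧ n ≤ G.dist x y} with hA
  have hAm : ∀ m, MeasurableSet (A m) := fun m =>
    (measurableSet_le (measurable_inter (Λ m)
      (fun s => (((Kset s x).encard : ℕ∞) : ℝ≥0∞))) measurable_const).inter
      (measurableSet_arm G x n)
  have hanti : Antitone A := by
    intro i j hij ω hω
    refine ⟨le_trans ?_ (show (((Kset (ω ∩ (Λ j : Set (Sym2 V))) x).encard : ℕ∞) : ℝ≥0∞) ≤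
      (L : ℝ≥0∞) from hω.1), hω.2⟩
    rw [ENat.toENNReal_le]
    exact Set.encard_le_encard (Kset_mono (Set.inter_subset_inter_right _ (hΛm i j hij)) x)
  have hlow : ∀ m, ENNReal.ofReal b ≤ μ (A m) := by
    intro m
    have h1 : b ≤ Ex (p : ℝ) (Λ m)
        (fun S => ind ((∃ y, Cn S x y ∧ n ≤ G.dist x y) ∧ csz S x ≤ L)) :=
      hF0 _ (hm0.trans (Vale.Agent.P165.ballF_mono G x (Nat.le_add_right m0 m)))
    refine (ENNReal.ofReal_le_ofReal h1).trans ?_
    rw [Ex_ind_eq G p (Λ m) (edgesIn_sub G _)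
      (fun s => (∃ y, (SimpleGraph.fromEdgeSet s).Reachable x y ∧ n ≤ G.dist x y) ∧
        (Kset s x).encard ≤ (L : ℕ∞))
      (fun S => (∃ y, Cn S x y ∧ n ≤ G.dist x y) ∧ csz S x ≤ L) (fun S => by
        rw [encard_coe, Nat.cast_le]
        exact Iff.rfl)]
    refine measure_mono ?_
    rintro ω ⟨⟨y, hy, hn⟩, h3⟩
    refine ⟨?_, y, Kset_mono Set.inter_subset_left x hy, hn⟩
    change (((Kset (ω ∩ (Λ m : Set (Sym2 V))) x).encard : ℕ∞) : ℝ≥0∞) ≤ (L : ℝ≥0∞)
    rw [← ENat.toENNReal_coe, ENat.toENNReal_le]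
    exact h3
  have htend : Tendsto (fun m => μ (A m)) atTop (𝓝 (μ (⋂ m, A m))) :=
    tendsto_measure_iInter_atTop (fun m => (hAm m).nullMeasurableSet) hanti
      ⟨0, measure_ne_top _ _⟩
  have h1 : ENNReal.ofReal b ≤ μ (⋂ m, A m) := ge_of_tendsto' htend hlow
  refine h1.trans (measure_mono_ae ?_)
  filter_upwards [setBernoulli_ae_subset (u := G.edgeSet) (p := p)] with ω hω hmem
  have hmem' : ∀ m, ω ∈ A m := Set.mem_iInter.1 hmem
  refine ⟨(hmem' 0).2, ?_⟩
  change (Kset ω x).Finite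
  by_contra hinf
  have hinf' : (Kset ω x).Infinite := hinf
  obtain ⟨T, hT, hTc⟩ := hinf'.exists_subset_card_eq (L + 1)
  obtain ⟨m, hm⟩ := exists_ball_Kset G hG hω x T.finite_toSet hT
  have h2 : (T : Set V) ⊆ Kset (ω ∩ (Λ m : Set (Sym2 V))) x := hm (m0 + m) (Nat.le_add_left m m0)
  have h3 : (((Kset (ω ∩ (Λ m : Set (Sym2 V))) x).encard : ℕ∞) : ℝ≥0∞) ≤ (L : ℝ≥0∞) :=
    (hmem' m).1
  rw [← ENat.toENNReal_coe, ENat.toENNReal_le] at h3
  have h4 := (Set.encard_le_encard h2).trans h3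
  rw [Set.encard_coe_eq_coe_finsetCard, hTc] at h4
  have h5 : L + 1 ≤ L := by exact_mod_cast h4
  omega

theorem sharpArm0 [G.LocallyFinite] (hG : G.Connected) (h : TailLowAll G)
    (h' : ArmLowAllP G) : SharpArmConclusion G := by
  intro a b ha hb
  obtain ⟨c, C, B, hc, hC, h⟩ := h a b ha hb
  obtain ⟨c', C', hc', hC', h'⟩ := h' a b ha hb
  refine ⟨min c c', max C C', lt_min hc hc', lt_max_of_lt_left hC, fun p hap hpb x n hn => ?_⟩
  have hn0 : (0 : ℝ) < n := by exact_mod_cast hn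
  have hsq : 0 < √(n : ℝ) := Real.sqrt_pos.2 hn0
  constructor
  · refine le_trans (ENNReal.ofReal_le_ofReal ?_)
      (le_finTail_of G hG p x n (B * n) (h p hap hpb x n hn))
    refine mul_le_mul (div_le_div_of_nonneg_right (min_le_left _ _) hsq.le)
      (Real.exp_le_exp.2 (neg_le_neg ?_)) (Real.exp_nonneg _) (by positivity)
    exact mul_le_mul_of_nonneg_right
      (mul_le_mul_of_nonneg_right (le_max_left _ _) (sq_nonneg _)) hn0.le
  · obtain ⟨L, hL⟩ := h' p hap hpb x n hn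
    refine le_trans (ENNReal.ofReal_le_ofReal ?_) (le_finArm_of G hG p x n L hL)
    refine mul_le_mul (div_le_div_of_nonneg_right (min_le_right _ _) hn0.le)
      (Real.exp_le_exp.2 (neg_le_neg ?_)) (Real.exp_nonneg _) (by positivity)
    exact mul_le_mul_of_nonneg_right
      (mul_le_mul_of_nonneg_right (le_max_right _ _) (abs_nonneg _)) hn0.le

end type0

section iso

universe u v

variable {V : Type u} {W : Type v} {G : SimpleGraph V} {H : SimpleGraph W}

theorem SharpArmConclusion_iso (φ : G ≃g H) (h : SharpArmConclusion H) :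
    SharpArmConclusion G := by
  intro a b ha hb
  obtain ⟨c, C, hc, hC, h⟩ := h a b ha hb
  rw [pc_iso φ] at h
  refine ⟨c, C, hc, hC, fun p hap hpb x n hn => ?_⟩
  have h' := h p hap hpb (φ x) n hn
  rwa [finTailProb_iso φ, finArmProb_iso φ] at h'

theorem sharpArmC_of (hR : ∀ {W : Type} [DecidableEq W] {H : SimpleGraph W} [H.LocallyFinite]
      [Infinite W], H.Connected → IsQuasiTransitive H → 0 < vertexCheeger H → ArmLowAllP H)
    [Infinite V] (G : SimpleGraph V) [G.LocallyFinite] (hG : G.Connected)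
    (hqt : IsQuasiTransitive G) (hna : 0 < vertexCheeger G) : SharpArmConclusion G :=
  universe_reduction (fun H => SharpArmConclusion H)
    (fun h1 h2 h3 => sharpArm0 h1 (tailLowAll0 h1 h2 h3) (hR h1 h2 h3)) G hG hqt hna
    (fun φ h => SharpArmConclusion_iso φ h)

end iso

end Vale.Agent.P165.H161.MF
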