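import Vale.Agent.P165.H161.MK5
import Vale.Agent.P165.H199.ArmAll3

/-!
# The sharp lower bounds in every universe
-/

set_option autoImplicit false

open Finset MeasureTheory ProbabilityTheory Filter Topology
open scoped ENNReal

namespace Vale.Agent.P165.H161.MF

open Vale.Agent.P165.H199

theorem armLowAll0 {V : Type} [DecidableEq V] {G : SimpleGraph V} [G.LocallyFinite]
    [Infinite V] (hG : G.Connected) (hqt : IsQuasiTransitive G) (hna : 0 < vertexCheeger G) :
    ArmLowAll G := by
  obtain ⟨hTU, hTL, -, -⟩ := blocks hG hqt hna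
  have hR : RadUp G := H177.radUp hG hqt hna hTU
  exact armLowAll_of hG hqt hna
    (armSubLow (H794.pc_pos hG hqt) (H177.pc_lt_one hG hqt hna).le (armLow hG hqt hna hTL) hR) hR

universe u

variable {V : Type u}

theorem sharpArmC [Infinite V] (G : SimpleGraph V) [G.LocallyFinite] (hG : G.Connected)
    (hqt : IsQuasiTransitive G) (hna : 0 < vertexCheeger G) : SharpArmConclusion G :=
  sharpArmC_of (fun h1 h2 h3 => armLowAll0 h1 h2 h3) G hG hqt hna

end Vale.Agent.P165.H161.MF
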